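import Vale.Agent.P095.General.Defs
import Vale.Agent.P095.Link
import Vale.Agent.P095.Finite.FiniteMain

/-!
General facts about the working setting: generated subalgebras, copies, order zero families
commuting with a prescribed countable set.
-/

noncomputable section

open Filter Topology

namespace Vale.Agent.P095.General

open Vale.Agent.P101
open Vale.Agent.P101.CombineN (IsOrderZero supp)

universe u v

section Gen

variable {G : Type v} [Group G] {D : Type u} [CStarAlgebra D] {act : G → D ≃⋆ₐ[ℂ] D} {S T : Set D}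

/-- An automorphism preserves the norm. -/
lemma norm_act (φ : D ≃⋆ₐ[ℂ] D) (x : D) : ‖φ x‖ = ‖x‖ := by
  refine le_antisymm (NonUnitalStarAlgHom.norm_apply_le φ x) ?_
  conv_lhs => rw [← φ.symm_apply_apply x]
  exact NonUnitalStarAlgHom.norm_apply_le φ.symm (φ x)

lemma continuous_act (φ : D ≃⋆ₐ[ℂ] D) : Continuous φ :=
  (AddMonoidHomClass.isometry_of_norm φ (norm_act φ)).continuous

lemma act_one (hact : ∀ g h x, act (g * h) x = act g (act h x)) (x : D) : act 1 x = x := by
  apply EquivLike.injective (act 1)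
  rw [← hact, one_mul]

lemma orbit_subset_gen : orbit act S ⊆ gen act S :=
  fun _ hx => StarSubalgebra.le_topologicalClosure _ (StarAlgebra.subset_adjoin ℂ _ hx)

lemma subset_gen : S ⊆ gen act S := fun _ hx => orbit_subset_gen (Or.inl hx)

lemma isClosed_gen : IsClosed (gen act S : Set D) :=
  (StarAlgebra.adjoin ℂ (orbit act S)).isClosed_topologicalClosure

lemma gen_le {B : StarSubalgebra ℂ D} (hB : IsClosed (B : Set D)) (h : orbit act S ⊆ B) :
    gen act S ≤ B :=
  StarSubalgebra.topologicalClosure_minimal (StarAlgebra.adjoin_le h) hB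

lemma gen_mono (h : S ⊆ T) : gen act S ≤ gen act T :=
  gen_le isClosed_gen ((Set.union_subset_union h
    (Set.iUnion_mono fun _ => Set.image_mono h)).trans orbit_subset_gen)

lemma countable_orbit [Countable G] (hS : S.Countable) : (orbit act S).Countable :=
  hS.union (Set.countable_iUnion fun g => hS.image (act g))

lemma act_mem_gen (hact : ∀ g h x, act (g * h) x = act g (act h x)) (g : G) {x : D}
    (hx : x ∈ gen act S) : act g x ∈ gen act S := by
  let B : StarSubalgebra ℂ D := (gen act S).comap (act g : D →⋆ₐ[ℂ] D)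
  have hB : IsClosed (B : Set D) := isClosed_gen.preimage (continuous_act (act g))
  refine gen_le hB ?_ hx
  rintro y (hy | hy)
  · exact orbit_subset_gen (Or.inr (Set.mem_iUnion.2 ⟨g, y, hy, rfl⟩))
  · obtain ⟨h, z, hz, rfl⟩ := Set.mem_iUnion.1 hy
    show act g (act h z) ∈ gen act S
    rw [← hact]
    exact orbit_subset_gen (Or.inr (Set.mem_iUnion.2 ⟨g * h, z, hz, rfl⟩))

/-- The action on a generated subalgebra. -/
def genAct (hact : ∀ g h x, act (g * h) x = act g (act h x)) (S : Set D) (g : G) :
    ↥(gen act S) ≃⋆ₐ[ℂ] ↥(gen act S) where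
  toFun x := ⟨act g x, act_mem_gen hact g x.2⟩
  invFun x := ⟨act g⁻¹ x, act_mem_gen hact g⁻¹ x.2⟩
  left_inv x := Subtype.ext (by simp [← hact, act_one hact])
  right_inv x := Subtype.ext (by simp [← hact, act_one hact])
  map_mul' x y := Subtype.ext (map_mul _ _ _)
  map_add' x y := Subtype.ext (map_add _ _ _)
  map_star' x := Subtype.ext (map_star _ _)
  map_smul' z x := Subtype.ext (map_smul _ _ _)

@[simp] lemma coe_genAct (hact : ∀ g h x, act (g * h) x = act g (act h x)) (g : G)
    (x : ↥(gen act S)) : (genAct hact S g x : D) = act g x := rfl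

lemma genAct_mul (hact : ∀ g h x, act (g * h) x = act g (act h x)) (g h : G)
    (x : ↥(gen act S)) : genAct hact S (g * h) x = genAct hact S g (genAct hact S h x) :=
  Subtype.ext (hact g h x)

lemma separable_gen [Countable G] (hS : S.Countable) :
    TopologicalSpace.SeparableSpace ↥(gen act S) := by
  have h : TopologicalSpace.IsSeparable (StarAlgebra.adjoin ℂ (orbit act S) : Set D) := by
    let O : Set D := orbit act S ∪ star '' orbit act S
    have hO : O.Countable := (countable_orbit hS).union ((countable_orbit hS).image _)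
    have h1 : (StarAlgebra.adjoin ℂ (orbit act S) : Set D) =
        (Submodule.span ℂ (Submonoid.closure O : Set D) : Set D) := by
      have := Algebra.adjoin_eq_span ℂ O
      rw [← StarSubalgebra.coe_toSubalgebra, StarAlgebra.adjoin_toSubalgebra, ← Set.image_star]
      exact congrArg (fun M : Submodule ℂ D => (M : Set D)) this
    rw [h1]
    refine TopologicalSpace.IsSeparable.span ?_
    rw [Submonoid.closure_eq_mrange, MonoidHom.coe_mrange]
    have := hO.to_subtype
    exact (Set.countable_range _).isSeparable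
  exact (h.closure).separableSpace

end Gen

namespace Sys

variable {G : Type v} [Group G] {D : Type u} [CStarAlgebra D] (sys : Sys G D)

include sys

lemma act_one' (x : D) : sys.act 1 x = x := act_one sys.act_mul x

/-- The identity element under the copies. -/
lemma exists_copies (S : Set D) (hS : S.Countable) :
    ∃ c : Copies ↥(gen sys.act S) D ℕ,
      (∀ k g x, c.hom k (genAct sys.act_mul S g x) = sys.act g (c.hom k x)) ∧
      (∀ k x (y : ↥(gen sys.act S)), Commute (c.hom k x) (y : D)) ∧
      ∀ k (x : ↥(gen sys.act S)), (∀ g, sys.act g x = x) → ∀ g, sys.act g (c.hom k x) = c.hom k x := by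
  obtain ⟨ι, h1, h2, h3⟩ := sys.copies S hS
  refine ⟨⟨ι, h2⟩, fun k g x => h1 k g x _ rfl, h3, fun k x hx g => ?_⟩
  exact (h1 k g x x (hx g).symm).symm

/-- Commutators generate. -/
lemma full_commutators : Full {x : D | ∃ a b, a * b - b * a = x} := by
  by_contra h
  exact sys.noChar.false (exists_char_of_not_full h).some

/-- An algebra with a witness and copies commuting with a prescribed set. -/
lemma exists_witness_copies (S : Set D) (hS : S.Countable) :
    ∃ (B : Type u) (_ : CStarAlgebra B) (c : Copies B D ℕ), HasWitness B ∧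
      ∀ k x, ∀ s ∈ S, Commute (c.hom k x) s := by
  obtain ⟨F, hF⟩ := exists_finite_witness sys.full_commutators
  obtain ⟨c, -, hc, -⟩ := sys.exists_copies ((F : Set D) ∪ S) (F.countable_toSet.union hS)
  exact ⟨↥(gen sys.act ((F : Set D) ∪ S)), inferInstance, c,
    @hF _ (Set.subset_union_left.trans subset_gen) isClosed_gen,
    fun k x s hs => hc k x ⟨s, subset_gen (Or.inr hs)⟩⟩

/-- Relations of dimension drop algebras of arbitrarily large size, commuting with a prescribed
countable set. -/
theorem exists_comparisonN (S : Set D) (hS : S.Countable) (m : ℕ) :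
    ∃ (n : ℕ) (z : Fin n) (E : Fin n → Fin n → D) (v : D), m ≤ n ∧ Even n ∧ IsOrderZero E ∧
      (∀ i j, star (E i j) = E j i) ∧ (∀ i, ∃ r, star r * r = E i i) ∧
      star v * v = 1 - supp E ∧ E z z * v = v ∧
      ∀ s ∈ S, (∀ i j, Commute (E i j) s) ∧ Commute v s := by
  classical
  let S' : Set D := S ∪ star '' S
  obtain ⟨B, _, c, hB, hc⟩ := sys.exists_witness_copies S' (hS.union (hS.image _))
  let K : StarSubalgebra ℂ D := StarSubalgebra.centralizer ℂ S'
  have hmem : ∀ k x, c.hom k x ∈ K := fun k x => by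
    rw [StarSubalgebra.mem_centralizer_iff]
    intro s hs
    refine ⟨(hc k x s hs).eq.symm, (hc k x (star s) ?_).eq.symm⟩
    rcases hs with h | ⟨t, ht, rfl⟩
    · exact Or.inr ⟨s, h, rfl⟩
    · rw [star_star]; exact Or.inl ht
  have hK : IsClosed (K : Set D) := by
    have : (K : Set D) = Set.centralizer (S' ∪ star S') :=
      StarSubalgebra.coe_centralizer ℂ S'
    rw [this]
    exact Set.isClosed_centralizer _
  let cK : Copies B ↥K ℕ :=
    ⟨fun k => StarAlgHom.codRestrict (c.hom k) K (hmem k),
      fun i j h a b => Subtype.ext (c.comm i j h a b).eq⟩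
  obtain ⟨n1, k1⟩ := stage1_ok B hB
  obtain ⟨B1, _, ⟨d1⟩, ⟨e1⟩⟩ := regroup_ok B ↥K n1 cK
  obtain ⟨n2, k2⟩ := stage2_ok B1 (k1 B1 d1)
  obtain ⟨B2, _, ⟨d2⟩, ⟨e2⟩⟩ := regroup_ok B1 ↥K n2 e1
  obtain ⟨n3, k3⟩ := stage3_ok B2 (k2 B2 d2)
  obtain ⟨B3, _, ⟨d3⟩, ⟨e3⟩⟩ := regroup_ok B2 ↥K n3 e2
  obtain ⟨x₀, hx₀, hx₀f⟩ := k3 B3 d3
  obtain ⟨B4, _, ⟨d4⟩, ⟨e4⟩⟩ := regroup_ok B3 ↥K (m + 1) e3
  obtain ⟨M, E, z₀, hM, hE, hEs, hEf, -⟩ := Link.exists_family d4 hx₀ hx₀f (m + 1) le_rfl
  obtain ⟨l, hl⟩ := Vale.Agent.P101.Stage4.stage4N.{u, u} hE hEs hEf colour_ok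
  obtain ⟨F, v, hF, hFs, hFp, hv, hfix⟩ := hl ↥K
    ⟨fun i => e4.hom i.1, fun i j hij => e4.comm _ _ fun e => hij (Fin.ext e)⟩
  have hKc : ∀ (y : ↥K), ∀ s ∈ S, Commute (y : D) s := fun y s hs =>
    (((StarSubalgebra.mem_centralizer_iff ℂ).1 y.2 s (Or.inl hs)).1).symm
  refine ⟨M, z₀, fun i j => (F i j : D), (v : D), ?_, ?_, ⟨fun i j k l' => ?_⟩,
    fun i j => congrArg Subtype.val (hFs i j), fun i => ?_, ?_, congrArg Subtype.val hfix,
    fun s hs => ⟨fun i j => hKc _ s hs, hKc _ s hs⟩⟩
  · rw [hM]; exact (Nat.le_succ m).trans Nat.lt_two_pow_self.le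
  · rw [hM]; exact (Nat.even_pow.2 ⟨even_two, m.succ_ne_zero⟩)
  · have := congrArg Subtype.val (hF.mul_eq i j k l')
    split_ifs at this ⊢ with h
    · simpa [supp, AddSubmonoidClass.coe_finsetSum] using this
    · simpa using this
  · obtain ⟨r, hr⟩ := hFp i
    exact ⟨r, congrArg Subtype.val hr⟩
  · have := congrArg Subtype.val hv
    simpa [supp, AddSubmonoidClass.coe_finsetSum] using this

end Sys

namespace QT

variable {D E : Type u} [CStarAlgebra D] [CStarAlgebra E]

/-- The pullback along a unital homomorphism. -/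
def comp (Q : QT E) (φ : D →⋆ₐ[ℂ] E) : QT D where
  q x := Q.q (φ x)
  nonneg x := by rw [map_mul, map_star]; exact Q.nonneg _
  one := by rw [map_one]; exact Q.one
  smul r x hr := by
    rw [← Complex.coe_smul, map_smul, Complex.coe_smul, map_mul, map_star]
    exact Q.smul r _ hr
  swap x := by simp only [map_mul, map_star]; exact Q.swap _
  mono x y := by simp only [map_add, map_mul, map_star]; exact Q.mono _ _
  orth x y h := by
    simp only [map_add, map_mul, map_star]
    refine Q.orth _ _ ?_
    simpa only [map_mul, map_star, map_zero] using congrArg φ h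
  tri x y t ht := by simp only [map_add, map_mul, map_star]; exact Q.tri _ _ t ht

lemma comp_sq (Q : QT E) (φ : D →⋆ₐ[ℂ] E) (x : D) : (Q.comp φ).sq x = Q.sq (φ x) := by
  simp [sq, comp, map_mul, map_star]

end QT

end Vale.Agent.P095.General
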