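import Vale.Agent.P095.General.Defs

/-!
Block elements shared by the modules Fair and Spread: collective elements, kernels, and the
realisation of Gaussian data in commutative algebras.
-/

noncomputable section

open Filter Topology
open scoped ComplexConjugate

namespace Vale.Agent.P095.General

universe u v

section Realise

open scoped ComplexOrder

variable {A : Type u} [CStarAlgebra A]

/-- A tracial state on squares which vanishes on commutators factors through a commutative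
C*-algebra, continuously and killing the null ideal. -/
theorem exists_comm_quotient' (Φ : A →ₗ[ℂ] ℂ) (hone : Φ 1 = 1)
    (hpos : ∀ x, ∃ r : ℝ, 0 ≤ r ∧ Φ (star x * x) = (r : ℂ))
    (hswap : ∀ x, Φ (star x * x) = Φ (x * star x))
    (hcomm : ∀ a b, Φ (star (a * b - b * a) * (a * b - b * a)) = 0) :
    ∃ (M : Type u) (_ : CStarAlgebra M) (π : A →⋆ₐ[ℂ] M) (φ : M →ₗ[ℂ] ℂ),
      (∀ x y : M, x * y = y * x) ∧ φ 1 = 1 ∧
      (∀ x, ∃ r : ℝ, 0 ≤ r ∧ φ (star x * x) = (r : ℂ)) ∧ (∀ a, φ (π a) = Φ a) ∧ Continuous φ ∧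
      ∀ a, (∀ b, Φ (star (a * b) * (a * b)) = 0) → π a = 0 := by
  let _ : PartialOrder A := CStarAlgebra.spectralOrder A
  have _ : StarOrderedRing A := CStarAlgebra.spectralOrderedRing A
  let f : A →ₚ[ℂ] ℂ := PositiveLinearMap.mk₀ Φ fun x hx => by
    obtain ⟨y, rfl⟩ := CStarAlgebra.nonneg_iff_eq_star_mul_self.1 hx
    obtain ⟨r, hr, h⟩ := hpos y
    rw [h]
    exact Complex.zero_le_real.2 hr
  have hf : ∀ a, f a = Φ a := fun a => rfl
  let π₀ := f.gnsStarAlgHom
  have hzero : ∀ c : A, (∀ d, f (star (c * d) * (c * d)) = 0) → π₀ c = 0 := fun c hz => by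
    ext v
    induction v using UniformSpace.Completion.induction_on with
    | hp => exact isClosed_eq (π₀ c).continuous continuous_const
    | ih x =>
      show f.gnsNonUnitalStarAlgHom c x = 0
      rw [f.gnsNonUnitalStarAlgHom_apply_coe]
      have : ‖f.leftMulMapPreGNS c x‖ = 0 := by
        rw [f.preGNS_norm_def]
        have : f.ofPreGNS (f.leftMulMapPreGNS c x) = c * f.ofPreGNS x := by simp
        rw [this, hz]
        simp
      exact norm_eq_zero.1 (by rw [UniformSpace.Completion.norm_coe, this])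
  have hkill : ∀ a b : A, Commute (π₀ a) (π₀ b) := fun a b => by
    rw [commute_iff_eq, ← sub_eq_zero, ← map_mul, ← map_mul, ← map_sub]
    set c := a * b - b * a with hc
    have hcs : Φ (c * star c) = 0 := (hswap c).symm.trans (hcomm a b)
    refine hzero c fun d => ?_
    rw [hf, hswap]
    have h2 : c * d * star (c * d) ≤ ‖d * star d‖ • (c * star c) := by
      rw [star_mul, ← mul_assoc, mul_assoc c d]
      exact CStarAlgebra.star_right_conjugate_le_norm_smul
    have h3 : f (c * d * star (c * d)) ≤ f (‖d * star d‖ • (c * star c)) :=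
      OrderHomClass.mono f h2
    have h4 : f (‖d * star d‖ • (c * star c)) = 0 := by
      rw [← Complex.coe_smul, map_smul, hf, hcs, smul_zero]
    exact le_antisymm (h3.trans_eq h4) (f.map_nonneg (mul_star_self_nonneg _))
  let M₀ : StarSubalgebra ℂ (f.GNS →L[ℂ] f.GNS) := π₀.range.topologicalClosure
  have hcl : IsClosed (M₀ : Set (f.GNS →L[ℂ] f.GNS)) :=
    π₀.range.isClosed_topologicalClosure
  let inst : CStarAlgebra ↥M₀ := StarSubalgebra.cstarAlgebra M₀ (h_closed := hcl)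
  let π : A →⋆ₐ[ℂ] ↥M₀ := StarAlgHom.codRestrict π₀ M₀ fun a =>
    StarSubalgebra.le_topologicalClosure _ ⟨a, rfl⟩
  let Ω : f.GNS := ((f.toPreGNS 1 : f.PreGNS) : f.GNS)
  let φ : ↥M₀ →ₗ[ℂ] ℂ :=
    { toFun := fun T => inner ℂ Ω ((T : f.GNS →L[ℂ] f.GNS) Ω)
      map_add' := fun x y => by simp [inner_add_right]
      map_smul' := fun z x => by simp [inner_smul_right] }
  have hφ : ∀ a, φ (π a) = Φ a := fun a => by
    show inner ℂ Ω (f.gnsNonUnitalStarAlgHom a Ω) = Φ a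
    rw [f.gnsNonUnitalStarAlgHom_apply_coe, UniformSpace.Completion.inner_coe,
      f.preGNS_inner_def]
    simp [hf]
  refine ⟨↥M₀, inst, π, φ, fun x y => Subtype.ext ?_, ?_, fun x => ?_, hφ,
    show Continuous fun T : ↥M₀ => inner ℂ Ω ((T : f.GNS →L[ℂ] f.GNS) Ω) by fun_prop,
    fun a ha => Subtype.ext (hzero a ha)⟩
  · have h1 : ∀ p ∈ π₀.range, ∀ q ∈ π₀.range, p * q = q * p := by
      rintro _ ⟨a, rfl⟩ _ ⟨b, rfl⟩
      exact hkill a b
    have hmul : ∀ p ∈ (M₀ : Set (f.GNS →L[ℂ] f.GNS)), ∀ q ∈ (M₀ : Set (f.GNS →L[ℂ] f.GNS)),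
        p * q = q * p := by
      have hc : IsClosed {p : (f.GNS →L[ℂ] f.GNS) × (f.GNS →L[ℂ] f.GNS) | p.1 * p.2 = p.2 * p.1} :=
        isClosed_eq (continuous_fst.mul continuous_snd) (continuous_snd.mul continuous_fst)
      intro p hp q hq
      have : (p, q) ∈ closure ((π₀.range : Set (f.GNS →L[ℂ] f.GNS)) ×ˢ
          (π₀.range : Set (f.GNS →L[ℂ] f.GNS))) := by
        rw [closure_prod_eq]; exact ⟨hp, hq⟩
      exact closure_minimal (fun z hz => h1 _ hz.1 _ hz.2) hc this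
    exact hmul _ x.2 _ y.2
  · rw [← map_one π, hφ, hone]
  · refine ⟨‖(x : f.GNS →L[ℂ] f.GNS) Ω‖ ^ 2, by positivity, ?_⟩
    show inner ℂ Ω ((star (x : f.GNS →L[ℂ] f.GNS) * (x : f.GNS →L[ℂ] f.GNS)) Ω) = _
    rw [ContinuousLinearMap.star_eq_adjoint, mul_apply_eq_comp,
      ContinuousLinearMap.adjoint_inner_right, inner_self_eq_norm_sq_to_K]
    simp

/-- A tracial state on squares which vanishes on commutators factors through a commutative
C*-algebra. -/
theorem exists_comm_quotient (Φ : A →ₗ[ℂ] ℂ) (hone : Φ 1 = 1)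
    (hpos : ∀ x, ∃ r : ℝ, 0 ≤ r ∧ Φ (star x * x) = (r : ℂ))
    (hswap : ∀ x, Φ (star x * x) = Φ (x * star x))
    (hcomm : ∀ a b, Φ (star (a * b - b * a) * (a * b - b * a)) = 0) :
    ∃ (M : Type u) (_ : CStarAlgebra M) (π : A →⋆ₐ[ℂ] M) (φ : M →ₗ[ℂ] ℂ),
      (∀ x y : M, x * y = y * x) ∧ φ 1 = 1 ∧
      (∀ x, ∃ r : ℝ, 0 ≤ r ∧ φ (star x * x) = (r : ℂ)) ∧ ∀ a, φ (π a) = Φ a := by
  obtain ⟨M, i, π, φ, h1, h2, h3, h4, -, -⟩ := exists_comm_quotient' Φ hone hpos hswap hcomm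
  exact ⟨M, i, π, φ, h1, h2, h3, h4⟩

end Realise

section OfComm

variable {M : Type u} [CStarAlgebra M] {ι : Type v} {I : Type}

/-- The generators of the algebra outside a group. -/
def outGen (f : I → ι → M) (K K' : I → ι → ι → M) (base : StarSubalgebra ℂ M) (a : I) : Set M :=
  (base : Set M) ∪ {x | ∃ b, b ≠ a ∧ ∃ g, f b g = x} ∪
    {x | ∃ b g h, K b g h = x ∨ K' b g h = x}

/-- Gaussian data in a commutative algebra from the two moment conditions on products of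
generators. -/
theorem exists_gauss [Fintype ι] {τ C : ℝ} (hc : ∀ x y : M, x * y = y * x) (Φ : M →ₗ[ℂ] ℂ)
    (one : Φ 1 = 1) (pos : ∀ x, ∃ r : ℝ, 0 ≤ r ∧ Φ (star x * x) = (r : ℂ))
    (f : I → ι → M) (K K' : I → ι → ι → M) (f_sa : ∀ a g, IsSelfAdjoint (f a g))
    (f_norm : ∀ a g, ‖f a g‖ ≤ C) (K_star : ∀ a g h, star (K a g h) = K a h g)
    (K_norm : ∀ a g h, ‖K a g h‖ ≤ 2) (K_diag : ∀ a g, K a g g = 1)
    (K_psd : ∀ a (t : ι → ℂ), ∃ B, star B * B = ∑ g, ∑ h, (conj (t g) * t h) • K a g h)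
    (K_near : ∀ a g h, ‖K' a g h - K a g h‖ ≤ τ) (base : StarSubalgebra ℂ M)
    (mean : ∀ a g, ∀ F ∈ Submonoid.closure (outGen f K K' base a ∪ star '' outGen f K K' base a),
      Φ (F * f a g) = 0)
    (pair : ∀ a g h, ∀ F ∈ Submonoid.closure (outGen f K K' base a ∪ star '' outGen f K K' base a),
      Φ (F * (f a g * f a h)) = Φ (F * K' a g h))
    (hΦ : Continuous Φ) :
    ∃ d : Gauss M ι I τ C, d.f = f ∧ d.K = K ∧ d.K' = K' ∧ d.Φ = Φ ∧ d.base = base := by
  have key : ∀ a (L : M →ₗ[ℂ] ℂ), Continuous L →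
      (∀ F ∈ Submonoid.closure (outGen f K K' base a ∪ star '' outGen f K K' base a), L F = 0) →
      ∀ F ∈ (StarAlgebra.adjoin ℂ (outGen f K K' base a)).topologicalClosure, L F = 0 := by
    intro a L hL h F hF
    have h1 : ∀ x ∈ (StarAlgebra.adjoin ℂ (outGen f K K' base a) : Set M), L x = 0 := fun x hx => by
      rw [SetLike.mem_coe, ← StarSubalgebra.mem_toSubalgebra, StarAlgebra.adjoin_toSubalgebra,
        ← Set.image_star, ← Subalgebra.mem_toSubmodule, Algebra.adjoin_eq_span] at hx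
      exact Submodule.span_induction (p := fun x _ => L x = 0) (fun x hx => h x hx) (map_zero L)
        (fun x y _ _ hx hy => by rw [map_add, hx, hy, add_zero])
        (fun c x _ hx => by rw [map_smul, hx, smul_zero]) hx
    exact closure_minimal h1 (isClosed_eq hL continuous_const) hF
  refine ⟨{
    Φ := Φ, one := one, pos := pos, f := f, K := K, K' := K', f_sa := f_sa, f_norm := f_norm,
    K_star := K_star, K_norm := K_norm, K_diag := K_diag, K_psd := K_psd, K_near := K_near,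
    comm_ff := fun _ _ _ _ _ => hc _ _,
    comm_Kf := fun _ _ _ _ _ => ⟨hc _ _, hc _ _⟩,
    comm_KK := fun _ _ _ _ _ _ => ⟨hc _ _, hc _ _, hc _ _⟩,
    base := base, base_comm := fun _ _ _ _ _ => ⟨hc _ _, hc _ _, hc _ _⟩,
    out := fun a => (StarAlgebra.adjoin ℂ (outGen f K K' base a)).topologicalClosure,
    out_closed := fun a => (StarAlgebra.adjoin ℂ _).isClosed_topologicalClosure,
    out_base := fun a x hx => StarSubalgebra.le_topologicalClosure _
      (StarAlgebra.subset_adjoin ℂ _ (Or.inl (Or.inl hx))),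
    out_f := fun a b hab g => StarSubalgebra.le_topologicalClosure _
      (StarAlgebra.subset_adjoin ℂ _ (Or.inl (Or.inr ⟨b, Ne.symm hab, g, rfl⟩))),
    out_K := fun a b g h => ⟨StarSubalgebra.le_topologicalClosure _
      (StarAlgebra.subset_adjoin ℂ _ (Or.inr ⟨b, g, h, Or.inl rfl⟩)),
      StarSubalgebra.le_topologicalClosure _
      (StarAlgebra.subset_adjoin ℂ _ (Or.inr ⟨b, g, h, Or.inr rfl⟩))⟩,
    out_comm := fun _ _ _ _ => hc _ _,
    mean := fun a g F hF => key a (Φ ∘ₗ LinearMap.mulRight ℂ (f a g))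
      (hΦ.comp (continuous_mul_const _)) (fun F hF => mean a g F hF) F hF,
    pair := fun a g h F hF => sub_eq_zero.1 <| key a
      (Φ ∘ₗ LinearMap.mulRight ℂ (f a g * f a h) - Φ ∘ₗ LinearMap.mulRight ℂ (K' a g h))
      ((hΦ.comp (continuous_mul_const _)).sub (hΦ.comp (continuous_mul_const _)))
      (fun F hF => sub_eq_zero.2 (pair a g h F hF)) F hF },
    rfl, rfl, rfl, rfl, rfl⟩

end OfComm

section Collective

open Finset

variable {A : Type u} [CStarAlgebra A] {R : ℕ}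

/-- The normalising factor of R blocks. -/
def rt (R : ℕ) : ℝ := (Real.sqrt R)⁻¹

/-- The collective element of a family of blocks. -/
def coll (x : Fin R → A) : A := rt R • ∑ r, x r

/-- The kernel of two families of blocks. -/
def kern (x y : Fin R → A) : A := (R : ℝ)⁻¹ • ∑ r, x r * y r

/-- The bounded version of a collective element. -/
def bsin (η : ℝ) (S : A) : A := cfc (fun s : ℝ => Real.sin (η * s) / η) S

/-- The kernel seen by the bounded versions. -/
def shk (η t : ℝ) : ℝ := Real.exp (-η ^ 2) * Real.sinh (η ^ 2 * t) / η ^ 2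

lemma rt_nonneg (R : ℕ) : 0 ≤ rt R := inv_nonneg.2 (Real.sqrt_nonneg _)

lemma rt_mul_self (R : ℕ) : rt R * rt R = (R : ℝ)⁻¹ := by
  rw [rt, ← mul_inv, Real.mul_self_sqrt (Nat.cast_nonneg R)]

lemma coll_sa {x : Fin R → A} (h : ∀ r, IsSelfAdjoint (x r)) : IsSelfAdjoint (coll x) :=
  (IsSelfAdjoint.all _).smul (isSelfAdjoint_sum _ fun r _ => h r)

lemma bsin_sa (η : ℝ) (S : A) : IsSelfAdjoint (bsin η S) := cfc_predicate _ _

lemma norm_bsin {η : ℝ} (hη : 0 < η) (S : A) : ‖bsin η S‖ ≤ η⁻¹ := by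
  refine norm_cfc_le (inv_nonneg.2 hη.le) fun s _ => ?_
  rw [Real.norm_eq_abs, abs_div, abs_of_pos hη, div_eq_mul_inv]
  exact mul_le_of_le_one_left (inv_nonneg.2 hη.le) (Real.abs_sin_le_one _)

lemma norm_kern_le {x y : Fin R → A} (hx : ∀ r, ‖x r‖ ≤ 1) (hy : ∀ r, ‖y r‖ ≤ 1) :
    ‖kern x y‖ ≤ 1 := by
  rw [kern, norm_smul, Real.norm_eq_abs, abs_of_nonneg (by positivity)]
  have : ‖∑ r, x r * y r‖ ≤ R := by
    refine (norm_sum_le _ _).trans ?_
    refine (sum_le_sum (g := fun _ => (1 : ℝ)) fun r _ => ?_).trans (by simp)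
    exact (norm_mul_le _ _).trans (mul_le_one₀ (hx r) (norm_nonneg _) (hy r))
  exact (mul_le_mul_of_nonneg_left this (by positivity)).trans inv_mul_le_one

lemma coll_mul_coll (x y : Fin R → A) :
    coll x * coll y = kern x y + (R : ℝ)⁻¹ • ∑ r, ∑ s ∈ univ.erase r, x r * y s := by
  rw [coll, coll, smul_mul_smul_comm, rt_mul_self, kern, ← smul_add, sum_mul_sum,
    ← sum_add_distrib]
  congr 1
  refine sum_congr rfl fun r _ => ?_
  rw [← add_sum_erase univ _ (mem_univ r)]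

/-- Commutators of two sums of blocks only see the diagonal. -/
lemma norm_comm_sums {x y : Fin R → A} {a b : ℝ} (hx : ∀ r, ‖x r‖ ≤ a) (hy : ∀ r, ‖y r‖ ≤ b)
    (hxy : ∀ r s, r ≠ s → Commute (x r) (y s)) :
    ‖(∑ r, x r) * (∑ r, y r) - (∑ r, y r) * (∑ r, x r)‖ ≤ R * (2 * (a * b)) := by
  rw [sum_mul_sum, sum_mul_sum, sum_comm (f := fun r s => y r * x s), ← sum_sub_distrib]
  refine (norm_sum_le _ _).trans ?_
  refine (sum_le_sum (g := fun _ => 2 * (a * b)) fun r _ => ?_).trans (by simp)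
  rw [← sum_sub_distrib, sum_eq_single r (fun s _ hs => sub_eq_zero.2 (hxy r s (Ne.symm hs)).eq)
    (fun h => absurd (mem_univ r) h)]
  have ha : 0 ≤ a := (norm_nonneg _).trans (hx r)
  have h1 : ‖x r * y r‖ ≤ a * b :=
    (norm_mul_le _ _).trans (mul_le_mul (hx r) (hy r) (norm_nonneg _) ha)
  have h2 : ‖y r * x r‖ ≤ a * b := (norm_mul_le _ _).trans
    ((mul_comm _ _).trans_le (mul_le_mul (hx r) (hy r) (norm_nonneg _) ha))
  linarith [norm_sub_le (x r * y r) (y r * x r)]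

lemma norm_comm_kern {x y z w : Fin R → A} (hx : ∀ r, ‖x r‖ ≤ 1) (hy : ∀ r, ‖y r‖ ≤ 1)
    (hz : ∀ r, ‖z r‖ ≤ 1) (hw : ∀ r, ‖w r‖ ≤ 1)
    (h : ∀ r s, r ≠ s → Commute (x r * y r) (z s * w s)) :
    ‖kern x y * kern z w - kern z w * kern x y‖ ≤ 2 / R := by
  rw [kern, kern, smul_mul_smul_comm, smul_mul_smul_comm, ← smul_sub, norm_smul,
    Real.norm_eq_abs, abs_of_nonneg (by positivity)]
  have h1 : ∀ r, ‖x r * y r‖ ≤ 1 := fun r =>
    (norm_mul_le _ _).trans (mul_le_one₀ (hx r) (norm_nonneg _) (hy r))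
  have h2 : ∀ r, ‖z r * w r‖ ≤ 1 := fun r =>
    (norm_mul_le _ _).trans (mul_le_one₀ (hz r) (norm_nonneg _) (hw r))
  refine (mul_le_mul_of_nonneg_left (norm_comm_sums h1 h2 h) (by positivity)).trans ?_
  rcases Nat.eq_zero_or_pos R with rfl | hR
  · simp
  · have : (R : ℝ) ≠ 0 := by positivity
    exact le_of_eq (by field_simp)

lemma norm_comm_kern_coll {x y z : Fin R → A} (hx : ∀ r, ‖x r‖ ≤ 1) (hy : ∀ r, ‖y r‖ ≤ 1)
    (hz : ∀ r, ‖z r‖ ≤ 1) (h : ∀ r s, r ≠ s → Commute (x r * y r) (z s)) :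
    ‖kern x y * coll z - coll z * kern x y‖ ≤ 2 * rt R := by
  rw [kern, coll, smul_mul_smul_comm, smul_mul_smul_comm, mul_comm (rt R) ((R : ℝ)⁻¹),
    ← smul_sub, norm_smul, Real.norm_eq_abs, abs_of_nonneg (mul_nonneg (by positivity) (rt_nonneg R))]
  have h1 : ∀ r, ‖x r * y r‖ ≤ 1 := fun r =>
    (norm_mul_le _ _).trans (mul_le_one₀ (hx r) (norm_nonneg _) (hy r))
  refine (mul_le_mul_of_nonneg_left (norm_comm_sums h1 hz h)
    (mul_nonneg (by positivity) (rt_nonneg R))).trans ?_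
  rcases Nat.eq_zero_or_pos R with rfl | hR
  · simp [rt]
  · have : (R : ℝ) ≠ 0 := by positivity
    exact le_of_eq (by field_simp)

/-- The double commutator of collective elements is small. -/
lemma norm_comm_comm_coll {x y : Fin R → A} (hx : ∀ r, ‖x r‖ ≤ 1) (hy : ∀ r, ‖y r‖ ≤ 1)
    (hxy : ∀ r s, r ≠ s → Commute (x r) (y s)) (hxx : ∀ r s, r ≠ s → Commute (x r) (x s)) :
    ‖coll x * (coll x * coll y - coll y * coll x) -
        (coll x * coll y - coll y * coll x) * coll x‖ ≤ 4 * rt R := by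
  have hd : coll x * coll y - coll y * coll x = (R : ℝ)⁻¹ • ∑ r, (x r * y r - y r * x r) := by
    rw [coll, coll, smul_mul_smul_comm, smul_mul_smul_comm, rt_mul_self, ← smul_sub, sum_mul_sum,
      sum_mul_sum, sum_comm (f := fun r s => y r * x s), ← sum_sub_distrib]
    congr 1
    refine sum_congr rfl fun r _ => ?_
    rw [← sum_sub_distrib, sum_eq_single r (fun s _ hs => sub_eq_zero.2 (hxy r s (Ne.symm hs)).eq)
      (fun h => absurd (mem_univ r) h)]
  have h1 : ∀ r, ‖x r * y r - y r * x r‖ ≤ 2 := fun r => by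
    have a := (norm_mul_le (x r) (y r)).trans (mul_le_one₀ (hx r) (norm_nonneg _) (hy r))
    have b := (norm_mul_le (y r) (x r)).trans (mul_le_one₀ (hy r) (norm_nonneg _) (hx r))
    linarith [norm_sub_le (x r * y r) (y r * x r)]
  rw [hd, coll, smul_mul_smul_comm, smul_mul_smul_comm, mul_comm ((R : ℝ)⁻¹) (rt R), ← smul_sub,
    norm_smul, Real.norm_eq_abs, abs_of_nonneg (mul_nonneg (rt_nonneg R) (by positivity))]
  refine (mul_le_mul_of_nonneg_left (norm_comm_sums hx h1 fun r s h =>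
    ((hxx r s h).mul_right (hxy r s h)).sub_right ((hxy r s h).mul_right (hxx r s h)))
    (mul_nonneg (rt_nonneg R) (by positivity))).trans ?_
  rcases Nat.eq_zero_or_pos R with rfl | hR
  · simp [rt]
  · have : (R : ℝ) ≠ 0 := by positivity
    exact le_of_eq (by field_simp; ring)

lemma norm_sub_cfc_shk {η τ : ℝ} (hτ : 0 ≤ τ) (h : ∀ t, |t| ≤ 1 → |shk η t - t| ≤ τ)
    {K : A} (hK : IsSelfAdjoint K) (h1 : ‖K‖ ≤ 1) : ‖cfc (shk η) K - K‖ ≤ τ := by
  have hc : Continuous (shk η) := by unfold shk; fun_prop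
  conv_lhs => arg 1; arg 2; rw [← cfc_id' ℝ K]
  rw [← cfc_sub (shk η) (fun t => t) K]
  refine norm_cfc_le hτ fun t ht => ?_
  refine h t ?_
  rcases subsingleton_or_nontrivial A with _ | _
  · exact absurd ht (by simp [spectrum.of_subsingleton])
  · rw [← Real.norm_eq_abs]
    exact (spectrum.norm_le_norm_of_mem ht).trans h1

/-- The kernel seen by the bounded versions tends to the kernel uniformly. -/
lemma exists_shk_near {τ : ℝ} (hτ : 0 < τ) :
    ∃ η : ℝ, 0 < η ∧ η ≤ 1 ∧ ∀ t, |t| ≤ 1 → |shk η t - t| ≤ τ := by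
  refine ⟨min 1 (τ / 4), by positivity, min_le_left _ _, fun t ht => ?_⟩
  set η := min 1 (τ / 4)
  have hη : 0 < η := by positivity
  have hη1 : η ≤ 1 := min_le_left _ _
  have hηt : η ≤ τ / 4 := min_le_right _ _
  have h2 : η ^ 2 ≤ η := by nlinarith
  have hu : |η ^ 2 * t| ≤ η ^ 2 := by
    rw [abs_mul, abs_of_pos (by positivity)]; exact mul_le_of_le_one_right (by positivity) ht
  have hu1 : |η ^ 2 * t| ≤ 1 := hu.trans (h2.trans hη1)
  have hs : |Real.sinh (η ^ 2 * t) - η ^ 2 * t| ≤ (η ^ 2) ^ 2 := by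
    have e1 := Real.abs_exp_sub_one_sub_id_le hu1
    have e2 := Real.abs_exp_sub_one_sub_id_le (x := -(η ^ 2 * t)) (by rwa [abs_neg])
    have hsq : (η ^ 2 * t) ^ 2 ≤ (η ^ 2) ^ 2 := by
      rw [← sq_abs (η ^ 2 * t)]; exact pow_le_pow_left₀ (abs_nonneg _) hu 2
    rw [neg_sq] at e2
    rw [Real.sinh_eq, abs_le]
    rw [abs_le] at e1 e2
    constructor <;> linarith [e1.1, e1.2, e2.1, e2.2]
  have he : |Real.exp (-η ^ 2) - 1| ≤ 2 * η ^ 2 := by
    refine (Real.abs_exp_sub_one_le (x := -η ^ 2) ?_).trans (le_of_eq ?_)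
    · rw [abs_neg, abs_of_pos (by positivity)]; exact h2.trans hη1
    · rw [abs_neg, abs_of_pos (by positivity)]
  have hn : η ^ 2 ≠ 0 := by positivity
  have : shk η t - t = Real.exp (-η ^ 2) * ((Real.sinh (η ^ 2 * t) - η ^ 2 * t) / η ^ 2) +
      (Real.exp (-η ^ 2) - 1) * t := by
    unfold shk; field_simp; ring
  rw [this]
  have h3 : |(Real.sinh (η ^ 2 * t) - η ^ 2 * t) / η ^ 2| ≤ η ^ 2 := by
    rw [abs_div, abs_of_pos (a := η ^ 2) (by positivity), div_le_iff₀ (by positivity), ← sq]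
    exact hs
  refine (abs_add_le _ _).trans ?_
  rw [abs_mul, abs_mul, Real.abs_exp]
  nlinarith [Real.exp_pos (-η ^ 2), Real.exp_le_one_iff.2 (neg_nonpos.2 (sq_nonneg η)),
    abs_nonneg t, abs_nonneg ((Real.sinh (η ^ 2 * t) - η ^ 2 * t) / η ^ 2),
    abs_nonneg (Real.exp (-η ^ 2) - 1)]

end Collective

end Vale.Agent.P095.General
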