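import Vale.Agent.P095.General.Central.Sat
import Vale.Agent.P095.General.Central.Copies
import Vale.Agent.P095.General.Central.Reps
import Vale.Agent.P095.Finite.FiniteMain

/-!
The central sequence algebra of a separable C*-algebra as a working setting, and the dimension
drop relations from a fixed point algebra without characters.
-/

noncomputable section

open Filter Topology
open scoped BoundedContinuousFunction

namespace Vale.Agent.P095.General

open Vale.Agent.P101

universe u v

/-- No characters on the fixed point algebra give the relations in it. -/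
lemma comparison_fixed {G : Type v} [Group G] {D : Type u} [CStarAlgebra D] (sys : Sys G D)
    (h : IsEmpty (Finite.fixedAlg sys.act →⋆ₐ[ℂ] ℂ)) :
    ∃ c e f v r s : D, (∀ x ∈ [c, e, f, v, r, s], ∀ g, sys.act g x = x) ∧
      star r * r = e ∧ star s * s = f ∧ c * c = 0 ∧ c * star c = e * e ∧ star c * c = f * f ∧
      star v * v = 1 - e - f ∧ e * v = v := by
  have hclF : IsClosed (Finite.fixedAlg sys.act : Set D) := Finite.isClosed_fixed sys.act
  have hfull : Full {x : Finite.fixedAlg sys.act | ∃ a b, a * b - b * a = x} := by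
    by_contra hn
    exact h.false (exists_char_of_not_full hn).some
  obtain ⟨n, p, x, q, hx, hsum⟩ := full_exists_sum hfull
  choose a b hab using hx
  let S : Set D := Set.range (fun i => (p i : D)) ∪ Set.range (fun i => (q i : D))
    ∪ Set.range (fun i => (a i : D)) ∪ Set.range (fun i => (b i : D))
  have hS : S.Countable :=
    (((Set.countable_range _).union (Set.countable_range _)).union (Set.countable_range _)).union
      (Set.countable_range _)
  have hfix : gen sys.act S ≤ Finite.fixedAlg sys.act := by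
    refine StarSubalgebra.topologicalClosure_minimal ?_ hclF
    refine StarAlgebra.adjoin_le ?_
    have hS' : ∀ y ∈ S, ∀ g, sys.act g y = y := by
      rintro y (((⟨i, rfl⟩ | ⟨i, rfl⟩) | ⟨i, rfl⟩) | ⟨i, rfl⟩) g
      exacts [(p i).2 g, (q i).2 g, (a i).2 g, (b i).2 g]
    rintro y (hy | hy)
    · exact hS' y hy
    · obtain ⟨g, z, hz, rfl⟩ := Set.mem_iUnion.1 hy
      intro g'
      show sys.act g' (sys.act g z) = sys.act g z
      rw [hS' z hz g, hS' z hz g']
  obtain ⟨ι, h1, h2, -⟩ := sys.copies S hS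
  have hmem : ∀ k y, ι k y ∈ Finite.fixedAlg sys.act := fun k y g =>
    (h1 k g y y (hfix y.2 g).symm).symm
  let cF : Copies ↥(gen sys.act S) (Finite.fixedAlg sys.act) ℕ :=
    ⟨fun k => StarAlgHom.codRestrict (ι k) (Finite.fixedAlg sys.act) (hmem k),
      fun j k hjk y z => Subtype.ext (h2 j k hjk y z)⟩
  have hin : ∀ z ∈ S, z ∈ gen sys.act S := fun z hz =>
    StarSubalgebra.le_topologicalClosure _ (StarAlgebra.subset_adjoin ℂ _ (Or.inl hz))
  let P : Fin n → ↥(gen sys.act S) := fun i => ⟨p i, hin _ (Or.inl (Or.inl (Or.inl ⟨i, rfl⟩)))⟩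
  let Q : Fin n → ↥(gen sys.act S) := fun i => ⟨q i, hin _ (Or.inl (Or.inl (Or.inr ⟨i, rfl⟩)))⟩
  let A' : Fin n → ↥(gen sys.act S) := fun i => ⟨a i, hin _ (Or.inl (Or.inr ⟨i, rfl⟩))⟩
  let B' : Fin n → ↥(gen sys.act S) := fun i => ⟨b i, hin _ (Or.inr ⟨i, rfl⟩)⟩
  have hB : Full {x : ↥(gen sys.act S) | ∃ a b, a * b - b * a = x} := by
    refine full_of_sum (p := P) (x := fun i => A' i * B' i - B' i * A' i) (q := Q)
      (fun i => ⟨A' i, B' i, rfl⟩) ?_
    refine Subtype.ext ?_
    have e := congrArg (Finite.fixedAlg sys.act).subtype hsum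
    simpa [P, Q, A', B', ← hab] using e
  obtain ⟨c, e, f, v, r, s, r1, r2, r3, r4, r5, r6, r7⟩ :=
    Finite.comparison_copies (F := Finite.fixedAlg sys.act) cF hB
  refine ⟨c, e, f, v, r, s, ?_, by simpa using congrArg Subtype.val r1,
    by simpa using congrArg Subtype.val r2, by simpa using congrArg Subtype.val r3,
    by simpa using congrArg Subtype.val r4, by simpa using congrArg Subtype.val r5,
    by simpa using congrArg Subtype.val r6, by simpa using congrArg Subtype.val r7⟩
  intro y hy g
  simp only [List.mem_cons, List.not_mem_nil, or_false] at hy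
  rcases hy with rfl | rfl | rfl | rfl | rfl | rfl
  exacts [c.2 g, e.2 g, f.2 g, v.2 g, r.2 g, s.2 g]

/-- A null central sequence with values in the algebra annihilates it. -/
lemma isAnnA_of_eq {A : Type u} [NonUnitalCStarAlgebra A] (ω : Ultrafilter ℕ)
    {w : ↥(centralI ω (unitIdl A))} {a : ℕ →ᵇ A}
    (hw : IsNullI ω (unitIdl A) (w : ℕ →ᵇ Unitization ℂ A))
    (e : ∀ n, (w : ℕ →ᵇ Unitization ℂ A) n = (a n : Unitization ℂ A)) : IsAnnA ω a := by
  refine isAnnA_of_right ω (isCentralA_of_inrSeq ω ?_) fun b => (hw _ (inr_mem b)).congr fun n => ?_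
  · rw [show inrSeq a = (w : ℕ →ᵇ Unitization ℂ A) from
      BoundedContinuousFunction.ext fun n => (e n).symm]
    exact w.2
  · rw [e, ← Unitization.inr_mul, Unitization.norm_inr]

/-- A fixed class has asymptotically invariant representatives. -/
lemma tendsto_of_fixed {A : Type u} [NonUnitalCStarAlgebra A] (ω : Ultrafilter ℕ) (φ : A ≃⋆ₐ[ℂ] A)
    {y : ℕ →ᵇ A} (hy : IsCentralA ω y)
    (h : projI ω (unitIdl A) (centralActI ω (unitIdl A) (pres_liftAut φ)
      ⟨inrSeq y, isCentralI_inrSeq ω hy⟩) = cls ω y hy) (b : A) :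
    Tendsto (fun n => ‖(φ (y n) - y n) * b‖ + ‖b * (φ (y n) - y n)‖) (ω : Filter ℕ) (𝓝 0) := by
  have h0 := (projI_eq_iff ω (unitIdl A) _ _).1 h
  let w : ↥(centralI ω (unitIdl A)) := centralActI ω (unitIdl A) (pres_liftAut φ)
    ⟨inrSeq y, isCentralI_inrSeq ω hy⟩ - ⟨inrSeq y, isCentralI_inrSeq ω hy⟩
  let d : ℕ →ᵇ A := BoundedContinuousFunction.ofNormedAddCommGroupDiscrete
    (fun n => φ (y n) - y n) (2 * ‖y‖) fun n => by
      refine (norm_sub_le _ _).trans ?_
      have h1 : ‖φ (y n)‖ ≤ ‖y n‖ :=
        NonUnitalStarAlgHom.norm_apply_le (φ : A →⋆ₙₐ[ℂ] A) (y n)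
      linarith [y.norm_coe_le_norm n]
  refine isAnnA_of_eq ω (w := w) (a := d) h0 (fun n => ?_) b
  show liftAut φ ((y n : Unitization ℂ A)) - (y n : Unitization ℂ A) = _
  rw [liftAut_inr, ← Unitization.inr_sub]
  rfl

/-- The central sequence algebra. -/
theorem centralA_ok : CentralAStatement.{u, v} := by
  intro G _ _ A _ _ α hα ω hω he
  classical
  let β : G → Unitization ℂ A ≃⋆ₐ[ℂ] Unitization ℂ A := fun g => liftAut (α g)
  have hP : ∀ g, Pres (unitIdl A) (β g) := fun g => pres_liftAut (α g)
  have hβ : ∀ g h x, β (g * h) x = β g (β h x) := liftAut_mul α hα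
  obtain ⟨ee, hee⟩ := exists_unit_seq (A := A)
  have hat := tendsto_atTop_omega hω
  have hu : ∀ b : A, Tendsto (fun n => ‖ee n * b - b‖) (ω : Filter ℕ) (𝓝 0) ∧
      Tendsto (fun n => ‖b * ee n - b‖) (ω : Filter ℕ) (𝓝 0) := fun b =>
    ⟨(hee b).1.mono_left hat, (hee b).2.mono_left hat⟩
  have hnoChar : IsEmpty (FA ω A →⋆ₐ[ℂ] ℂ) := ⟨fun χ => by
    let val : (ℕ →ᵇ A) → ℂ := fun a => if h : IsCentralA ω a then χ (cls ω a h) else 0
    have hval : ∀ a (h : IsCentralA ω a), val a = χ (cls ω a h) := fun a h => dif_pos h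
    obtain ⟨a₁, ha₁, hone⟩ := exists_repA ω hu (1 : FA ω A)
    have cadd : ∀ a b : ℕ →ᵇ A, IsCentralA ω a → IsCentralA ω b → IsCentralA ω (a + b) := fun (a b : ℕ →ᵇ A) ha hb =>
      isCentralA_of_inrSeq ω (by
        rw [show inrSeq (a + b) = inrSeq a + inrSeq b from
          BoundedContinuousFunction.ext fun n => Unitization.inr_add ℂ (a n) (b n)]
        exact (centralI ω (unitIdl A)).add_mem' (isCentralI_inrSeq ω ha) (isCentralI_inrSeq ω hb))
    have cmul : ∀ a b : ℕ →ᵇ A, IsCentralA ω a → IsCentralA ω b → IsCentralA ω (a * b) := fun (a b : ℕ →ᵇ A) ha hb =>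
      isCentralA_of_inrSeq ω (by
        rw [show inrSeq (a * b) = inrSeq a * inrSeq b from
          BoundedContinuousFunction.ext fun n => Unitization.inr_mul ℂ (a n) (b n)]
        exact (centralI ω (unitIdl A)).mul_mem' (isCentralI_inrSeq ω ha) (isCentralI_inrSeq ω hb))
    have csmul : ∀ (z : ℂ) (a : ℕ →ᵇ A), IsCentralA ω a → IsCentralA ω (z • a) := fun z a ha =>
      isCentralA_of_inrSeq ω (by
        rw [show inrSeq (z • a) = z • inrSeq a from
          BoundedContinuousFunction.ext fun n => Unitization.inr_smul ℂ z (a n)]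
        exact Subalgebra.smul_mem (centralI ω (unitIdl A)).toSubalgebra
          (isCentralI_inrSeq ω ha) z)
    have cstar : ∀ a : ℕ →ᵇ A, IsCentralA ω a → IsCentralA ω (star a) := fun a ha =>
      isCentralA_of_inrSeq ω (by
        rw [show inrSeq (star a) = star (inrSeq a) from
          BoundedContinuousFunction.ext fun n => Unitization.inr_star (a n)]
        exact (centralI ω (unitIdl A)).star_mem' (isCentralI_inrSeq ω ha))
    refine he.false
      { val := val
        ne_zero := ⟨a₁, ha₁, by rw [hval _ ha₁, hone, map_one]; exact one_ne_zero⟩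
        map_add := fun a b ha hb => ?_
        map_mul := fun a b ha hb => ?_
        map_smul := fun z a ha => ?_
        map_star := fun a ha => ?_
        map_ann := fun a ha hn => by rw [hval a ha, (cls_eq_zero_iff ω ha).2 hn, map_zero] }
    · rw [hval a ha, hval b hb, hval _ (cadd a b ha hb), ← map_add]
      congr 1
      simp only [cls]
      rw [← map_add]
      exact congrArg _ (Subtype.ext (BoundedContinuousFunction.ext fun n =>
        Unitization.inr_add ℂ (a n) (b n)))
    · rw [hval a ha, hval b hb, hval _ (cmul a b ha hb), ← map_mul]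
      congr 1
      simp only [cls]
      rw [← map_mul]
      exact congrArg _ (Subtype.ext (BoundedContinuousFunction.ext fun n =>
        Unitization.inr_mul ℂ (a n) (b n)))
    · rw [hval a ha, hval _ (csmul z a ha), ← smul_eq_mul, ← map_smul]
      congr 1
      simp only [cls]
      rw [← map_smul]
      exact congrArg _ (Subtype.ext (BoundedContinuousFunction.ext fun n =>
        Unitization.inr_smul ℂ z (a n)))
    · rw [hval a ha, hval _ (cstar a ha)]
      show _ = star (χ _)
      rw [← map_star χ]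
      congr 1
      simp only [cls]
      rw [← map_star]
      exact congrArg _ (Subtype.ext (BoundedContinuousFunction.ext fun n =>
        Unitization.inr_star (a n)))⟩
  let sys : Sys G (FA ω A) :=
    { act := actI ω (unitIdl A) β hP hβ
      act_mul := actI_mul ω (unitIdl A) β hP hβ
      noChar := hnoChar
      copies := fun S hS => copiesI ω (unitIdl A) β hP hβ hω denseIdl S hS
      saturate := fun n B t h => saturateI ω (unitIdl A) β hP hβ hω denseIdl n B t h }
  refine ⟨FA ω A, inferInstance, sys, fun hfix => ?_⟩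
  obtain ⟨c, e, f, v, r, s, hinv, r1, r2, r3, r4, r5, r6, r7⟩ := comparison_fixed sys hfix
  obtain ⟨c', hc', rfl⟩ := exists_repA ω hu c
  obtain ⟨e', he', rfl⟩ := exists_repA ω hu e
  obtain ⟨f', hf', rfl⟩ := exists_repA ω hu f
  obtain ⟨v', hv', rfl⟩ := exists_repA ω hu v
  obtain ⟨r', hr', rfl⟩ := exists_repA ω hu r
  obtain ⟨s', hs', rfl⟩ := exists_repA ω hu s
  simp only [cls, ← map_star, ← map_mul, ← map_sub, ← map_one (projI ω (unitIdl A)),
    ← map_zero (projI ω (unitIdl A))] at r1 r2 r3 r4 r5 r6 r7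
  rw [projI_eq_iff] at r1 r2 r3 r4 r5 r6 r7
  have ann : ∀ {w : ↥(centralI ω (unitIdl A))} {a : ℕ →ᵇ A},
      IsNullI ω (unitIdl A) (w : ℕ →ᵇ Unitization ℂ A) →
      (∀ n, (w : ℕ →ᵇ Unitization ℂ A) n = (a n : Unitization ℂ A)) → IsAnnA ω a :=
    fun {w a} hw e => isAnnA_of_eq ω hw e
  let i : ∀ x : ℕ →ᵇ A, IsCentralA ω x → ↥(centralI ω (unitIdl A)) := fun x hx =>
    ⟨inrSeq x, isCentralI_inrSeq ω hx⟩
  refine ⟨c', e', f', v', r', s', ?_,
    ann (w := star (i r' hr') * i r' hr' - i e' he') r1 fun n => by simp [i],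
    ann (w := star (i s' hs') * i s' hs' - i f' hf') r2 fun n => by simp [i],
    ann (w := i c' hc' * i c' hc' - 0) r3 fun n => by simp [i],
    ann (w := i c' hc' * star (i c' hc') - i e' he' * i e' he') r4 fun n => by simp [i],
    ann (w := star (i c' hc') * i c' hc' - i f' hf' * i f' hf') r5 fun n => by simp [i],
    fun b => ?_,
    ann (w := i e' he' * i v' hv' - i v' hv') r7 fun n => by simp [i], ?_⟩
  · intro x hx
    simp only [List.mem_cons, List.not_mem_nil, or_false] at hx
    rcases hx with rfl | rfl | rfl | rfl | rfl | rfl <;> assumption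
  · refine (r6 _ (inr_mem b)).congr fun n => ?_
    rw [← Unitization.norm_inr (𝕜 := ℂ) ((star (v' n) * v' n + e' n + f' n) * b - b)]
    congr 1
    simp only [BoundedContinuousFunction.coe_sub, BoundedContinuousFunction.coe_mul,
      BoundedContinuousFunction.coe_star, BoundedContinuousFunction.coe_one, Pi.sub_apply,
      Pi.mul_apply, Pi.star_apply, Pi.one_apply, MulMemClass.coe_mul,
      AddSubgroupClass.coe_sub, OneMemClass.coe_one, StarMemClass.coe_star, inrSeq_apply,
      Unitization.inr_sub, Unitization.inr_mul, Unitization.inr_add, Unitization.inr_star]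
    noncomm_ring
  · intro x hx g b
    have key : ∀ {y : ℕ →ᵇ A} (hy : IsCentralA ω y), sys.act g (cls ω y hy) = cls ω y hy →
        Tendsto (fun n => ‖(α g (y n) - y n) * b‖ + ‖b * (α g (y n) - y n)‖)
          (ω : Filter ℕ) (𝓝 0) := by
      intro y hy hfixy
      refine tendsto_of_fixed ω (α g) hy ?_ b
      rw [← actI_proj ω (unitIdl A) β hP hβ g]
      exact hfixy
    simp only [List.mem_cons, List.not_mem_nil, or_false] at hx
    rcases hx with rfl | rfl | rfl | rfl | rfl | rfl
    exacts [key hc' (hinv _ (by simp) g), key he' (hinv _ (by simp) g), key hf' (hinv _ (by simp) g),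
      key hv' (hinv _ (by simp) g), key hr' (hinv _ (by simp) g), key hs' (hinv _ (by simp) g)]

end Vale.Agent.P095.General
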