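import Vale.Agent.P095.General.Expose
import Vale.Agent.P095.General.Chain.Fold
import Vale.Agent.P095.General.Chain.Nil

/-!
Module Chain: the fixed point algebra has no characters.
-/

noncomputable section

namespace Vale.Agent.P095.General

universe u v

/-- Spread, uniformly large square-zero elements, length and sectors leave no character on the
fixed point algebra. -/
theorem fixed_of (hSp : SpreadStatement.{u, v}) (hP : PairStatement.{u, v})
    (hL : LengthStatement.{u, v}) (hS : SectorStatement.{u, v}) : FixedStatement.{u, v} := by
  intro G _ _ hG D _ sys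
  obtain ⟨b, hb, hbfix, hbfull⟩ := exists_witness_fixed sys hSp hP hL hG
  obtain ⟨e, e', hef, hef', he, he', hee, hF, hF'⟩ :=
    sys.exists_split_fixed b hb hbfix hbfull
  obtain ⟨F⟩ := exists_frame sys e e' he he' hef hef' hee hF hF'
  obtain ⟨E, hE, hEs, hEfix, hEfull⟩ := exists_family_fixed sys hP hL hS hG F
  obtain ⟨E', v, hE', hE's, -, hv, hvfix, hE'fix⟩ :=
    sys.exists_comparison_fixed hE hEs hEfix hEfull
  exact no_char_of_comparison sys hS hG hE' hE's hE'fix hv hvfix

end Vale.Agent.P095.General
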