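import Vale.Agent.P095.General.Core.Lindeberg
import Vale.Agent.P095.General.Core.Weighted

/-! The chaos polynomials: the core of the spread and fairness modules. -/

noncomputable section

open Finset
open scoped ComplexConjugate

namespace Vale.Agent.P095.General

open _root_.Vale.Agent.P095.General.Core
open Vale.Agent.P095 (Poly evA evR quad push Dom)

universe u v

namespace Core

variable {P : Type v} {L m : ℕ}

/-- The kernel variable of one layer. -/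
def kbarVar (l : Fin L) (a b : P) : FreeAlgebra ℂ (Var L m P) :=
  (m : ℂ)⁻¹ • ∑ i, FreeAlgebra.ι ℂ (Sum.inr ((l, i), a, b))

/-- The nonnegative kernel as a polynomial. -/
def fejVar (Q : ℕ) (l : Fin L) (x : P × P) : FreeAlgebra ℂ (Var L m P) :=
  ((1 / Q : ℝ) : ℂ) • (1 : FreeAlgebra ℂ (Var L m P)) + ∑ i ∈ range (Q - 1),
    ((cw Q (i + 1) * (((Q : ℝ) - 1) / (2 * Q)) : ℝ) : ℂ) •
      (kbarVar l x.1 x.2 ^ (i + 1) + kbarVar l x.2 x.1 ^ (i + 1))

/-- The chaos variable as a polynomial. -/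
def zVar (Q : ℕ) (l : Fin L) (s : P) : FreeAlgebra ℂ (Var L m P) :=
  ∑ i ∈ range (Q - 1), (scoef Q m i : ℂ) • ∑ S ∈ (univ : Finset (Fin m)).powersetCard (i + 1),
    (S.toList.map fun a => FreeAlgebra.ι ℂ (Sum.inl ((l, a), s))).prod

/-- The chaos polynomial. -/
def chaos [Fintype P] (L m Q : ℕ) (pw : P → Poly P) : FreeAlgebra ℂ (Var L m P) :=
  ((1 / Real.sqrt L : ℝ) : ℂ) • ∑ l, ∑ s, FreeAlgebra.lift ℝ (fejVar Q l) (pw s) * zVar Q l s

variable {M : Type u} [CStarAlgebra M] {ι : Type v} [Fintype ι] {τ C : ℝ}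
  (d : Gauss M ι (Fin L × Fin m) τ C)

lemma X_chaos [Fintype P] (Q : ℕ) (pw : P → Poly P) (j : P → ι) :
    d.X j (chaos L m Q pw) = psum (fun l => gen d l Q (wgt d l Q j pw) j) L := by
  have hsa : IsSelfAdjoint (psum (fun l => gen d l Q (wgt d l Q j pw) j) L) :=
    psum_sa (fun l => gen_sa d l Q (fun s => (wgt_mem_sa d l Q j pw s).1)
      (fun s => (wgt_mem_sa d l Q j pw s).2)) L
  set ev : FreeAlgebra ℂ (Var L m P) →ₐ[ℂ] M := FreeAlgebra.lift ℂ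
    (Sum.elim (fun x => d.f x.1 (j x.2)) fun x => d.K x.1 (j x.2.1) (j x.2.2)) with hev
  have hw : ∀ l p, ev (FreeAlgebra.lift ℝ (fejVar Q l) p)
      = evA (fun a b => fejM d l Q (j a) (j b)) p := fun l p => by
    have h : (ev.restrictScalars ℝ).comp (FreeAlgebra.lift ℝ (fejVar Q l))
        = evA (fun a b => fejM d l Q (j a) (j b)) := FreeAlgebra.hom_ext (funext fun ab => by
      obtain ⟨a, b⟩ := ab
      simp [evA_ι, fejVar, fejM, kbarVar, kbarM, hev])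
    exact AlgHom.congr_fun h p
  have hz : ∀ l s, ev (zVar Q l s) = Z d l Q (j s) := fun l s => by
    simp only [zVar, map_sum, map_smul, map_list_prod, List.map_map]
    simp [Z, fprod, hev, Function.comp_def]
  have e : ev (chaos L m Q pw) = psum (fun l => gen d l Q (wgt d l Q j pw) j) L := by
    rw [psum_full, ← Complex.coe_smul]
    simp only [chaos, map_smul, map_sum, map_mul, hw, hz, gen, wgt]
  rw [Gauss.X, ← hev, e, hsa.star_eq, ← two_smul ℂ, smul_smul, inv_mul_cancel₀ two_ne_zero,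
    one_smul]

variable [Fintype P] [DecidableEq ι] [Nontrivial M] {Q : ℕ} (pw : P → Poly P)

lemma norm_layer_le (l : Fin L) (hQ : 2 ≤ Q) (hm : 0 < m) (j : P → ι) {Bw : ℝ} (hBw0 : 0 ≤ Bw)
    (hBw : ∀ s, ∀ K : P → P → ℝ, (∀ a b, |K a b| ≤ 1) → |evR K (pw s)| ≤ Bw) :
    ‖gen d l Q (wgt d l Q j pw) j‖ ≤ (Fintype.card P : ℝ) * (Bw * zBound Q m C) := by
  refine (norm_sum_le _ _).trans ((sum_le_sum (g := fun _ => Bw * zBound Q m C) fun s _ => ?_).trans_eq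
    (by simp))
  exact (norm_mul_le _ _).trans (mul_le_mul (norm_wgt_le d l hQ hm j pw hBw0 hBw s).1
    (norm_Z_le d l Q _) (norm_nonneg _) hBw0)

/-- The layers form a chain. -/
def chain (hQ : 2 ≤ Q) (hQm : Q ≤ m) (j : P → ι) {Bw : ℝ} (hBw0 : 0 ≤ Bw)
    (hBw : ∀ s, ∀ K : P → P → ℝ, (∀ a b, |K a b| ≤ 1) → |evR K (pw s)| ≤ Bw) {η : ℝ}
    (hv : ∀ l, ‖vark' d l Q (wgt d l Q j pw) j - 1‖ ≤ η) (hΦ : IsPos d.Φ) :
    Chain d.Φ d.base L ((Fintype.card P : ℝ) * (Bw * zBound Q m C)) η where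
  X l := gen d l Q (wgt d l Q j pw) j
  O := outer d
  sa l := gen_sa d l Q (fun s => (wgt_mem_sa d l Q j pw s).1) fun s => (wgt_mem_sa d l Q j pw s).2
  norm_le l := norm_layer_le d pw l hQ (by omega) j hBw0 hBw
  closed := isClosed_outer d
  base_le := base_le_outer d
  other l i h := gen_mem d i Q (fun s => (wgt_mem_sa d i Q j pw s).1) h
  comm l y hy := commute_gen d l Q (fun s y hy => commute_kalg d hy (wgt_mem_sa d l Q j pw s).1) hy
  mean l R hR := mean_gen d l Q (fun s => (wgt_mem_sa d l Q j pw s).1) hR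
  var l R hR := by
    rw [sq_gen d l Q (fun s => (wgt_mem_sa d l Q j pw s).1) hR, ← map_sub, ← mul_sub_one]
    refine (hΦ.norm_le_norm d.one _).trans ((norm_mul_le _ _).trans ?_)
    rw [mul_comm η]
    exact mul_le_mul_of_nonneg_left (hv l) (norm_nonneg _)
  var_pos l Y hY := by
    have hu := fun s => (wgt_mem_sa d l Q j pw s).1
    have hc : ∀ s, ∀ y ∈ outer d l, Commute y (wgt d l Q j pw s) :=
      fun s y hy => commute_kalg d hy (hu s)
    have c1 : Commute Y (gen d l Q (wgt d l Q j pw) j) := commute_gen d l Q hc hY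
    have c2 : Commute Y (vark' d l Q (wgt d l Q j pw) j) := commute_vark' d l Q hc hY
    have e1 : d.Φ (star Y * (gen d l Q (wgt d l Q j pw) j * gen d l Q (wgt d l Q j pw) j) * Y)
        = d.Φ (star Y * vark' d l Q (wgt d l Q j pw) j * Y) := by
      rw [mul_assoc (star Y), ← (c1.mul_right c1).eq, ← mul_assoc,
        sq_gen d l Q hu (mul_mem (star_mem hY) hY), mul_assoc (star Y), c2.eq, ← mul_assoc]
    have e2 : d.Φ (star Y * vark' d l Q (wgt d l Q j pw) j * Y)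
        = d.Φ (star Y * (vark' d l Q (wgt d l Q j pw) j - 1) * Y) + d.Φ (star Y * Y) := by
      rw [← map_add, mul_sub, mul_one, sub_mul, sub_add_cancel]
    rw [e1, e2, Complex.add_re]
    have h1 := ((Complex.re_le_norm _).trans (hΦ.conj_le Y _)).trans
      (mul_le_mul_of_nonneg_right (hv l) (by
        obtain ⟨r, hr, hr'⟩ := d.pos Y
        rw [hr', Complex.ofReal_re]; exact hr))
    linarith

omit [DecidableEq ι] [Nontrivial M] in
/-- The second moment of a difference. -/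
lemma diff_sq (j₁ j₂ : P → ι) (hΦ : IsPos d.Φ) {b : ℝ} (hL : 0 < L)
    (hb : ∀ l, ‖vark' d l Q (dwgt d l Q j₁ j₂ pw) (Sum.elim j₁ j₂)‖ ≤ b) :
    (d.Φ ((psum (fun l => gen d l Q (wgt d l Q j₁ pw) j₁) L
      - psum (fun l => gen d l Q (wgt d l Q j₂ pw) j₂) L) *
      (psum (fun l => gen d l Q (wgt d l Q j₁ pw) j₁) L
      - psum (fun l => gen d l Q (wgt d l Q j₂ pw) j₂) L))).re ≤ b := by
  set D : Fin L → M := fun l => gen d l Q (dwgt d l Q j₁ j₂ pw) (Sum.elim j₁ j₂) with hD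
  have hu : ∀ l x, dwgt d l Q j₁ j₂ pw x ∈ kalg d := fun l x => (dwgt_mem_sa d l Q j₁ j₂ pw x).1
  have e : psum (fun l => gen d l Q (wgt d l Q j₁ pw) j₁) L
      - psum (fun l => gen d l Q (wgt d l Q j₂ pw) j₂) L = psum D L := by
    simp only [psum_full, ← smul_sub, ← sum_sub_distrib]
    congr 1
    refine sum_congr rfl fun l _ => ?_
    simp only [hD, gen, Fintype.sum_sum_type, dwgt, Sum.elim_inl, Sum.elim_inr, neg_mul,
      sum_neg_distrib, sub_eq_add_neg]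
  rw [e, psum_full, smul_mul_smul_comm, map_real_smul, one_div_sqrt_sq, Complex.re_ofReal_mul,
    sum_mul_sum, map_sum, Complex.re_sum]
  have h1 : ∀ l, (d.Φ (∑ i, D l * D i)).re ≤ b := fun l => by
    rw [map_sum, sum_eq_single l (fun i _ hne => mean_gen d i Q (hu i)
      (gen_mem d l Q (hu l) hne.symm)) (by simp)]
    have h2 := sq_gen d l Q (hu l) (R := (1 : M)) (one_mem _) (γ := Sum.elim j₁ j₂)
    rw [one_mul, one_mul] at h2
    rw [h2]
    exact (Complex.re_le_norm _).trans ((hΦ.norm_le_norm d.one _).trans (hb l))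
  calc 1 / (L : ℝ) * ∑ l, (d.Φ (∑ i, D l * D i)).re ≤ 1 / (L : ℝ) * ∑ _l : Fin L, b := by
        gcongr with l
        exact h1 l
    _ = b := by
        rw [sum_const, card_univ, Fintype.card_fin, nsmul_eq_mul]
        field_simp

/-- The four estimates for the sums of a chain. -/
lemma chain_estimates {M : Type u} [CStarAlgebra M] [Nontrivial M] {Φ : M →ₗ[ℂ] ℂ}
    {base : StarSubalgebra ℂ M} {n : ℕ} {B η : ℝ} (c : Chain Φ base (2 * n) B η) (hΦ : IsPos Φ)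
    (h1 : Φ 1 = 1) (hn : 0 < n) (hη : 0 ≤ η) (hB : 0 ≤ B) {k ε : ℝ} (hk : 1 ≤ k)
    {t1 t2 s1 s2 : ℝ → ℝ} {Bt Bs : ℝ}
    (hst : Smooth3 (fun s => (Polynomial.X : Polynomial ℝ).eval (Real.tanh (k * s))) t1 t2 Bt)
    (hss : Smooth3 (fun s => ((1 - Polynomial.X ^ 2) ^ 2 : Polynomial ℝ).eval (Real.tanh (k * s)))
      s1 s2 Bs)
    (hηε : η ≤ ε)
    (h4 : 3 * (1 + η) ^ 2 + (1 / Real.sqrt ((2 * n : ℕ) : ℝ)) ^ 2 * B ^ 4 ≤ 4)
    (ha : Bt * (1 / Real.sqrt ((2 * n : ℕ) : ℝ) * (B ^ 3 + 1) + η / 2) ≤ ε)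
    (hb : Bs * (1 / Real.sqrt ((2 * n : ℕ) : ℝ) * (B ^ 3 + 1) + η / 2)
      + 8 * (1 / Real.sqrt ((2 * n : ℕ) : ℝ)) ≤ ε) :
    |(Φ (psum c.X (2 * n) * psum c.X (2 * n))).re - 1| ≤ ε ∧
      (Φ (psum c.X (2 * n) * psum c.X (2 * n) * (psum c.X (2 * n) * psum c.X (2 * n)))).re ≤ 4 ∧
      (∀ F ∈ base, ‖Φ (F * cfc (fun s => Real.tanh (k * s)) (psum c.X (2 * n)))‖ ≤ ε * ‖F‖) ∧
      (Φ ((1 - cfc (fun s => Real.tanh (k * s) ^ 2) (psum c.X (2 * n))) ^ 2)).re ≤ 8 / k + ε := by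
  have hL : ((2 * n : ℕ) : ℝ) ≠ 0 := by positivity
  set h : ℝ := 1 / Real.sqrt ((2 * n : ℕ) : ℝ) with hh
  have hh2 : ((2 * n : ℕ) : ℝ) * h ^ 2 = 1 := by
    rw [sq, hh, one_div_sqrt_sq]; field_simp
  refine ⟨?_, ?_, fun F hF => ?_, ?_⟩
  · have h5 := c.sq_psum h1 (2 * n) le_rfl
    rw [div_self hL, Complex.ofReal_one, mul_one] at h5
    have h6 := (Complex.abs_re_le_norm _).trans h5
    rw [Complex.sub_re, Complex.one_re] at h6
    linarith
  · have h5 := c.four_psum hΦ h1 hη hB (2 * n) le_rfl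
    rw [div_self hL, one_pow, mul_one] at h5
    refine h5.trans (le_of_eq_of_le ?_ h4)
    rw [sq h, hh, one_div_sqrt_sq]; field_simp
  · have h5 := c.lindeberg hΦ h1 hB hst hF
    simp only [Polynomial.eval_X] at h5
    rw [step_iter_zero (fun x => by rw [mul_neg, Real.tanh_neg]), Complex.ofReal_zero, zero_mul,
      sub_zero, ← hh] at h5
    refine h5.trans (le_of_eq_of_le (b := ‖F‖ * (Bt * (h * (B ^ 3 + 1) + η / 2))) ?_ ?_)
    · field_simp
      linear_combination ‖F‖ * Bt * (B ^ 3 + 1) * h * 2 * hh2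
    · rw [mul_comm ε]; exact mul_le_mul_of_nonneg_left ha (norm_nonneg _)
  · have htc : Continuous Real.tanh :=
      continuous_iff_continuousAt.2 fun x => (tanh_facts x).1.continuousAt
    have hsa : IsSelfAdjoint (psum c.X (2 * n)) := psum_sa c.sa _
    have hg : (fun s => (1 - Real.tanh (k * s) ^ 2) ^ 2) = fun s =>
        ((1 - Polynomial.X ^ 2) ^ 2 : Polynomial ℝ).eval (Real.tanh (k * s)) := by simp
    have hc : Continuous fun s : ℝ => Real.tanh (k * s) ^ 2 := (htc.comp (by fun_prop)).pow 2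
    rw [← cfc_const_one ℝ (psum c.X (2 * n)), ← cfc_sub (fun _ : ℝ => (1 : ℝ)) _ _
      continuousOn_const hc.continuousOn, ← cfc_pow (fun x : ℝ => 1 - Real.tanh (k * x) ^ 2) 2 _ (continuous_const.sub hc).continuousOn]
    have h5 := c.lindeberg hΦ h1 hB hss (one_mem base)
    rw [one_mul, h1, mul_one, norm_one, one_mul, ← hg, ← hh] at h5
    have h2 := walk_sech_le hk (n := n) hn (h := h) (by rw [hh]; push_cast; rfl)
    refine ((Complex.re_le_norm _).trans ((norm_le_norm_add_norm_sub' _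
      ((((stepAvg h)^[2 * n] (fun s => (1 - Real.tanh (k * s) ^ 2) ^ 2) 0 : ℝ)) : ℂ)).trans
      (add_le_add le_rfl h5))).trans ?_
    rw [Complex.norm_real, Real.norm_eq_abs, abs_of_nonneg (by
      rw [step_iter_eq]; exact sum_nonneg fun i _ => by positivity)]
    have e1 : ((2 * n : ℕ) : ℝ) * (Bs * (h ^ 3 * (B ^ 3 + 1) + η / (2 * ((2 * n : ℕ) : ℝ))))
        = Bs * (h * (B ^ 3 + 1) + η / 2) := by
      field_simp
      linear_combination Bs * (B ^ 3 + 1) * h * 2 * hh2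
    rw [e1]
    have a3 : 4 / k ≤ 8 / k := div_le_div_of_nonneg_right (by norm_num) (by linarith)
    linarith

/-- The parameters of the layers. -/
lemma exists_params {e W : ℝ} (he : 0 < e) (hW : 1 ≤ W) :
    ∃ (Q m : ℕ) (τ : ℝ), 2 ≤ Q ∧ Q ≤ m ∧ 0 < τ ∧ τ ≤ 1 ∧
      W * (2 * (Q : ℝ) ^ 2 / m + 2 / Q + Q * (τ * 3 ^ Q)) ≤ e := by
  obtain ⟨Q0, hQ0⟩ := exists_nat_ge (3 * 2 * W / e)
  set Q : ℕ := Q0 + 2 with hQdef
  obtain ⟨m0, hm0⟩ := exists_nat_ge (3 * 2 * (Q : ℝ) ^ 2 * W / e)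
  have hQpos : (0 : ℝ) < Q := by exact_mod_cast (show 0 < Q by omega)
  refine ⟨Q, m0 + Q, min 1 (e / (3 * W * Q * 3 ^ Q)), by omega, by omega,
    lt_min one_pos (by positivity), min_le_left _ _, ?_⟩
  have hmpos : (0 : ℝ) < ((m0 + Q : ℕ) : ℝ) := by exact_mod_cast (show 0 < m0 + Q by omega)
  have a1 : W * (2 * (Q : ℝ) ^ 2 / ((m0 + Q : ℕ) : ℝ)) ≤ e / 3 := by
    have hmc : 3 * 2 * (Q : ℝ) ^ 2 * W / e ≤ ((m0 + Q : ℕ) : ℝ) :=
      hm0.trans (by exact_mod_cast Nat.le_add_right m0 Q)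
    rw [div_le_iff₀ he] at hmc
    rw [mul_div_assoc', div_le_div_iff₀ hmpos (by norm_num)]
    linarith
  have a2 : W * (2 / (Q : ℝ)) ≤ e / 3 := by
    have hQc : 3 * 2 * W / e ≤ Q := hQ0.trans (by exact_mod_cast Nat.le_add_right Q0 2)
    rw [div_le_iff₀ he] at hQc
    rw [mul_div_assoc', div_le_div_iff₀ hQpos (by norm_num)]
    linarith
  have a3 : W * ((Q : ℝ) * (min 1 (e / (3 * W * Q * 3 ^ Q)) * 3 ^ Q)) ≤ e / 3 := by
    have h := (le_div_iff₀ (by positivity)).1 (min_le_right 1 (e / (3 * W * Q * 3 ^ Q)))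
    linarith [show ∀ τ : ℝ, W * ((Q : ℝ) * (τ * 3 ^ Q)) * 3 = τ * (3 * W * Q * 3 ^ Q) from
      fun τ => by ring]
  rw [mul_add, mul_add]
  linarith

/-- The number of layers. -/
lemma exists_layers {B η ε Bt Bs : ℝ} (hB : 0 ≤ B) (hBt : 0 ≤ Bt) (hBs : 0 ≤ Bs) (hη : 0 ≤ η)
    (hε : 0 < ε) (h1 : η * 30 ≤ 1) (ht : Bt * η ≤ ε) (hs : Bs * η ≤ ε) :
    ∃ n : ℕ, 0 < n ∧ ∀ h : ℝ, h = 1 / Real.sqrt ((2 * n : ℕ) : ℝ) →
      3 * (1 + η) ^ 2 + h ^ 2 * B ^ 4 ≤ 4 ∧ Bt * (h * (B ^ 3 + 1) + η / 2) ≤ ε ∧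
        Bs * (h * (B ^ 3 + 1) + η / 2) + 8 * h ≤ ε := by
  set T : ℝ := (B ^ 3 + 1) * (Bt + Bs + 1) + B ^ 4 + 8 with hT
  have hp : 0 ≤ (B ^ 3 + 1) * (Bt + Bs + 1) := by positivity
  have hp4 : 0 ≤ B ^ 4 := by positivity
  have hT1 : 1 ≤ T := by linarith
  have hmin : 0 < min ε 1 := lt_min hε one_pos
  obtain ⟨n0, hn0⟩ := exists_nat_ge ((4 * T / min ε 1) ^ 2)
  refine ⟨n0 + 1, Nat.succ_pos _, fun h hh => ?_⟩
  have hh0 : 0 ≤ h := by rw [hh]; positivity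
  have hhT : h * (4 * T) ≤ min ε 1 := by
    have e1 : (4 * T / min ε 1) ^ 2 ≤ ((2 * (n0 + 1) : ℕ) : ℝ) :=
      hn0.trans (by exact_mod_cast (show n0 ≤ 2 * (n0 + 1) by omega))
    have e2 := Real.le_sqrt_of_sq_le e1
    rw [div_le_iff₀ hmin] at e2
    rw [hh, one_div_mul_eq_div, div_le_iff₀ (by positivity)]
    linarith
  have hle : ∀ x : ℝ, 0 ≤ x → x ≤ T → h * x * 4 ≤ min ε 1 := fun x _ hx =>
    le_trans (le_of_eq_of_le (by ring : h * x * 4 = h * (4 * x))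
      (mul_le_mul_of_nonneg_left (by linarith) hh0)) hhT
  have a3 : h ≤ 1 := by linarith [hle 1 zero_le_one hT1, min_le_right ε 1]
  have a4 := hle (B ^ 4) hp4 (by linarith)
  have a5 := hle ((B ^ 3 + 1) * Bt) (by positivity) (by
    have : 0 ≤ (B ^ 3 + 1) * (Bs + 1) := by positivity
    rw [hT]; linarith)
  have a6 := hle ((B ^ 3 + 1) * Bs + 8) (by positivity) (by
    have : 0 ≤ (B ^ 3 + 1) * (Bt + 1) := by positivity
    rw [hT]; linarith)
  refine ⟨?_, ?_, ?_⟩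
  · have e3 : h ^ 2 * B ^ 4 ≤ h * B ^ 4 := by
      rw [sq, mul_assoc]; exact mul_le_of_le_one_left (by positivity) a3
    have e4 : η * η ≤ η := mul_le_of_le_one_left hη (by linarith)
    linarith [min_le_right ε 1, show (1 + η) ^ 2 = 1 + 2 * η + η * η by ring]
  · linarith [min_le_left ε 1, show Bt * (h * (B ^ 3 + 1) + η / 2)
      = h * ((B ^ 3 + 1) * Bt) + Bt * η / 2 by ring]
  · linarith [min_le_left ε 1, show Bs * (h * (B ^ 3 + 1) + η / 2) + 8 * h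
      = h * ((B ^ 3 + 1) * Bs + 8) + Bs * η / 2 by ring]

end Core

/-- Module Core. -/
theorem core_ok : CoreStatement.{u, v} := by
  intro P _ _ _ ε k hε hk
  obtain ⟨t1, t2, Bt, hst⟩ := smooth_tanh Polynomial.X k
  obtain ⟨s1, s2, Bs, hss⟩ := smooth_tanh ((1 - Polynomial.X ^ 2) ^ 2) k
  have hBt := hst.nonneg
  have hBs := hss.nonneg
  set e : ℝ := min ε 1 / (60 * (Bt + Bs + 1)) with he
  have he0 : 0 < e := div_pos (lt_min hε one_pos) (by linarith)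
  have he60 : e * (60 * (Bt + Bs + 1)) = min ε 1 := by rw [he, div_mul_cancel₀]; positivity
  have p1 : 0 ≤ e * Bt := mul_nonneg he0.le hBt
  have p2 : 0 ≤ e * Bs := mul_nonneg he0.le hBs
  have hsplit : e * (60 * (Bt + Bs + 1)) = 60 * (e * Bt) + 60 * (e * Bs) + 60 * e := by ring
  have hm1 := min_le_right ε 1
  have hm2 := min_le_left ε 1
  obtain ⟨pw, hp1, hp2⟩ := Vale.Agent.P095.weights_ok P e he0
  choose Bw0 hBw00 hBw0 using fun s => exists_evR_bound (pw s)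
  set Bw : ℝ := ∑ s, Bw0 s with hBwdef
  have hBw0' : 0 ≤ Bw := sum_nonneg fun s _ => hBw00 s
  have hBw : ∀ s, ∀ K : P → P → ℝ, (∀ a b, |K a b| ≤ 1) → |evR K (pw s)| ≤ Bw := fun s K hK =>
    (hBw0 s K hK).trans (single_le_sum (fun s _ => hBw00 s) (mem_univ s))
  set W2 : ℝ := (2 * ((Fintype.card P : ℝ) * Bw)) ^ 2 + 1 with hW2
  have hW20 : 1 ≤ W2 := le_add_of_nonneg_left (sq_nonneg _)
  obtain ⟨Q, m, τ, hQ, hQm, hτ0, hτ1, hbud⟩ := exists_params he0 hW20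
  refine ⟨τ, hτ0, fun C => ?_⟩
  set B : ℝ := (Fintype.card P : ℝ) * (Bw * zBound Q m C) with hBdef
  have hz0 : 0 ≤ zBound Q m C := sum_nonneg fun i _ => by positivity
  have hB0 : 0 ≤ B := by positivity
  set q : ℝ := 2 * (Q : ℝ) ^ 2 / m + 2 / Q + Q * (τ * 3 ^ Q) with hq
  have hq0 : 0 ≤ q := by positivity
  set η : ℝ := e + W2 * q with hη
  have hη0 : 0 ≤ η := add_nonneg he0.le (mul_nonneg (by linarith) hq0)
  have hη2 : η ≤ 2 * e := by linarith
  obtain ⟨n, hn, hnum⟩ := exists_layers (η := η) hB0 hBt hBs hη0 hε (by linarith)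
    ((mul_le_mul_of_nonneg_left hη2 hBt).trans (by linarith))
    ((mul_le_mul_of_nonneg_left hη2 hBs).trans (by linarith))
  obtain ⟨n4, na, nb⟩ := hnum _ rfl
  refine ⟨2 * n, m, chaos (2 * n) m Q pw, fun M _ ι _ _ d j₁ j₂ hj₁ hj₂ => ?_⟩
  have : Nontrivial M := ⟨⟨1, 0, fun he => by
    have := d.one
    rw [he, map_zero] at this
    exact zero_ne_one this⟩⟩
  have hΦ : IsPos d.Φ := d.pos
  have hv : ∀ (j : P → ι) l, ‖vark' d l Q (wgt d l Q j pw) j - 1‖ ≤ η := fun j l => by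
    refine (vark'_one d l hQ hQm hτ1 hτ0.le j pw hBw0' hBw he0.le hp1).trans ?_
    refine add_le_add le_rfl (mul_le_mul_of_nonneg_right ?_ hq0)
    nlinarith [sq_nonneg ((Fintype.card P : ℝ) * Bw)]
  obtain ⟨c, hc⟩ : ∃ c : Chain d.Φ d.base (2 * n) B η,
      c.X = fun l => Core.gen d l Q (Core.wgt d l Q j₁ pw) j₁ :=
    ⟨chain d pw hQ hQm j₁ hBw0' hBw (hv j₁) hΦ, rfl⟩
  obtain ⟨r1, r2, r3, r4⟩ :=
    chain_estimates c hΦ d.one hn hη0 hB0 hk hst hss (by linarith) n4 na nb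
  have hX : d.X j₁ (chaos (2 * n) m Q pw) = psum c.X (2 * n) := by rw [hc]; exact X_chaos d Q pw j₁
  rw [hX]
  refine ⟨r1, r2, ?_, fun F hF => ⟨?_, r3 F hF⟩, r4⟩
  · rw [hc, X_chaos d Q pw j₂]
    refine (diff_sq d pw j₁ j₂ hΦ (b := (Set.ncard (symmDiff (Set.range j₁) (Set.range j₂)) : ℝ)
      / Fintype.card P + 2 * e) (by omega) fun l => ?_).trans (by linarith)
    refine (vark'_diff d l hQ hQm hτ1 hτ0.le j₁ j₂ pw hBw0' hBw (add_nonneg (by positivity) he0.le)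
      (hp2 ι j₁ j₂ hj₁ hj₂)).trans ?_
    have : (2 * ((Fintype.card P : ℝ) * Bw)) ^ 2 * q ≤ e :=
      (mul_le_mul_of_nonneg_right (le_add_of_nonneg_right zero_le_one) hq0).trans hbud
    linarith
  · rw [c.map_mul_psum hF, norm_zero]
    positivity

end Vale.Agent.P095.General
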