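import Mathlib
import Vale.Agent.P101.Defs
import Vale.Agent.P095.Defs
import Vale.Agent.P095.Finite.Defs

/-!
Interfaces for P095: actions of countable amenable groups on separable C*-algebras, unital or not,
whose central sequence algebra has no characters. Everything is proved for an abstract unital
algebra D with an action, reindexed copies and saturation.
-/

noncomputable section

open Filter Topology
open scoped BoundedContinuousFunction ComplexConjugate

namespace Vale.Agent.P095.General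

open Vale.Agent.P101

universe u v

section Basic

variable {G : Type v} {D : Type u} [CStarAlgebra D]

/-- A set with its translates. -/
def orbit (act : G → D ≃⋆ₐ[ℂ] D) (S : Set D) : Set D := S ∪ ⋃ g, act g '' S

/-- The closed unital subalgebra generated by a set and its translates. -/
def gen (act : G → D ≃⋆ₐ[ℂ] D) (S : Set D) : StarSubalgebra ℂ D :=
  (StarAlgebra.adjoin ℂ (orbit act S)).topologicalClosure

instance instGenCStar (act : G → D ≃⋆ₐ[ℂ] D) (S : Set D) : CStarAlgebra ↥(gen act S) :=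
  StarSubalgebra.cstarAlgebra (gen act S)
    (h_closed := (StarAlgebra.adjoin ℂ (orbit act S)).isClosed_topologicalClosure)

/-- The part of an element above t. -/
def cut (t : ℝ) (x : D) : D := cfc (fun s : ℝ => max (s - t) 0) x

/-- Terms in finitely many unknowns, with constants and the action. -/
inductive Tm (G : Type v) (D : Type u) (ι : Type) : Type (max u v) where
  | var : ι → Tm G D ι
  | cst : D → Tm G D ι
  | add : Tm G D ι → Tm G D ι → Tm G D ι
  | mul : Tm G D ι → Tm G D ι → Tm G D ι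
  | smul : ℂ → Tm G D ι → Tm G D ι
  | adj : Tm G D ι → Tm G D ι
  | app : G → Tm G D ι → Tm G D ι

/-- The value of a term. -/
def Tm.eval {ι : Type} (act : G → D ≃⋆ₐ[ℂ] D) (x : ι → D) : Tm G D ι → D
  | .var i => x i
  | .cst d => d
  | .add s t => s.eval act x + t.eval act x
  | .mul s t => s.eval act x * t.eval act x
  | .smul z t => z • t.eval act x
  | .adj t => star (t.eval act x)
  | .app g t => act g (t.eval act x)

end Basic

/-- The working setting: a unital algebra with an action, equivariant commuting copies of every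
separable piece, saturation for countably many relations, and no characters. -/
structure Sys (G : Type v) [Group G] (D : Type u) [CStarAlgebra D] where
  act : G → D ≃⋆ₐ[ℂ] D
  act_mul : ∀ g h x, act (g * h) x = act g (act h x)
  noChar : IsEmpty (D →⋆ₐ[ℂ] ℂ)
  copies : ∀ S : Set D, S.Countable → ∃ ι : ℕ → ↥(gen act S) →⋆ₐ[ℂ] D,
    (∀ k g (x y : ↥(gen act S)), (y : D) = act g x → ι k y = act g (ι k x)) ∧
    (∀ j k, j ≠ k → ∀ x y, Commute (ι j x) (ι k y)) ∧
    ∀ k x (y : ↥(gen act S)), Commute (ι k x) (y : D)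
  saturate : ∀ (n : ℕ) (B : ℝ) (t : ℕ → Tm G D (Fin n)),
    (∀ (j₀ : ℕ) (ε : ℝ), 0 < ε → ∃ x : Fin n → D, (∀ i, ‖x i‖ ≤ B) ∧
      ∀ j < j₀, ‖(t j).eval act x‖ ≤ ε) →
    ∃ x : Fin n → D, (∀ i, ‖x i‖ ≤ B) ∧ ∀ j, (t j).eval act x = 0

/-- The values on positive elements of a quasitracial state. -/
structure QT (D : Type u) [CStarAlgebra D] where
  q : D → ℝ
  nonneg : ∀ x, 0 ≤ q (star x * x)
  one : q 1 = 1
  smul : ∀ (r : ℝ) x, 0 ≤ r → q (r • (star x * x)) = r * q (star x * x)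
  swap : ∀ x, q (star x * x) = q (x * star x)
  mono : ∀ x y, q (star x * x) ≤ q (star x * x + star y * y)
  orth : ∀ x y, star x * x * (star y * y) = 0 →
    q (star x * x + star y * y) = q (star x * x) + q (star y * y)
  tri : ∀ x y (t : ℝ), 0 < t →
    q (star x * x + star y * y) ≤ (1 + t) * q (star x * x) + (1 + 1 / t) * q (star y * y)

namespace QT

variable {D : Type u} [CStarAlgebra D] (Q : QT D)

/-- The squared two-norm. -/
def sq (x : D) : ℝ := Q.q (star x * x)

/-- Elements of two-norm zero. -/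
def Null (x : D) : Prop := Q.sq x = 0

/-- The extension to self-adjoint elements. -/
def qs (a : D) : ℝ := Q.q a⁺ - Q.q a⁻

end QT

/-! ## Gaussian data -/

/-- Variables of the chaos polynomials: collective elements and kernels of the groups. -/
abbrev Var (L m : ℕ) (P : Type v) : Type v :=
  ((Fin L × Fin m) × P) ⊕ ((Fin L × Fin m) × P × P)

/-- Gaussian data: in an algebra with a state, bounded collective elements f of commuting groups
with central kernels K, whose first two moments given everything outside are those of centred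
Gaussian variables with covariance K', and K' is τ-close to K. -/
structure Gauss (M : Type u) [CStarAlgebra M] (ι : Type v) [Fintype ι] (I : Type) (τ C : ℝ) where
  Φ : M →ₗ[ℂ] ℂ
  one : Φ 1 = 1
  pos : ∀ x, ∃ r : ℝ, 0 ≤ r ∧ Φ (star x * x) = (r : ℂ)
  f : I → ι → M
  K : I → ι → ι → M
  K' : I → ι → ι → M
  f_sa : ∀ a g, IsSelfAdjoint (f a g)
  f_norm : ∀ a g, ‖f a g‖ ≤ C
  K_star : ∀ a g h, star (K a g h) = K a h g
  K_norm : ∀ a g h, ‖K a g h‖ ≤ 2
  K_diag : ∀ a g, K a g g = 1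
  K_psd : ∀ a (t : ι → ℂ), ∃ B, star B * B = ∑ g, ∑ h, (conj (t g) * t h) • K a g h
  K_near : ∀ a g h, ‖K' a g h - K a g h‖ ≤ τ
  comm_ff : ∀ a b, a ≠ b → ∀ g h, Commute (f a g) (f b h)
  comm_Kf : ∀ a b g g' h, Commute (K a g g') (f b h) ∧ Commute (K' a g g') (f b h)
  comm_KK : ∀ a b g g' h h', Commute (K a g g') (K b h h') ∧ Commute (K' a g g') (K b h h') ∧
    Commute (K' a g g') (K' b h h')
  base : StarSubalgebra ℂ M
  base_comm : ∀ x ∈ base, ∀ a g h, Commute x (f a g) ∧ Commute x (K a g h) ∧ Commute x (K' a g h)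
  out : I → StarSubalgebra ℂ M
  out_closed : ∀ a, IsClosed (out a : Set M)
  out_base : ∀ a, base ≤ out a
  out_f : ∀ a b, a ≠ b → ∀ g, f b g ∈ out a
  out_K : ∀ a b g h, K b g h ∈ out a ∧ K' b g h ∈ out a
  out_comm : ∀ a, ∀ x ∈ out a, ∀ g, Commute x (f a g)
  mean : ∀ a g, ∀ F ∈ out a, Φ (F * f a g) = 0
  pair : ∀ a g h, ∀ F ∈ out a, Φ (F * (f a g * f a h)) = Φ (F * K' a g h)

/-- The self-adjoint part of a polynomial evaluated at the data along a map of indices. -/
def Gauss.X {M : Type u} [CStarAlgebra M] {ι : Type v} [Fintype ι] {L m : ℕ} {τ C : ℝ}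
    (d : Gauss M ι (Fin L × Fin m) τ C) {P : Type v} (j : P → ι)
    (p : FreeAlgebra ℂ (Var L m P)) : M :=
  (2 : ℂ)⁻¹ • (FreeAlgebra.lift ℂ
      (Sum.elim (fun x => d.f x.1 (j x.2)) fun x => d.K x.1 (j x.2.1) (j x.2.2)) p
    + star (FreeAlgebra.lift ℂ
      (Sum.elim (fun x => d.f x.1 (j x.2)) fun x => d.K x.1 (j x.2.1) (j x.2.2)) p))

/-! ## Module interfaces -/

/-- Module Length: fullness and a lower bound in every quasitracial state give a certificate of
bounded length. -/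
def LengthStatement : Prop :=
  ∀ δ : ℝ, 0 < δ → ∃ (N : ℕ) (B : ℝ), ∀ (G : Type v) [Group G] (D : Type u) [CStarAlgebra D],
    Sys G D → ∀ y : D, ‖y‖ ≤ 1 → Full {cut δ (star y * y)} →
      (∀ Q : QT D, δ ≤ Q.sq y) →
      ∃ r : Fin N → D, (∀ i, ‖r i‖ ≤ B) ∧ ∑ i, star (y * r i) * (y * r i) = 1

/-- Module Linear: additivity on elements commuting up to null elements, limits, and states on
subalgebras which are commutative up to null elements. -/
def LinearStatement : Prop :=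
  (∀ (D : Type u) [CStarAlgebra D] (Q : QT D) (a b : D), IsSelfAdjoint a → IsSelfAdjoint b →
    Q.Null (a * b - b * a) → Q.qs (a + b) = Q.qs a + Q.qs b) ∧
  (∀ (D : Type u) [CStarAlgebra D] (U : Ultrafilter ℕ) (Q : ℕ → QT D),
    ∃ R : QT (ℕ →ᵇ D), ∀ a : ℕ →ᵇ D,
      Tendsto (fun n => (Q n).sq (a n)) (U : Filter ℕ) (𝓝 (R.sq a))) ∧
  ∀ (D : Type u) [CStarAlgebra D] (Q : QT D) (M : StarSubalgebra ℂ D), IsClosed (M : Set D) →
    (∀ x ∈ M, ∀ y ∈ M, Q.Null (x * y - y * x)) →
    ∃ Φ : ↥M →ₗ[ℂ] ℂ, Φ 1 = 1 ∧ (∀ x : ↥M, Φ (star x * x) = ((Q.sq (x : D) : ℝ) : ℂ)) ∧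
      ∀ x : ↥M, IsSelfAdjoint (x : D) → Φ x = ((Q.qs (x : D) : ℝ) : ℂ)

/-- Module Ingredient: almost symmetries with flips, with both signs in every quotient. -/
def IngredientStatement : Prop :=
  ∀ (G : Type v) [Group G] (D : Type u) [CStarAlgebra D], Sys G D → ∀ ε : ℝ, 0 < ε →
    ∃ z y p₁ p₂ : D, IsSelfAdjoint z ∧ ‖z‖ ≤ 1 ∧ star y * y = 1 ∧ y * star y = 1 ∧
      z * p₁ = p₁ ∧ z * p₂ = -p₂ ∧ Full {p₁} ∧ Full {p₂} ∧
      ∀ Q : QT D, Q.sq (z * z - 1) ≤ ε ∧ Q.sq (y * z * star y + z) ≤ ε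

/-- Module Core: the chaos polynomials. -/
def CoreStatement : Prop :=
  ∀ (P : Type v) [Fintype P] [DecidableEq P] [Nonempty P] (ε k : ℝ), 0 < ε → 1 ≤ k →
    ∃ τ : ℝ, 0 < τ ∧ ∀ C : ℝ, ∃ (L m : ℕ) (p : FreeAlgebra ℂ (Var L m P)),
      ∀ (M : Type u) [CStarAlgebra M] (ι : Type v) [Fintype ι] [DecidableEq ι]
        (d : Gauss M ι (Fin L × Fin m) τ C) (j₁ j₂ : P → ι),
        Function.Injective j₁ → Function.Injective j₂ →
        |(d.Φ (d.X j₁ p * d.X j₁ p)).re - 1| ≤ ε ∧
        (d.Φ (d.X j₁ p * d.X j₁ p * (d.X j₁ p * d.X j₁ p))).re ≤ 4 ∧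
        (d.Φ ((d.X j₁ p - d.X j₂ p) * (d.X j₁ p - d.X j₂ p))).re ≤
          (Set.ncard (symmDiff (Set.range j₁) (Set.range j₂)) : ℝ) / Fintype.card P + ε ∧
        (∀ F ∈ d.base, ‖d.Φ (F * d.X j₁ p)‖ ≤ ε * ‖F‖ ∧
          ‖d.Φ (F * cfc (fun s => Real.tanh (k * s)) (d.X j₁ p))‖ ≤ ε * ‖F‖) ∧
        (d.Φ ((1 - cfc (fun s => Real.tanh (k * s) ^ 2) (d.X j₁ p)) ^ 2)).re ≤ 8 / k + ε

/-- Module Spread: almost invariant elements with spread spectrum in every quotient. -/
def SpreadStatement : Prop :=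
  ∃ c : ℝ, 0 < c ∧ ∀ (G : Type v) [Group G] [Countable G], Folner G →
    ∀ (D : Type u) [CStarAlgebra D] (sys : Sys G D) (E : Finset G) (ε : ℝ), 0 < ε →
      ∃ T : D, IsSelfAdjoint T ∧ ‖T‖ ≤ 1 ∧ (∀ g ∈ E, ‖sys.act g T - T‖ ≤ ε) ∧
        ∀ t : ℝ, Full {cut c ((T - algebraMap ℝ D t) * (T - algebraMap ℝ D t))}

/-- Module Fair: almost invariant almost symmetries, uniformly in all quasitracial states, fair
against prescribed commuting elements. -/
def FairStatement : Prop :=
  ∀ (G : Type v) [Group G] [Countable G], Folner G →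
    ∀ (D : Type u) [CStarAlgebra D] (sys : Sys G D) (S : Finset D) (E : Finset G) (ε : ℝ), 0 < ε →
      ∃ U : D, IsSelfAdjoint U ∧ ‖U‖ ≤ 1 ∧ (∀ g s, s ∈ S → Commute U (sys.act g s)) ∧
        (∀ g s, s ∈ S → Commute (sys.act g U) s) ∧
        ∀ Q : QT D, Q.sq (U * U - 1) ≤ ε ∧ (∀ g ∈ E, Q.sq (sys.act g U - U) ≤ ε) ∧
          ∀ s ∈ S, IsSelfAdjoint s → ‖s‖ ≤ 1 → |Q.qs (s * U)| ≤ ε

/-- Module Pair: almost invariant elements of square zero, uniformly large in all quasitracial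
states. -/
def PairStatement : Prop :=
  ∃ δ : ℝ, 0 < δ ∧ ∀ (G : Type v) [Group G] [Countable G], Folner G →
    ∀ (D : Type u) [CStarAlgebra D] (sys : Sys G D) (E : Finset G) (ε : ℝ), 0 < ε →
      ∃ x : D, ‖x‖ ≤ 1 ∧ x * x = 0 ∧ (∀ g ∈ E, ‖sys.act g x - x‖ ≤ ε) ∧
        ∀ Q : QT D, δ ≤ Q.sq x

/-- Module Sector: averaging over sectors turns a partial isometry between exactly invariant
frames into an almost invariant one. -/
def SectorStatement : Prop :=
  ∀ (G : Type v) [Group G] [Countable G], Folner G → ∀ (E : Finset G) (ε : ℝ), 0 < ε →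
    ∃ M : ℕ, 0 < M ∧ ∀ (D : Type u) [CStarAlgebra D] (act : G → D ≃⋆ₐ[ℂ] D),
      (∀ g h x, act (g * h) x = act g (act h x)) →
      ∀ (b o p v : Fin M → D) (C : D),
        (∀ g k, act g (b k) = b k ∧ act g (o k) = o k ∧ act g (p k) = p k ∧ act g C = C) →
        IsSelfAdjoint C → ‖C‖ ≤ 1 →
        (∀ k, IsSelfAdjoint (b k) ∧ IsSelfAdjoint (o k) ∧ IsSelfAdjoint (p k) ∧
          ‖b k‖ ≤ 1 ∧ ‖o k‖ ≤ 1 ∧ ‖p k‖ ≤ 1) →
        (∀ k, star (v k) * v k = b k * b k ∧ p k * v k = v k ∧ v k * o k = v k ∧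
          o k * b k = b k ∧ o k * p k = 0 ∧ b k * C = C ∧ o k * C = C ∧ p k * C = 0) →
        (∀ j k, j ≠ k → ∀ g h, ∀ x ∈ [b j, o j, p j, v j, star (v j)],
          ∀ y ∈ [b k, o k, p k, v k, star (v k)], Commute (act g x) (act h y)) →
        ∃ s : D, ‖s‖ ≤ 2 ∧ (∀ g ∈ E, ‖act g s - s‖ ≤ ε) ∧ C * s = 0 ∧ s * s = 0 ∧
          ‖star s * s - C * C‖ ≤ ε

/-- Module Chain: the fixed point algebra has no characters. -/
def FixedStatement : Prop :=
  ∀ (G : Type v) [Group G] [Countable G], Folner G →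
    ∀ (D : Type u) [CStarAlgebra D] (sys : Sys G D),
      IsEmpty (Finite.fixedAlg sys.act →⋆ₐ[ℂ] ℂ)

/-! ## The central sequence algebra of a C*-algebra which need not be unital -/

section Central

variable {A : Type u} [NonUnitalCStarAlgebra A]

/-- A bounded sequence asymptotically commuting with every element along ω. -/
def IsCentralA (ω : Ultrafilter ℕ) (a : ℕ →ᵇ A) : Prop :=
  ∀ b : A, Tendsto (fun n => ‖a n * b - b * a n‖) (ω : Filter ℕ) (𝓝 0)

/-- A bounded sequence annihilating every element along ω. -/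
def IsAnnA (ω : Ultrafilter ℕ) (a : ℕ →ᵇ A) : Prop :=
  ∀ b : A, Tendsto (fun n => ‖a n * b‖ + ‖b * a n‖) (ω : Filter ℕ) (𝓝 0)

/-- A character of the central sequence algebra, as a functional on central sequences. -/
structure CentralCharA (ω : Ultrafilter ℕ) (A : Type u) [NonUnitalCStarAlgebra A] where
  val : (ℕ →ᵇ A) → ℂ
  ne_zero : ∃ a, IsCentralA ω a ∧ val a ≠ 0
  map_add : ∀ a b, IsCentralA ω a → IsCentralA ω b → val (a + b) = val a + val b
  map_mul : ∀ a b, IsCentralA ω a → IsCentralA ω b → val (a * b) = val a * val b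
  map_smul : ∀ (z : ℂ) a, IsCentralA ω a → val (z • a) = z * val a
  map_star : ∀ a, IsCentralA ω a → val (star a) = starRingEnd ℂ (val a)
  map_ann : ∀ a, IsCentralA ω a → IsAnnA ω a → val a = 0

/-- The relations of the dimension drop algebra in the central sequence algebra, on invariant
representatives: v*v + e + f is a unit modulo annihilating sequences. -/
def InvComparisonA {G : Type v} (ω : Ultrafilter ℕ) (α : G → A ≃⋆ₐ[ℂ] A) : Prop :=
  ∃ c e f v r s : ℕ →ᵇ A,
    (∀ x ∈ [c, e, f, v, r, s], IsCentralA ω x) ∧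
    IsAnnA ω (star r * r - e) ∧ IsAnnA ω (star s * s - f) ∧ IsAnnA ω (c * c) ∧
    IsAnnA ω (c * star c - e * e) ∧ IsAnnA ω (star c * c - f * f) ∧
    (∀ b : A, Tendsto (fun n => ‖(star (v n) * v n + e n + f n) * b - b‖)
      (ω : Filter ℕ) (𝓝 0)) ∧
    IsAnnA ω (e * v - v) ∧
    ∀ x ∈ [c, e, f, v, r, s], ∀ g, ∀ b : A,
      Tendsto (fun n => ‖(α g (x n) - x n) * b‖ + ‖b * (α g (x n) - x n)‖)
        (ω : Filter ℕ) (𝓝 0)

end Central

/-- Module Central: the central sequence algebra gives a working setting, and a fixed point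
algebra without characters there gives the relations. -/
def CentralAStatement : Prop :=
  ∀ (G : Type v) [Group G] [Countable G] (A : Type u) [NonUnitalCStarAlgebra A]
    [TopologicalSpace.SeparableSpace A] (α : G → A ≃⋆ₐ[ℂ] A),
    (∀ g h x, α (g * h) x = α g (α h x)) →
    ∀ (ω : Ultrafilter ℕ), (ω : Filter ℕ) ≤ cofinite → IsEmpty (CentralCharA ω A) →
      ∃ (D : Type u) (_ : CStarAlgebra D) (sys : Sys G D),
        IsEmpty (Finite.fixedAlg sys.act →⋆ₐ[ℂ] ℂ) → InvComparisonA ω α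

/-- The main statement. -/
def Final : Prop :=
  ∀ (G : Type v) [Group G] [Countable G], Folner G →
    ∀ (A : Type u) [NonUnitalCStarAlgebra A] [TopologicalSpace.SeparableSpace A]
      (α : G → A ≃⋆ₐ[ℂ] A), (∀ g h x, α (g * h) x = α g (α h x)) →
      ∀ (ω : Ultrafilter ℕ), (ω : Filter ℕ) ≤ cofinite → IsEmpty (CentralCharA ω A) →
        InvComparisonA ω α

/-- Assembly. -/
theorem final_of (hc : CentralAStatement.{u, v}) (hf : FixedStatement.{u, v}) :
    Final.{u, v} := by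
  intro G _ _ hG A _ _ α hα ω hω he
  obtain ⟨D, _, sys, h⟩ := hc G A α hα ω hω he
  exact h (hf G hG D sys)

end Vale.Agent.P095.General
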