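import Vale.Agent.P095.General.Basic
import Vale.Agent.P101.Stage4

/-!
The stages of P101 with their outputs in prescribed closed subalgebras, and in the working
setting: invariant elements.
-/

noncomputable section

open Finset

namespace Vale.Agent.P095.General

open Vale.Agent.P101
open Vale.Agent.P101.CombineN (IsOrderZero supp)

namespace Expose

universe u v

/-- Stage 1 with the output in any subalgebra containing the copies of the list. -/
theorem stage1_in {B : Type u} [CStarAlgebra B] {L : ℕ} (b₀ : Fin L → B)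
    (hb₀ : ∀ l, IsSelfAdjoint (b₀ l)) (hfull₀ : Full {x | ∃ l d, b₀ l * d - d * b₀ l = x}) :
    ∃ n : ℕ, ∀ (D : Type u) [CStarAlgebra D] (c : Copies B D (Fin n)) (F : StarSubalgebra ℂ D),
      (∀ i l, c.hom i (b₀ l) ∈ F) →
        ∃ T : D, T ∈ F ∧ IsSelfAdjoint T ∧ Full {x | ∃ d, T * d - d * T = x} := by
  set b : Fin (L + 1) → B := Fin.cons 0 b₀ with hb
  have hsa : ∀ l, IsSelfAdjoint (b l) := fun l =>
    Fin.cases (by simp [hb]) (fun j => by simpa [hb] using hb₀ j) l
  have hfull : Full {x | ∃ l d, b l * d - d * b l = x} := by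
    refine full_mono hfull₀ ?_
    rintro x ⟨l, d, rfl⟩
    exact TwoSidedIdeal.subset_span ⟨l.succ, d, by simp [hb]⟩
  obtain ⟨n, col, -, hhit⟩ := colour_ok L
  refine ⟨n, fun D _ c F hF => ?_⟩
  set t : Fin n × Fin n → D :=
    fun p => c.hom p.1 (b (col p.1 p.2)) * c.hom p.2 (b (col p.1 p.2)) with ht
  set P : Finset (Fin n × Fin n) := Finset.univ.filter fun p => p.1 < p.2 with hP
  have hPlt : ∀ p ∈ P, p.1 < p.2 := fun p hp => (Finset.mem_filter.1 hp).2
  have hbF : ∀ i l, c.hom i (b l) ∈ F := fun i l =>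
    Fin.cases (by simp [hb, zero_mem]) (fun j => by simpa [hb] using hF i j) l
  refine ⟨∑ p ∈ P, t p, sum_mem fun p _ => mul_mem (hbF _ _) (hbF _ _),
    isSelfAdjoint_sum _ fun p hp => ?_, ?_⟩
  · exact (((hsa _).map (c.hom p.1)).commute_iff ((hsa _).map (c.hom p.2))).1
      (c.comm _ _ (hPlt p hp).ne _ _)
  set T := ∑ p ∈ P, t p with hT
  set J := TwoSidedIdeal.span {z : D | ∃ d, T * d - d * T = z} with hJ
  have key : ∀ x y, x < y → ∀ d d', c.hom x (b (col x y) * d - d * b (col x y)) *
      c.hom y (b (col x y) * d' - d' * b (col x y)) ∈ J := by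
    intro x y hxy d d'
    set u := c.hom x d
    set w := c.hom y d'
    have hmem : (T * u - u * T) * w - w * (T * u - u * T) ∈ J := by
      have h1 : T * u - u * T ∈ J := TwoSidedIdeal.subset_span ⟨u, rfl⟩
      exact J.sub_mem (J.mul_mem_right _ _ h1) (J.mul_mem_left _ _ h1)
    have hzero : ∀ p ∈ P, p ≠ (x, y) → (t p * u - u * t p) * w - w * (t p * u - u * t p) = 0 := by
      intro p hp hne
      have hp' := hPlt p hp
      by_cases hx : p.1 = x ∨ p.2 = x
      · have hy : p.1 ≠ y ∧ p.2 ≠ y := by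
          constructor
          · rintro rfl
            rcases hx with h | h
            · exact hxy.ne h.symm
            · exact (hp'.trans_eq h).not_gt hxy
          · intro h
            rcases hx with h' | h'
            · exact hne (Prod.ext h' h)
            · exact hxy.ne (h'.symm.trans h)
        have htw : Commute (t p) w := (c.comm _ _ hy.1 _ _).mul_left (c.comm _ _ hy.2 _ _)
        have huw : Commute u w := c.comm _ _ hxy.ne _ _
        rw [sub_eq_zero]
        exact (((htw.mul_left huw).sub_left (huw.mul_left htw))).eq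
      · simp only [not_or] at hx
        have htu : Commute (t p) u := (c.comm _ _ hx.1 _ _).mul_left (c.comm _ _ hx.2 _ _)
        rw [htu.eq, sub_self, zero_mul, mul_zero, sub_self]
    have hone : (T * u - u * T) * w - w * (T * u - u * T) =
        c.hom x (b (col x y) * d - d * b (col x y)) *
          c.hom y (b (col x y) * d' - d' * b (col x y)) := by
      rw [hT]
      simp only [Finset.sum_mul, Finset.mul_sum, ← Finset.sum_sub_distrib]
      rw [Finset.sum_eq_single (x, y) hzero fun h => absurd (by simp [hP, hxy]) h]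
      simp only [ht, map_sub, map_mul]
      exact double_commutator_mul (c.comm _ _ hxy.ne' _ _) (c.comm _ _ hxy.ne _ _)
        (c.comm _ _ hxy.ne _ _)
    rwa [hone] at hmem
  refine Copies.full_cover c Finset.univ (fun _ => {x | ∃ l d, b l * d - d * b l = x})
    (fun i _ => hfull) fun g hg => ?_
  choose f d hfd using fun i => hg i (Finset.mem_univ i)
  obtain ⟨x, y, hxy, hx, hy⟩ := hhit f
  refine Copies.prod_pair_mem c hxy.ne (Finset.mem_univ x) (Finset.mem_univ y) ?_
  rw [← hfd x, ← hfd y, hx, hy]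
  exact key x y hxy _ _

open Real in
/-- Stage 2 with the outputs in any closed subalgebra containing the copies of the element. -/
theorem stage2_in {B : Type u} [CStarAlgebra B] (T : B) (hT : IsSelfAdjoint T)
    (hfull : Full {x | ∃ d, T * d - d * T = x}) :
    ∃ n : ℕ, ∀ (D : Type u) [CStarAlgebra D] (c : Copies B D (Fin n)) (F : StarSubalgebra ℂ D),
      IsClosed (F : Set D) → (∀ i, c.hom i T ∈ F) →
        ∃ e e' : D, e ∈ F ∧ e' ∈ F ∧ IsSelfAdjoint e ∧ IsSelfAdjoint e' ∧ e * e' = 0 ∧
          Full {e} ∧ Full {e' * e'} := by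
  obtain ⟨h, h0, h1, hfar⟩ := Stage2.full_far hT hfull
  set R := ‖T‖ + 1 with hR
  have hR0 : 0 < R := by positivity
  set lam := 1 / (12 * R) with hlam
  have hlam0 : 0 < lam := by positivity
  set n := ⌈2 * π / (lam * h)⌉₊
  have hn : 2 * π / lam ≤ n * h := by
    have := Nat.le_ceil (2 * π / (lam * h))
    exact (div_le_iff₀ h0).1 ((div_div _ _ _).trans_le this)
  refine ⟨n, fun D _ c Fs hFsC hF' => ?_⟩
  set k := min (h / 2) (R / (3 * ((n : ℝ) + 1))) with hk
  have hk0 : 0 < k := lt_min (by positivity) (by positivity)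
  have hsmall : (n : ℝ) * (2 * k) < R := by
    have h3 : k * (3 * ((n : ℝ) + 1)) ≤ R := (le_div_iff₀ (by positivity)).1 (min_le_right _ _)
    nlinarith [mul_nonneg (Nat.cast_nonneg (α := ℝ) n) hk0.le]
  set F : ℝ → ℝ := fun x => max (sin (lam * x) - 1 / 2) 0
  set G : ℝ → ℝ := fun x => max (-sin (lam * x) - 1 / 2) 0
  have hFc : Continuous F := by fun_prop
  have hGc : Continuous G := by fun_prop
  set S := ∑ i, c.hom i T
  have hS : IsSelfAdjoint S := isSelfAdjoint_sum _ fun i _ => hT.map (c.hom i)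
  have hsin := fun (m : ℤ) (x : ℝ) => Stage2.sin_large (x := x) (m := m) hR0 hlam
  have hkey := fun (τ : ℝ) => @Stage2.full_cfc B D _ _ n c T hT h k hk0 (hfar k hk0 (min_le_left _ _))
    (2 * π / lam) R τ
  have : IsClosed (Fs : Set D) := hFsC
  have hSF : S ∈ Fs := sum_mem fun i _ => hF' i
  refine ⟨cfc F S, cfc G S, cfc_mem (𝕜' := ℂ) F hSF, cfc_mem (𝕜' := ℂ) G hSF,
    cfc_predicate _ _, cfc_predicate _ _, ?_, ?_, ?_⟩
  · rw [← cfc_mul F G S hFc.continuousOn hGc.continuousOn, ← cfc_zero ℝ S]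
    refine cfc_congr fun x _ => ?_
    rcases le_total (sin (lam * x)) 0 with h' | h'
    · have : F x = 0 := max_eq_right (by linarith)
      simp [this]
    · have : G x = 0 := max_eq_right (by linarith)
      simp [this]
  · refine hkey (π / 2 / lam) (θ := 2 / 5) (by positivity) hR0 (by norm_num) hn hsmall hFc
      (fun x => le_max_right _ _) fun m x hx => ?_
    exact le_trans (by linarith [hsin m x hx]) (le_max_left _ _)
  · rw [← cfc_mul G G S hGc.continuousOn hGc.continuousOn]
    refine hkey (π / 2 / lam + π / lam) (θ := (2 / 5) ^ 2) (by positivity) hR0 (by norm_num) hn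
      hsmall (hGc.mul hGc) (fun x => mul_self_nonneg _) fun m x hx => ?_
    have h' := hsin m (x - π / lam) (le_of_eq_of_le (by ring_nf) hx)
    rw [mul_sub, mul_div_cancel₀ _ hlam0.ne', sin_sub_pi] at h'
    have h2 : 2 / 5 ≤ G x := le_trans (by linarith) (le_max_left _ _)
    nlinarith

open CombineN Stage4

/-- From a lower bound on the ranges and an exact left inverse to the relations, inside any closed
subalgebra containing the family. -/
theorem finish_in {D : Type*} [CStarAlgebra D] {n : ℕ} {G : Fin n → Fin n → D} (hG : IsOrderZero G)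
    (hs : ∀ i j, star (G i j) = G j i) (z : Fin n) {T Q Y : D} (hQ : star Q = Q)
    (hY : Y * (G z z * T) = Q) {τ : ℝ} (hτ : 0 < τ)
    (hgT : cfc (ramp (τ / 2) τ) (supp G) * T = T)
    (hψQ : Q * cfc (fun x => Real.sqrt (1 - ramp (τ / 2) τ x)) (supp G)
      = cfc (fun x => Real.sqrt (1 - ramp (τ / 2) τ x)) (supp G)) :
    ∃ (G' : Fin n → Fin n → D) (v : D), IsOrderZero G' ∧ (∀ i j, star (G' i j) = G' j i) ∧
      (∀ i, ∃ r, star r * r = G' i i) ∧ star v * v = 1 - supp G' ∧ G' z z * v = v ∧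
      ∀ F : StarSubalgebra ℂ D, IsClosed (F : Set D) → (∀ i j, G i j ∈ F) →
        ∀ i j, G' i j ∈ F := by
  set H := supp G with hH
  have hsa : IsSelfAdjoint H := supp_sa G hs
  set g : ℝ → ℝ := ramp (τ / 2) τ with hg
  set k : ℝ → ℝ := fun x => g x / max x (τ / 2) with hk
  set sg : ℝ → ℝ := fun x => Real.sqrt (g x) / max x (τ / 2) with hsg
  set ψ0 : ℝ → ℝ := fun x => Real.sqrt (1 - g x) with hψ0
  have hm0 : ∀ x, 0 < max x (τ / 2) := fun x => lt_of_lt_of_le (half_pos hτ) (le_max_right _ _)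
  have cg : Continuous g := continuous_ramp _ _
  have ck : Continuous k := cg.div (by fun_prop) fun x => (hm0 x).ne'
  have csg : Continuous sg :=
    (Real.continuous_sqrt.comp cg).div (by fun_prop) fun x => (hm0 x).ne'
  have cψ : Continuous ψ0 := Real.continuous_sqrt.comp (continuous_const.sub cg)
  have hxk : ∀ x, x * k x = g x := fun x => by
    rcases eq_or_ne (g x) 0 with h0 | h0
    · simp [hk, h0]
    · have hx : τ / 2 < x := lt_of_ramp_ne_zero (by linarith) h0
      have : x ≠ 0 := by linarith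
      simp only [hk, max_eq_left hx.le]
      field_simp
  have hsk : ∀ x, sg x * x * sg x = k x := fun x => by
    rcases eq_or_ne (g x) 0 with h0 | h0
    · simp [hk, hsg, h0]
    · have hx : τ / 2 < x := lt_of_ramp_ne_zero (by linarith) h0
      have : x ≠ 0 := by linarith
      simp only [hk, hsg, max_eq_left hx.le]
      field_simp
      rw [Real.sq_sqrt (ramp_nonneg _ _ x)]
  have hHc : ∀ (f : ℝ → ℝ) i j, Commute (cfc f H) (G i j) := fun f i j =>
    Commute.cfc_real (hG.commute_supp i j) f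
  have eHk : H * cfc k H = cfc g H := by
    rw [cfc_congr (f := g) (g := fun x => x * k x) (fun x _ => (hxk x).symm),
      cfc_mul (fun x => x) k H continuousOn_id ck.continuousOn, cfc_id' ℝ H]
  have hψQ' : cfc ψ0 H * Q = cfc ψ0 H := by
    have := congrArg star hψQ
    rwa [star_mul, hQ, (cfc_predicate ψ0 H : IsSelfAdjoint _).star_eq] at this
  obtain ⟨v, hv, hfix⟩ := exists_polar (r := G z z * T) (E := cfc ψ0 H) (Y := cfc ψ0 H * Y)
    (cfc_predicate ψ0 H) (by rw [mul_assoc, hY, hψQ'])
  have hsupp : supp (fun i j => G i j * cfc k H) = cfc g H := by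
    rw [supp, ← Finset.sum_mul, ← supp, ← hH, eHk]
  refine ⟨fun i j => G i j * cfc k H, v, ⟨fun i j k' l => ?_⟩, fun i j => ?_, fun i => ?_, ?_, ?_,
    fun F hFc hF i j => mul_mem (hF i j) ?_⟩
  · rw [hsupp, (hHc k k' l).mul_mul_mul_comm, hG.mul_eq, ← hH]
    split
    · rw [← eHk]
      simp only [mul_assoc]
      rw [← mul_assoc (G i l) (cfc k H) (cfc k H), ← (hHc k i l).eq, mul_assoc,
        ← (hHc k i l).eq]
    · rw [zero_mul]
  · rw [star_mul, (cfc_predicate k H : IsSelfAdjoint _).star_eq, hs, (hHc k j i).eq]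
  · refine ⟨G i i * cfc sg H, ?_⟩
    rw [star_mul, (cfc_predicate sg H : IsSelfAdjoint _).star_eq, hs, mul_assoc,
      ← mul_assoc (G i i), hG.mul_eq, if_pos rfl, ← hH, mul_assoc H, ← (hHc sg i i).eq]
    have e : cfc k H = cfc sg H * (H * cfc sg H) := by
      rw [cfc_congr (f := k) (g := fun x => sg x * (x * sg x))
          (fun x _ => by rw [← hsk x, mul_assoc]),
        cfc_mul sg (fun x => x * sg x) H csg.continuousOn
          (continuous_id.mul csg).continuousOn,
        cfc_mul (fun x => x) sg H continuousOn_id csg.continuousOn, cfc_id' ℝ H]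
    show _ = G i i * cfc k H
    rw [← (hHc k i i).eq, e]
    simp only [mul_assoc]
  · rw [hv, hsupp, ← cfc_mul ψ0 ψ0 H cψ.continuousOn cψ.continuousOn, ← cfc_const_one ℝ H,
      ← cfc_sub (fun _ : ℝ => (1 : ℝ)) g H continuousOn_const cg.continuousOn]
    exact cfc_congr fun x _ => Real.mul_self_sqrt (by linarith [ramp_le_one (τ / 2) τ x])
  · refine hfix _ ?_
    rw [mul_assoc, ← mul_assoc (cfc k H), (hHc k z z).eq, ← mul_assoc, ← mul_assoc,
      hG.mul_eq, if_pos rfl, ← hH, (hG.commute_supp z z).eq, mul_assoc (G z z) H, eHk, mul_assoc,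
      hgT]
  · have : IsClosed (F : Set D) := hFc
    exact cfc_mem (𝕜' := ℂ) k (sum_mem fun i _ => hF i i)

/-- The relations from many copies, inside any closed subalgebra containing the folded family. -/
theorem comparisonN_in {B : Type*} [CStarAlgebra B] {n : ℕ} {E : Fin n → Fin n → B}
    (hE : IsOrderZero E) (hs : ∀ i j, star (E i j) = E j i) {z : Fin n} {δ : ℝ} (hδ : 0 < δ)
    {N : ℕ} (a b : Fin (N + 1) → B) (h1 : ∑ l, a l * Stage4.gen E z δ b l = 1)
    {m : ℕ} (col : Fin m → Fin m → Fin (N + 1))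
    (hcol : ∀ f : Fin m → Fin (N + 1), ∃ x y, x < y ∧ f x = col x y ∧ f y = col x y)
    {D : Type*} [CStarAlgebra D] [PartialOrder D] [StarOrderedRing D] (c : Copies B D (Fin m)) :
    ∃ (G' : Fin n → Fin n → D) (v : D), IsOrderZero G' ∧ (∀ i j, star (G' i j) = G' j i) ∧
      (∀ i, ∃ r, star r * r = G' i i) ∧ star v * v = 1 - supp G' ∧ G' z z * v = v ∧
      ∀ F : StarSubalgebra ℂ D, IsClosed (F : Set D) → (∀ i j, CombineN.fold (fam c E) m i j ∈ F) →
        ∀ i j, G' i j ∈ F := by
  set Gm := CombineN.fold (fam c E) m with hGm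
  set H := supp Gm with hH
  have good := fam_good c E hE hs
  have hHsa : IsSelfAdjoint H := good.supp_fold_sa m
  obtain ⟨c₀, hc₀, hvan⟩ := vanish c E hE hs (m := m) (δ := δ / 2) (by linarith)
  obtain ⟨C, hC, hsmall⟩ := good.small z m
  set K : ℝ := max (max 1 (‖cfc (fk δ) (supp E) * E z z‖)) (∑ j, ‖E j j‖) with hKdef
  have hK1 : 1 ≤ K := (le_max_left _ _).trans (le_max_left _ _)
  have hKk : ‖cfc (fk δ) (supp E) * E z z‖ ≤ K := (le_max_right _ _).trans (le_max_left _ _)
  have hK : ∀ j, ‖E j j‖ ≤ K := fun j =>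
    (Finset.single_le_sum (fun q _ => norm_nonneg (E q q)) (Finset.mem_univ j)).trans
      (le_max_right _ _)
  set U : ℝ := ‖cfc (fun t => 1 / max t c₀) H‖ * (n * (C * (K ^ (m + 1)))) with hU
  have hU0 : 0 ≤ U := by positivity
  obtain ⟨η, hη, hηU⟩ : ∃ η : ℝ, 0 < η ∧ U * η < 1 := by
    refine ⟨1 / (U + 1), by positivity, ?_⟩
    rw [mul_one_div, div_lt_one (by positivity)]
    linarith
  obtain ⟨θ, hθ, hθδ, hθη⟩ : ∃ θ : ℝ, 0 < θ ∧ 2 * θ ≤ δ / 2 ∧ 2 * θ ≤ η * η := by
    refine ⟨min (δ / 4) (η * η / 2), lt_min (by linarith) (by positivity), ?_, ?_⟩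
    · linarith [min_le_left (δ / 4) (η * η / 2)]
    · linarith [min_le_right (δ / 4) (η * η / 2)]
  have hkill : ∀ p ψ, Continuous ψ → (∀ x, c₀ ≤ x → ψ x = 0) →
      cfc ψ H * (tP c E z δ b col p * qQ c E θ) = 0 := fun p ψ hψ h0 => by
    have hx := hvan p.1.1 (fG δ) ψ (cont_fG δ)
      (fun x hx => (lt_of_ramp_ne_zero (by linarith) hx).le) hψ h0
    rw [← hom_fG_absorb c E z b col hδ p, ← mul_assoc, hx, zero_mul]
  have hηU' : ‖cfc (fun t => 1 / max t c₀) H‖ * (n * (C * (K ^ (m + 1) * η))) < 1 := by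
    refine lt_of_eq_of_lt ?_ hηU
    rw [hU]; ring
  choose W hW using left_inverse c hE hs b col hδ hθ hθδ hK hKk hK1 hη.le hθη hC hc₀ hsmall
    hkill hηU'
  obtain ⟨X, hX⟩ := (Submodule.mem_span_range_iff_exists_fun D).1
    (one_mem_span c E z b col hcol a h1)
  have hQr : (∑ p, X p * W p) * (Gm z z * tT c E z δ θ b col) = qQ c E θ := by
    rw [Finset.sum_mul]
    have e : ∀ q, X q * W q * (Gm z z * tT c E z δ θ b col)
        = X q * tP c E z δ b col q * qQ c E θ := fun q => by
      rw [mul_assoc, hW, mul_assoc]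
    rw [Finset.sum_congr rfl fun q _ => e q, ← Finset.sum_mul]
    simp only [smul_eq_mul] at hX
    rw [hX, one_mul]
  obtain ⟨c₁, hc₁, hvan1⟩ := vanish c E hE hs (m := m) (δ := θ / 2) (by linarith)
  have hτ : 0 < min c₀ c₁ := lt_min hc₀ hc₁
  have gtop : ∀ x, min c₀ c₁ ≤ x → ramp (min c₀ c₁ / 2) (min c₀ c₁) x = 1 := fun x hx =>
    ramp_of_ge (by linarith) hx
  refine finish_in (good.fold_oz m) (good.fold_sa m) z (qQ_sa c E θ) hQr hτ ?_ ?_
  · rw [tT, Finset.mul_sum]
    refine Finset.sum_congr rfl fun p _ => ?_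
    have h0 := hkill p (fun x => 1 - ramp (min c₀ c₁ / 2) (min c₀ c₁) x)
      (continuous_const.sub (continuous_ramp _ _))
      fun x hx => by rw [gtop x ((min_le_left _ _).trans hx), sub_self]
    rw [cfc_sub (fun _ : ℝ => (1 : ℝ)) _ H continuousOn_const
      (continuous_ramp _ _).continuousOn, cfc_const_one ℝ H, sub_mul, one_mul, sub_eq_zero] at h0
    exact h0.symm
  · set ψ0 : ℝ → ℝ := fun x => Real.sqrt (1 - ramp (min c₀ c₁ / 2) (min c₀ c₁) x) with hψ0
    have cψ : Continuous ψ0 :=
      Real.continuous_sqrt.comp (continuous_const.sub (continuous_ramp _ _))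
    rw [qQ]
    refine prod_mul_absorb c _ fun i _ => ?_
    set r : ℝ → ℝ := fun x => ramp (θ / 2) θ |x| with hr
    have cr : Continuous r := (continuous_ramp _ _).comp continuous_abs
    have hz := hvan1 i r ψ0 cr (fun x hx => (lt_of_ramp_ne_zero (by linarith) hx).le) cψ
      (fun x hx => by simp [hψ0, gtop x ((min_le_right _ _).trans hx)])
    have e1 : cfc (fq θ) (supp E) = 1 - cfc r (supp E) := by
      have : IsSelfAdjoint (supp E) := supp_sa E hs
      rw [show fq θ = fun x => 1 - r x from rfl,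
        cfc_sub (fun _ : ℝ => (1 : ℝ)) r (supp E) continuousOn_const cr.continuousOn,
        cfc_const_one ℝ (supp E)]
    have hc' : Commute (cfc ψ0 H) (c.hom i (cfc (fq θ) (supp E))) :=
      Commute.cfc_real (Commute.sum_left _ _ _
        fun j _ => (commute_hom_fold c E hE (fq θ) i j j).symm) ψ0
    rw [← hc'.eq, e1, map_sub, map_one, mul_sub, mul_one, hz, sub_zero]

/-- Stage 4 for any matrix size, with the family inside any closed subalgebra containing the copies
of the given family. -/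
theorem stage4_in {B : Type u} [CStarAlgebra B] {n : ℕ} {E : Fin n → Fin n → B}
    (hE : IsOrderZero E) (hs : ∀ i j, star (E i j) = E j i) {z : Fin n}
    (hfull : Full ({E z z} : Set B)) :
    ∃ m : ℕ, ∀ (D : Type u) [CStarAlgebra D] (c : Copies B D (Fin m)) (F : StarSubalgebra ℂ D),
      IsClosed (F : Set D) → (∀ a i j, c.hom a (E i j) ∈ F) →
        ∃ (G : Fin n → Fin n → D) (v : D), IsOrderZero G ∧ (∀ i j, star (G i j) = G j i) ∧
          (∀ i, ∃ r, star r * r = G i i) ∧ star v * v = 1 - supp G ∧ G z z * v = v ∧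
          ∀ i j, G i j ∈ F := by
  obtain ⟨δ, hδ, N, a, b, h1⟩ := exists_left_unit hE hs hfull
  obtain ⟨m, col, _, hcol⟩ := colour_ok N
  refine ⟨m, fun D _ c F hFc hF => ?_⟩
  let := CStarAlgebra.spectralOrder D
  have := CStarAlgebra.spectralOrderedRing D
  obtain ⟨G, v, g1, g2, g3, g4, g5, g6⟩ := comparisonN_in hE hs hδ a b h1 col hcol c
  refine ⟨G, v, g1, g2, g3, g4, g5, g6 F hFc ?_⟩
  have hfam : ∀ a i j, fam c E a i j ∈ F := fun a i j => by
    unfold fam
    split_ifs with h
    · exact hF ⟨a, h⟩ i j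
    · exact zero_mem F
  have hfold : ∀ k i j, CombineN.fold (fam c E) k i j ∈ F := by
    intro k
    induction k with
    | zero => exact fun i j => zero_mem F
    | succ k ih =>
      intro i j
      simp only [CombineN.fold, combine, comb, left, right, supp]
      repeat' first
        | apply add_mem
        | apply sub_mem
        | apply mul_mem
        | apply SMulMemClass.smul_mem
        | apply pow_mem
        | (apply sum_mem; intro _ _)
        | exact ih _ _
        | exact hfam k _ _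
  exact hfold m

end Expose

namespace Sys

open Expose Vale.Agent.P095.Finite

universe u v

variable {G : Type v} [Group G] {D : Type u} [CStarAlgebra D] (sys : Sys G D)

include sys

/-- Copies of the subalgebra generated by finitely many elements. -/
lemma exists_fin_copies {κ : Type} [Finite κ] (f : κ → D) :
    ∃ g : κ → ↥(gen sys.act (Set.range f)), (∀ k, (g k : D) = f k) ∧ ∀ m : ℕ,
      ∃ c : Copies ↥(gen sys.act (Set.range f)) D (Fin m),
        ∀ k, f k ∈ fixedAlg sys.act → ∀ i, c.hom i (g k) ∈ fixedAlg sys.act := by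
  obtain ⟨c, -, -, hc⟩ := sys.exists_copies (Set.range f) (Set.finite_range f).countable
  refine ⟨fun k => ⟨f k, subset_gen ⟨k, rfl⟩⟩, fun k => rfl, fun m => ?_⟩
  exact ⟨⟨fun i => c.hom i.1, fun i j h => c.comm _ _ fun e => h (Fin.ext e)⟩,
    fun k hk i => hc i.1 _ hk⟩

/-- Fixed self-adjoint elements with full commutators give fixed orthogonal full elements. -/
theorem exists_split_fixed {L : ℕ} (b : Fin L → D) (hb : ∀ l, IsSelfAdjoint (b l))
    (hfix : ∀ l, b l ∈ fixedAlg sys.act)
    (hfull : Full {x | ∃ l d, b l * d - d * b l = x}) :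
    ∃ e e' : D, e ∈ fixedAlg sys.act ∧ e' ∈ fixedAlg sys.act ∧ IsSelfAdjoint e ∧
      IsSelfAdjoint e' ∧ e * e' = 0 ∧ Full {e} ∧ Full {e'} := by
  obtain ⟨N, p, x, q, hx, h1⟩ := full_exists_sum hfull
  choose l d hd using hx
  obtain ⟨g, hg, hc⟩ := sys.exists_fin_copies (Sum.elim b (Sum.elim p (Sum.elim q d)))
  have hfullB : Full {y | ∃ l' d', g (Sum.inl l') * d' - d' * g (Sum.inl l') = y} :=
    full_of_sum (p := fun i => g (Sum.inr (Sum.inl i)))
      (x := fun i => g (Sum.inl (l i)) * g (Sum.inr (Sum.inr (Sum.inr i))) -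
        g (Sum.inr (Sum.inr (Sum.inr i))) * g (Sum.inl (l i)))
      (q := fun i => g (Sum.inr (Sum.inr (Sum.inl i)))) (fun i => ⟨l i, _, rfl⟩)
      (Subtype.ext (by simpa [hg, hd, AddSubmonoidClass.coe_finsetSum] using h1))
  obtain ⟨n, hn⟩ := stage1_in (fun l' => g (Sum.inl l'))
    (fun l' => Subtype.ext (by simpa [hg] using (hb l').star_eq)) hfullB
  obtain ⟨c, hcF⟩ := hc n
  obtain ⟨T, hTF, hT, hTfull⟩ := hn D c (fixedAlg sys.act)
    fun i l' => hcF _ (by simpa using hfix l') i
  obtain ⟨N', p', x', q', hx', h1'⟩ := full_exists_sum hTfull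
  choose d' hd' using hx'
  obtain ⟨g', hg', hc'⟩ :=
    sys.exists_fin_copies (Sum.elim (fun _ : Fin 1 => T) (Sum.elim p' (Sum.elim q' d')))
  have hfullB' : Full {y | ∃ d'', g' (Sum.inl 0) * d'' - d'' * g' (Sum.inl 0) = y} :=
    full_of_sum (p := fun i => g' (Sum.inr (Sum.inl i)))
      (x := fun i => g' (Sum.inl 0) * g' (Sum.inr (Sum.inr (Sum.inr i))) -
        g' (Sum.inr (Sum.inr (Sum.inr i))) * g' (Sum.inl 0))
      (q := fun i => g' (Sum.inr (Sum.inr (Sum.inl i)))) (fun i => ⟨_, rfl⟩)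
      (Subtype.ext (by simpa [hg', hd', AddSubmonoidClass.coe_finsetSum] using h1'))
  obtain ⟨n', hn'⟩ := stage2_in (g' (Sum.inl 0))
    (Subtype.ext (by simpa [hg'] using hT.star_eq)) hfullB'
  obtain ⟨c', hcF'⟩ := hc' n'
  obtain ⟨e, e', he, he', hes, hes', horth, hef, hef'⟩ := hn' D c' (fixedAlg sys.act)
    (isClosed_fixed sys.act) fun i => hcF' _ (by simpa using hTF) i
  refine ⟨e, e', he, he', hes, hes', horth, hef, full_mono hef' ?_⟩
  rintro y rfl
  exact TwoSidedIdeal.mul_mem_right _ _ _ (TwoSidedIdeal.subset_span rfl)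

/-- A fixed full family of order zero gives a fixed family satisfying the comparison relations
with some element of the algebra. -/
theorem exists_comparison_fixed {n : ℕ} {E : Fin n → Fin n → D} (hE : IsOrderZero E)
    (hs : ∀ i j, star (E i j) = E j i) (hfix : ∀ i j, E i j ∈ fixedAlg sys.act) {z : Fin n}
    (hfull : Full ({E z z} : Set D)) :
    ∃ (F : Fin n → Fin n → D) (v : D), IsOrderZero F ∧ (∀ i j, star (F i j) = F j i) ∧
      (∀ i, ∃ r, star r * r = F i i) ∧ star v * v = 1 - supp F ∧ F z z * v = v ∧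
      ∀ i j, F i j ∈ fixedAlg sys.act := by
  obtain ⟨N, p, x, q, hx, h1⟩ := full_exists_sum hfull
  have hx' : ∀ i, x i = E z z := fun i => hx i
  obtain ⟨g, hg, hc⟩ := sys.exists_fin_copies
    (Sum.elim (fun ij : Fin n × Fin n => E ij.1 ij.2) (Sum.elim p q))
  have hEB : IsOrderZero fun i j => g (Sum.inl (i, j)) := ⟨fun i j k l => Subtype.ext (by
    have := hE.mul_eq i j k l
    split_ifs at this ⊢ with h <;>
      simpa [hg, supp, AddSubmonoidClass.coe_finsetSum] using this)⟩
  obtain ⟨m, hm⟩ := stage4_in hEB (fun i j => Subtype.ext (by simpa [hg] using hs i j)) (z := z)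
    (full_of_sum (p := fun i => g (Sum.inr (Sum.inl i))) (x := fun _ => g (Sum.inl (z, z)))
      (q := fun i => g (Sum.inr (Sum.inr i))) (fun i => rfl)
      (Subtype.ext (by simpa [hg, hx', AddSubmonoidClass.coe_finsetSum] using h1)))
  obtain ⟨c, hcF⟩ := hc m
  exact hm D c (fixedAlg sys.act) (isClosed_fixed sys.act)
    fun a i j => hcF _ (by simpa using hfix i j) a

end Sys

end Vale.Agent.P095.General
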