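import Vale.Agent.P095.General.Fair.Letters
import Vale.Agent.P095.General.Fair.Limit

/-!
Module Fair: almost invariant almost symmetries, uniformly in all quasitracial states, fair against
prescribed commuting elements. They are hyperbolic tangents of chaos polynomials in collective
elements of copies of almost symmetries with flips; along a sequence of bad quasitracial states the
collective elements become Gaussian data.
-/

noncomputable section

open Filter Topology
open scoped BoundedContinuousFunction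

namespace Vale.Agent.P095.General

open Vale.Agent.P101
open Vale.Agent.P101.CombineN (IsOrderZero supp)

universe u v

namespace Fair

/-- Countable data for letters at every precision. -/
lemma exists_letters {G : Type v} [Group G] [Countable G] {D : Type u} [CStarAlgebra D]
    (sys : Sys G D) {S : Set D} (hS : S.Countable) :
    ∃ S' : Set D, S'.Countable ∧ S ⊆ S' ∧ ∃ z y : ℕ → ↥(gen sys.act S'),
      ∀ N, IsSelfAdjoint (z N) ∧ ‖z N‖ ≤ 1 ∧ star (y N) * y N = 1 ∧ y N * star (y N) = 1 ∧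
        ∀ Q : QT ↥(gen sys.act S'), Q.sq (z N * z N - 1) ≤ dl N ^ 4 ∧
          Q.sq (y N * z N * star (y N) + z N) ≤ dl N ^ 4 := by
  choose m hm using fun N => exists_nat_gt (64 / dl N ^ 4)
  choose n i₀ Ef v hn heven hE hs hpos hv hfix _hc using fun N =>
    sys.exists_comparisonN ∅ Set.countable_empty (m N)
  choose r hr using hpos
  set S' : Set D := S ∪ ⋃ N, (Set.range (fun p : Fin (n N) × Fin (n N) => Ef N p.1 p.2) ∪
    ({v N} ∪ Set.range (r N))) with hS'
  have hS'c : S'.Countable := hS.union (Set.countable_iUnion fun N =>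
    (Set.countable_range _).union ((Set.countable_singleton _).union (Set.countable_range _)))
  have mE : ∀ N i j, Ef N i j ∈ gen sys.act S' := fun N i j =>
    subset_gen (Or.inr (Set.mem_iUnion.2 ⟨N, Or.inl ⟨(i, j), rfl⟩⟩))
  have mv : ∀ N, v N ∈ gen sys.act S' := fun N =>
    subset_gen (Or.inr (Set.mem_iUnion.2 ⟨N, Or.inr (Or.inl rfl)⟩))
  have mr : ∀ N i, r N i ∈ gen sys.act S' := fun N i =>
    subset_gen (Or.inr (Set.mem_iUnion.2 ⟨N, Or.inr (Or.inr ⟨i, rfl⟩)⟩))
  refine ⟨S', hS'c, Set.subset_union_left, ?_⟩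
  have key : ∀ N, ∃ z y : ↥(gen sys.act S'), IsSelfAdjoint z ∧ ‖z‖ ≤ 1 ∧ star y * y = 1 ∧
      y * star y = 1 ∧ ∀ Q : QT ↥(gen sys.act S'), Q.sq (z * z - 1) ≤ dl N ^ 4 ∧
        Q.sq (y * z * star y + z) ≤ dl N ^ 4 := by
    intro N
    set E' : Fin (n N) → Fin (n N) → ↥(gen sys.act S') := fun i j => ⟨Ef N i j, mE N i j⟩ with hE'
    have hsupp : ((supp E' : ↥(gen sys.act S')) : D) = supp (Ef N) := by
      simp [supp, hE', AddSubmonoidClass.coe_finsetSum]
    refine exists_letter (i₀ := i₀ N) (E := E') (v := ⟨v N, mv N⟩) (heven N) ⟨fun i j k l => ?_⟩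
      (fun i j => Subtype.ext (hs N i j)) (fun i => ⟨⟨r N i, mr N i⟩, Subtype.ext (hr N i)⟩)
      (Subtype.ext ?_) (Subtype.ext (hfix N)) (pow_pos (dl_pos N) 4) ?_
    · refine Subtype.ext ?_
      have h := (hE N).mul_eq i j k l
      split_ifs at h ⊢ with hjk
      · simpa [hsupp] using h
      · simpa using h
    · simpa [hsupp] using hv N
    · have h := (div_lt_iff₀ (pow_pos (dl_pos N) 4)).1 (hm N)
      have : (m N : ℝ) ≤ n N := Nat.cast_le.2 (hn N)
      nlinarith [pow_pos (dl_pos N) 4]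
  choose z y h using key
  exact ⟨z, y, h⟩

lemma symmDiff_le {G : Type v} [Group G] (P : Finset G) {c : ℝ} (g : G)
    (hg : (Set.ncard (((g * ·) '' (P : Set G)) \ (P : Set G)) : ℝ) ≤ c) :
    (Set.ncard (symmDiff (P : Set G) ((g * ·) '' (P : Set G))) : ℝ) ≤ 2 * c := by
  have hP : (P : Set G).Finite := P.finite_toSet
  have key : ((P : Set G) \ ((g * ·) '' (P : Set G))).ncard =
      (((g * ·) '' (P : Set G)) \ (P : Set G)).ncard := by
    have a := Set.ncard_inter_add_ncard_sdiff_eq_ncard ((g * ·) '' (P : Set G)) (P : Set G)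
      (hP.image _)
    have b := Set.ncard_inter_add_ncard_sdiff_eq_ncard (P : Set G) ((g * ·) '' (P : Set G)) hP
    rw [Set.inter_comm] at b
    have e : ((g * ·) '' (P : Set G)).ncard = (P : Set G).ncard :=
      Set.ncard_image_of_injective _ (mul_right_injective g)
    omega
  have h : ((symmDiff (P : Set G) ((g * ·) '' (P : Set G))).ncard : ℝ) ≤
      (((P : Set G) \ ((g * ·) '' (P : Set G))).ncard : ℝ) +
        (((g * ·) '' (P : Set G)) \ (P : Set G)).ncard := by
    rw [Set.symmDiff_def]; exact_mod_cast Set.ncard_union_le _ _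
  rw [key] at h
  linarith

end Fair

open Fair in
/-- Module Fair. -/
theorem fair_ok : IngredientStatement.{u, v} → LinearStatement.{u} → CoreStatement.{u, v} →
    FairStatement.{u, v} := by
  intro _ hL hC G _ _ hG D _ sys S E ε hε
  classical
  let := CStarAlgebra.spectralOrder D
  have := CStarAlgebra.spectralOrderedRing D
  set k : ℝ := max 1 (24 / ε) with hk
  have hk1 : 1 ≤ k := le_max_left _ _
  have hk2 : 24 / ε ≤ k := le_max_right _ _
  set εc : ℝ := ε / (8 * k ^ 2) with hεc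
  have hεc0 : 0 < εc := by positivity
  have hεc8 : εc ≤ ε / 8 := div_le_div_of_nonneg_left hε.le (by norm_num)
    (by nlinarith [one_le_pow₀ hk1 (n := 2)])
  have h8k : 8 / k ≤ ε / 3 := by
    rw [div_le_iff₀ hε] at hk2
    rw [div_le_div_iff₀ (by linarith) (by norm_num)]
    linarith
  obtain ⟨P, hPne, hPF⟩ := hG E εc hεc0
  set ιs : Finset G := P ∪ Finset.image₂ (· * ·) E P with hιs
  let j₀ : ↥P → ↥ιs := fun q => ⟨q, Finset.mem_union_left _ q.2⟩
  let jg : ↥E → ↥P → ↥ιs := fun g q =>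
    ⟨g * q, Finset.mem_union_right _ (Finset.mem_image₂_of_mem g.2 q.2)⟩
  have hj₀ : Function.Injective j₀ := fun q q' e =>
    Subtype.ext (Subtype.mk.inj e)
  have hjg : ∀ g, Function.Injective (jg g) := fun g q q' e =>
    Subtype.ext (mul_left_cancel (congrArg Subtype.val e))
  have : Nonempty ↥P := hPne.to_subtype
  obtain ⟨τ, hτ, hcore⟩ := hC ↥P εc k hεc0 hk1
  obtain ⟨η, hη, -, hητ⟩ := exists_shk_near hτ
  obtain ⟨L, m, p, hp⟩ := hcore η⁻¹
  obtain ⟨S', hS', hSS', z, y, hzy⟩ := exists_letters sys (S := (S : Set D)) S.countable_toSet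
  obtain ⟨cp, hceq, hccomm, -⟩ := sys.exists_copies S' hS'
  let idx : Fin L × Fin m → ∀ {N : ℕ}, Fin (2 ^ N) → ℕ := fun a _ r =>
    Nat.pair (Encodable.encode a) r
  let ga : G → ↥(gen sys.act S') →⋆ₐ[ℂ] ↥(gen sys.act S') := fun g => genAct sys.act_mul S' g
  let ξ : Fin L × Fin m → ∀ N : ℕ, G → Fin (2 ^ N) → D := fun a N g r =>
    cp.hom (idx a r) (ga g (z N))
  let Y : Fin L × Fin m → ∀ N : ℕ, G → Fin (2 ^ N) → D := fun a N g r =>
    cp.hom (idx a r) (ga g (y N))
  have hidx : ∀ (a b : Fin L × Fin m) {N : ℕ} (r s : Fin (2 ^ N)), a ≠ b ∨ r ≠ s →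
      idx a r ≠ idx b s := fun a b N r s h e => by
    obtain ⟨e1, e2⟩ := Nat.pair_eq_pair.1 e
    rcases h with h | h
    exacts [h (Encodable.encode_injective e1), h (Fin.ext e2)]
  let B : Fin L × Fin m → ∀ N : ℕ, Blk D ↥ιs (Fin (2 ^ N)) (dl N) := fun a N =>
    { ξ := fun g r => ξ a N g r
      Y := fun g r => Y a N g r
      sa := fun g r => ((hzy N).1.map (ga g)).map (cp.hom _)
      norm := fun g r => (NonUnitalStarAlgHom.norm_apply_le _ _).trans
        ((NonUnitalStarAlgHom.norm_apply_le _ _).trans (hzy N).2.1)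
      comm := fun g h r s hrs => ⟨cp.comm _ _ (hidx a a r s (Or.inr hrs)) _ _,
        cp.comm _ _ (hidx a a r s (Or.inr hrs)) _ _⟩
      unit := fun g r => by
        obtain ⟨-, -, h1, h2, -⟩ := hzy N
        simp only [Y, ← map_star, ← map_mul, h1, h2, map_one, and_self]
      sq_one := fun g r Q => by
        have h := ((hzy N).2.2.2.2 (Q.comp ((cp.hom (idx a r)).comp (ga g)))).1
        simp only [QT.comp_sq, StarAlgHom.comp_apply, map_sub, map_mul, map_one] at h
        exact h
      flip := fun g r Q => by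
        have h := ((hzy N).2.2.2.2 (Q.comp ((cp.hom (idx a r)).comp (ga g)))).2
        simp only [QT.comp_sq, StarAlgHom.comp_apply, map_add, map_mul, map_star] at h
        exact h }
  let V : ℕ → (↥P → G) → Var L m ↥P → D := fun N j =>
    Sum.elim (fun x => bsin η (cl Finset.univ (ξ x.1 N (j x.2))))
      fun x => kn Finset.univ (ξ x.1 N (j x.2.1)) (ξ x.1 N (j x.2.2))
  let X : ℕ → (↥P → G) → D := fun N j => (2 : ℂ)⁻¹ • (FreeAlgebra.lift ℂ (V N j) p +
    star (FreeAlgebra.lift ℂ (V N j) p))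
  let u : ℕ → (↥P → G) → D := fun N j => cfc (fun s => Real.tanh (k * s)) (X N j)
  have hXsa : ∀ N j, IsSelfAdjoint (X N j) := fun N j =>
    IsSelfAdjoint.smul (by simp [IsSelfAdjoint]) (IsSelfAdjoint.add_star_self _)
  have hu1 : ∀ N j, ‖u N j‖ ≤ 1 := fun N j => norm_cfc_le zero_le_one fun s _ => by
    rw [Real.norm_eq_abs]; exact (Core.tanh_facts _).2
  have hcommξ : ∀ a N g r, ∀ w ∈ gen sys.act S', Commute (ξ a N g r) w := fun a N g r w hw =>
    hccomm _ _ ⟨w, hw⟩
  have hVcomm : ∀ N j x, ∀ w ∈ gen sys.act S', Commute (V N j x) w := by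
    intro N j x w hw
    rcases x with ⟨a, q⟩ | ⟨a, q, q'⟩
    · exact ((Commute.sum_left _ _ _ fun r _ => hcommξ a N _ r w hw).smul_left _).cfc_real _
    · exact (Commute.sum_left _ _ _ fun r _ =>
        (hcommξ a N _ r w hw).mul_left (hcommξ a N _ r w hw)).smul_left _
  have hlcomm : ∀ N j q, ∀ w ∈ gen sys.act S', Commute (FreeAlgebra.lift ℂ (V N j) q) w := by
    intro N j q
    induction q using FreeAlgebra.induction with
    | grade0 r => intro w _; rw [AlgHom.commutes]; exact Algebra.commutes r w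
    | grade1 x => intro w hw; rw [FreeAlgebra.lift_ι_apply]; exact hVcomm N j x w hw
    | mul a b ha hb => intro w hw; rw [map_mul]; exact (ha w hw).mul_left (hb w hw)
    | add a b ha hb => intro w hw; rw [map_add]; exact (ha w hw).add_left (hb w hw)
  have hucomm : ∀ N j, ∀ w ∈ gen sys.act S', Commute (u N j) w := by
    intro N j w hw
    refine (((hlcomm N j p w hw).add_left ?_).smul_left _).cfc_real _
    have h := (hlcomm N j p (star w) (star_mem hw)).star_star
    rwa [star_star] at h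
  have hact : ∀ g N j, sys.act g (u N j) = u N fun q => g * j q := by
    intro g N j
    have hξ : ∀ a h r, sys.act g (ξ a N h r) = ξ a N (g * h) r := fun a h r => by
      simp only [ξ, ← hceq]
      congr 1
      exact (genAct_mul sys.act_mul g h _).symm
    have hl : sys.act g (FreeAlgebra.lift ℂ (V N j) p) =
        FreeAlgebra.lift ℂ (V N fun q => g * j q) p := by
      have e : ((sys.act g : D →⋆ₐ[ℂ] D).toAlgHom).comp (FreeAlgebra.lift ℂ (V N j)) =
          FreeAlgebra.lift ℂ (V N fun q => g * j q) := by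
        refine FreeAlgebra.hom_ext (funext fun x => ?_)
        simp only [Function.comp_apply, AlgHom.comp_apply, FreeAlgebra.lift_ι_apply]
        rcases x with ⟨a, q⟩ | ⟨a, q, q'⟩
        · show sys.act g (bsin η (cl Finset.univ (ξ a N (j q)))) = _
          have hsa : IsSelfAdjoint (cl Finset.univ (ξ a N (j q))) :=
            (IsSelfAdjoint.all _).smul (isSelfAdjoint_sum _ fun r _ =>
              ((hzy N).1.map (ga _)).map (cp.hom _))
          have hcl : sys.act g (cl Finset.univ (ξ a N (j q))) =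
              cl Finset.univ (ξ a N (g * j q)) := by
            simp only [cl, ← Complex.coe_smul, map_smul, map_sum, hξ]
          simp only [bsin]
          rw [StarAlgHomClass.map_cfc (R := ℝ) (S := ℂ) (sys.act g)
            (fun s : ℝ => Real.sin (η * s) / η) _ (by fun_prop) (continuous_act _) hsa
            (hsa.map (sys.act g)), hcl]
          rfl
        · show sys.act g (kn Finset.univ (ξ a N (j q)) (ξ a N (j q'))) =
            kn Finset.univ (ξ a N (g * j q)) (ξ a N (g * j q'))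
          simp only [kn, ← Complex.coe_smul, map_smul, map_sum, map_mul, hξ]
      exact DFunLike.congr_fun e p
    simp only [u]
    rw [StarAlgHomClass.map_cfc (R := ℝ) (S := ℂ) (sys.act g) (fun s => Real.tanh (k * s)) _
      (continuous_tanh_mul k).continuousOn (continuous_act _) (hXsa N j)
      ((hXsa N j).map (sys.act g))]
    congr 1
    simp only [X, map_smul, map_add, map_star, hl]
  let jP : ↥P → G := fun q => q
  suffices h : ∃ N, ∀ Q : QT D, Q.sq (u N jP * u N jP - 1) ≤ ε ∧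
      (∀ g ∈ E, Q.sq (sys.act g (u N jP) - u N jP) ≤ ε) ∧
      ∀ s ∈ S, IsSelfAdjoint s → ‖s‖ ≤ 1 → |Q.qs (s * u N jP)| ≤ ε by
    obtain ⟨N, hN⟩ := h
    refine ⟨u N jP, cfc_predicate _ _, hu1 N jP, fun g s hs => ?_, fun g s hs => ?_, hN⟩
    · exact hucomm N jP _ (act_mem_gen sys.act_mul g (subset_gen (hSS' hs)))
    · have h := (hucomm N jP _ (act_mem_gen sys.act_mul g⁻¹ (subset_gen (hSS' hs)))).map (sys.act g)
      rwa [← sys.act_mul, mul_inv_cancel, sys.act_one'] at h
  by_contra hcon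
  have hbad : ∀ N, ∃ Q : QT D, (∃ g ∈ E, ε < Q.sq (sys.act g (u N jP) - u N jP)) ∨
      (ε < Q.sq (u N jP * u N jP - 1) ∨
        ∃ s ∈ S, IsSelfAdjoint s ∧ ‖s‖ ≤ 1 ∧ ε < |Q.qs (s * u N jP)|) := by
    by_contra h
    push Not at h
    obtain ⟨N, hN⟩ := h
    exact hcon ⟨N, fun Q => ⟨(hN Q).2.1, (hN Q).1, (hN Q).2.2⟩⟩
  choose Q hQ using hbad
  set U : Ultrafilter ℕ := Ultrafilter.of atTop with hUdef
  have hU : (U : Filter ℕ) ≤ atTop := Ultrafilter.of_le atTop
  obtain ⟨R, hR⟩ := hL.2.1 D U Q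
  have key : ∀ s : D, IsSelfAdjoint s → ‖s‖ ≤ 1 →
      (∀ (w : ↥(gen sys.act S')) i, Commute (cp.hom i w) s) →
      (¬ ∀ᶠ N in (U : Filter ℕ), ε < |(Q N).qs (s * u N jP)|) ∧
      (¬ ∀ᶠ N in (U : Filter ℕ), ε < (Q N).sq (u N jP * u N jP - 1)) ∧
      ∀ g : ↥E, ¬ ∀ᶠ N in (U : Filter ℕ), ε < (Q N).sq (sys.act g (u N jP) - u N jP) := by
    intro s hs hs1 hsc
    let c : Ctx D ↥ιs (Fin L × Fin m) :=
      { hL := hL
        B := B
        cross := fun a b hab N g h r t => ⟨cp.comm _ _ (hidx a b r t (Or.inl hab)) _ _,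
          cp.comm _ _ (hidx a b r t (Or.inl hab)) _ _⟩
        s := s
        s_sa := hs
        s_comm := fun a N g r => ⟨hsc _ _, hsc _ _⟩
        U := U
        hU := hU
        Q := Q
        R := R
        hR := hR }
    have est : ∀ j₂ : ↥P → ↥ιs, Function.Injective j₂ → _ := fun j₂ hj₂ =>
      c.estimates hη hτ.le hητ hεc0.le j₀ j₂ p
        (Δ := (Set.ncard (symmDiff (Set.range j₀) (Set.range j₂)) : ℝ) / Fintype.card ↥P + εc)
        (k := k) fun M _ d =>
          ⟨(hp M ↥ιs d j₀ j₂ hj₀ hj₂).2.2.1, fun F hF => ((hp M ↥ιs d j₀ j₂ hj₀ hj₂).2.2.2.1 F hF).2,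
            (hp M ↥ιs d j₀ j₂ hj₀ hj₂).2.2.2.2⟩
    obtain ⟨e1, -, e3⟩ := est j₀ hj₀
    have hat : ∀ (j : ↥P → ↥ιs) N,
        ((c.um η k j p : ↥c.M0) : ℕ →ᵇ D) N = u N fun q => j q := fun j N =>
      c.coe_um_apply η k j p N
    refine ⟨fun hev => ?_, fun hev => ?_, fun g hev => ?_⟩
    · have hsa : IsSelfAdjoint (((c.Sm * c.um η k j₀ p : ↥c.M0)) : ℕ →ᵇ D) :=
        congrArg Subtype.val ((IsSelfAdjoint.commute_iff (Subtype.ext c.sS_sa.star_eq)
          (c.um_sa η k j₀ p)).1 (c.commute_sS_um η k j₀ p)).star_eq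
      have hge : ε ≤ |c.R.qs (((c.Sm * c.um η k j₀ p : ↥c.M0)) : ℕ →ᵇ D)| := by
        refine ge_of_tendsto ((c.tendsto_qs _ hsa).abs) (hev.mono fun N hN => ?_)
        show ε ≤ |(Q N).qs (s * ((c.um η k j₀ p : ↥c.M0) : ℕ →ᵇ D) N)|
        rw [hat]; exact hN.le
      have : εc * ‖s‖ ≤ εc := mul_le_of_le_one_right hεc0.le hs1
      linarith
    · have hge : ε ≤ c.R.sq (((c.um η k j₀ p * c.um η k j₀ p - 1 : ↥c.M0)) : ℕ →ᵇ D) := by
        refine ge_of_tendsto (c.hR _) (hev.mono fun N hN => ?_)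
        show ε ≤ (Q N).sq (((c.um η k j₀ p : ↥c.M0) : ℕ →ᵇ D) N *
          ((c.um η k j₀ p : ↥c.M0) : ℕ →ᵇ D) N - 1)
        rw [hat]; exact hN.le
      linarith
    · obtain ⟨-, e2, -⟩ := est (jg g) (hjg g)
      have hge : ε ≤ c.R.sq (((c.um η k (jg g) p - c.um η k j₀ p : ↥c.M0)) : ℕ →ᵇ D) := by
        refine ge_of_tendsto (c.hR _) (hev.mono fun N hN => ?_)
        show ε ≤ (Q N).sq (((c.um η k (jg g) p : ↥c.M0) : ℕ →ᵇ D) N -
          ((c.um η k j₀ p : ↥c.M0) : ℕ →ᵇ D) N)
        rw [hat, hat]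
        rw [hact] at hN
        exact hN.le
      have hsd : (Set.ncard (symmDiff (Set.range j₀) (Set.range (jg g))) : ℝ) ≤
          2 * (εc * P.card) := by
        have e : Subtype.val '' Set.range j₀ = (P : Set G) := by
          rw [← Set.range_comp]; exact Subtype.range_coe
        have e' : Subtype.val '' Set.range (jg g) = ((g : G) * ·) '' (P : Set G) := by
          rw [← Set.range_comp]
          ext x
          simp only [jg, Function.comp_def, Set.mem_range, Set.mem_image, Finset.mem_coe]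
          exact ⟨fun ⟨q, e⟩ => ⟨q, q.2, e⟩, fun ⟨q, hq, e⟩ => ⟨⟨q, hq⟩, e⟩⟩
        rw [← Set.ncard_image_of_injective _ Subtype.val_injective,
          Set.image_symmDiff Subtype.val_injective, e, e']
        exact symmDiff_le P (g : G) (hPF g g.2)
      have hPc : (0 : ℝ) < P.card := Nat.cast_pos.2 hPne.card_pos
      have hd : (Set.ncard (symmDiff (Set.range j₀) (Set.range (jg g))) : ℝ) /
          Fintype.card ↥P ≤ 2 * εc := by
        rw [Fintype.card_coe, div_le_iff₀ hPc]
        linarith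
      have h3 : k ^ 2 * (3 * εc) = 3 * ε / 8 := by
        rw [hεc]; field_simp
      have := mul_le_mul_of_nonneg_left (add_le_add_right hd εc) (sq_nonneg k)
      nlinarith
  have h0 := key 0 (IsSelfAdjoint.zero D) (by simp) fun _ _ => Commute.zero_right _
  rcases Ultrafilter.eventually_or.1 (Eventually.of_forall hQ) with h | h
  · obtain ⟨g, hg, h⟩ := (Ultrafilter.eventually_exists_mem_iff E.finite_toSet).1
      (h.mono fun N ⟨g, hg, h⟩ => ⟨g, Finset.mem_coe.2 hg, h⟩)
    exact h0.2.2 ⟨g, hg⟩ h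
  rcases Ultrafilter.eventually_or.1 h with h | h
  · exact h0.2.1 h
  obtain ⟨s, hs, h⟩ := (Ultrafilter.eventually_exists_mem_iff S.finite_toSet).1
    (h.mono fun N ⟨s, hs, h⟩ => ⟨s, Finset.mem_coe.2 hs, h⟩)
  obtain ⟨N, hN⟩ := h.exists
  exact (key s hN.1 hN.2.1 fun w i => hccomm i w ⟨s, subset_gen (hSS' hs)⟩).1
    (h.mono fun _ hN => hN.2.2)

end Vale.Agent.P095.General
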