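import Vale.Agent.P095.General.Central
import Vale.Agent.P101.Bridge.Main

/-!
Invariant relations in the central sequence algebra of a separable C*-algebra give an invariant
unital *-homomorphism from the dimension drop algebra, and such a homomorphism excludes characters.
-/

noncomputable section

open Filter Topology
open scoped BoundedContinuousFunction

namespace Vale.Agent.P095.General

open Vale.Agent.P101

universe u v

variable {A : Type u} [NonUnitalCStarAlgebra A]

/-- A unital *-homomorphism from the dimension drop algebra into the central sequence algebra of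
an algebra which need not be unital, on representatives: linear, multiplicative and star preserving
up to annihilating sequences, with the image of the unit a unit on the algebra along ω. -/
structure CentralHomA (ω : Ultrafilter ℕ) (A : Type u) [NonUnitalCStarAlgebra A] where
  val : MatFun → (ℕ →ᵇ A)
  central : ∀ g, InDimDrop g → IsCentralA ω (val g)
  map_one : ∀ b : A, Tendsto (fun n => ‖val 1 n * b - b‖ + ‖b * val 1 n - b‖)
    (ω : Filter ℕ) (𝓝 0)
  map_add : ∀ g g', InDimDrop g → InDimDrop g' → IsAnnA ω (val (g + g') - (val g + val g'))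
  map_mul : ∀ g g', InDimDrop g → InDimDrop g' → IsAnnA ω (val (g * g') - val g * val g')
  map_smul : ∀ (z : ℂ) g, InDimDrop g → IsAnnA ω (val (z • g) - z • val g)
  map_star : ∀ g, InDimDrop g → IsAnnA ω (val (star g) - star (val g))

variable (ω : Ultrafilter ℕ)

lemma central_add {a b : ℕ →ᵇ A} (ha : IsCentralA ω a) (hb : IsCentralA ω b) :
    IsCentralA ω (a + b) := isCentralA_of_inrSeq ω (by
  rw [show inrSeq (a + b) = inrSeq a + inrSeq b from
    BoundedContinuousFunction.ext fun n => Unitization.inr_add ℂ (a n) (b n)]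
  exact (centralI ω (unitIdl A)).add_mem' (isCentralI_inrSeq ω ha) (isCentralI_inrSeq ω hb))

lemma central_mul {a b : ℕ →ᵇ A} (ha : IsCentralA ω a) (hb : IsCentralA ω b) :
    IsCentralA ω (a * b) := isCentralA_of_inrSeq ω (by
  rw [show inrSeq (a * b) = inrSeq a * inrSeq b from
    BoundedContinuousFunction.ext fun n => Unitization.inr_mul ℂ (a n) (b n)]
  exact (centralI ω (unitIdl A)).mul_mem' (isCentralI_inrSeq ω ha) (isCentralI_inrSeq ω hb))

lemma central_smul (z : ℂ) {a : ℕ →ᵇ A} (ha : IsCentralA ω a) : IsCentralA ω (z • a) :=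
  isCentralA_of_inrSeq ω (by
    rw [show inrSeq (z • a) = z • inrSeq a from
      BoundedContinuousFunction.ext fun n => Unitization.inr_smul ℂ z (a n)]
    exact Subalgebra.smul_mem (centralI ω (unitIdl A)).toSubalgebra (isCentralI_inrSeq ω ha) z)

lemma central_star {a : ℕ →ᵇ A} (ha : IsCentralA ω a) : IsCentralA ω (star a) :=
  isCentralA_of_inrSeq ω (by
    rw [show inrSeq (star a) = star (inrSeq a) from
      BoundedContinuousFunction.ext fun n => Unitization.inr_star (a n)]
    exact (centralI ω (unitIdl A)).star_mem' (isCentralI_inrSeq ω ha))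

lemma central_sub {a b : ℕ →ᵇ A} (ha : IsCentralA ω a) (hb : IsCentralA ω b) :
    IsCentralA ω (a - b) := by
  have := central_add ω ha (central_smul ω (-1) hb)
  rwa [show a + (-1 : ℂ) • b = a - b by
    rw [neg_one_smul, sub_eq_add_neg]] at this

lemma cls_add {a b : ℕ →ᵇ A} (ha : IsCentralA ω a) (hb : IsCentralA ω b) :
    cls ω (a + b) (central_add ω ha hb) = cls ω a ha + cls ω b hb := by
  simp only [cls]
  rw [← map_add]
  exact congrArg _ (Subtype.ext (BoundedContinuousFunction.ext fun n =>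
    Unitization.inr_add ℂ (a n) (b n)))

lemma cls_mul {a b : ℕ →ᵇ A} (ha : IsCentralA ω a) (hb : IsCentralA ω b) :
    cls ω (a * b) (central_mul ω ha hb) = cls ω a ha * cls ω b hb := by
  simp only [cls]
  rw [← map_mul]
  exact congrArg _ (Subtype.ext (BoundedContinuousFunction.ext fun n =>
    Unitization.inr_mul ℂ (a n) (b n)))

lemma cls_smul (z : ℂ) {a : ℕ →ᵇ A} (ha : IsCentralA ω a) :
    cls ω (z • a) (central_smul ω z ha) = z • cls ω a ha := by
  simp only [cls]
  rw [← map_smul]
  exact congrArg _ (Subtype.ext (BoundedContinuousFunction.ext fun n =>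
    Unitization.inr_smul ℂ z (a n)))

lemma cls_star {a : ℕ →ᵇ A} (ha : IsCentralA ω a) :
    cls ω (star a) (central_star ω ha) = star (cls ω a ha) := by
  simp only [cls]
  rw [← map_star]
  exact congrArg _ (Subtype.ext (BoundedContinuousFunction.ext fun n =>
    Unitization.inr_star (a n)))

lemma cls_sub {a b : ℕ →ᵇ A} (ha : IsCentralA ω a) (hb : IsCentralA ω b) :
    cls ω (a - b) (central_sub ω ha hb) = cls ω a ha - cls ω b hb := by
  simp only [cls]
  rw [← map_sub]
  exact congrArg _ (Subtype.ext (BoundedContinuousFunction.ext fun n =>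
    Unitization.inr_sub ℂ (a n) (b n)))

lemma cls_eq_iff {a b : ℕ →ᵇ A} (ha : IsCentralA ω a) (hb : IsCentralA ω b) :
    cls ω a ha = cls ω b hb ↔ IsAnnA ω (a - b) := by
  rw [← cls_eq_zero_iff ω (central_sub ω ha hb), cls_sub ω ha hb, sub_eq_zero]

lemma cls_eq_one_iff {u : ℕ →ᵇ A} (hu : IsCentralA ω u) :
    cls ω u hu = 1 ↔
      ∀ b : A, Tendsto (fun n => ‖u n * b - b‖) (ω : Filter ℕ) (𝓝 0) := by
  rw [cls, ← map_one (projI ω (unitIdl A)), projI_eq_iff]
  constructor
  · intro h b
    refine (h _ (inr_mem b)).congr fun n => ?_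
    show ‖((u n : Unitization ℂ A) - 1) * (b : Unitization ℂ A)‖ = _
    rw [sub_mul, one_mul, ← Unitization.inr_mul, ← Unitization.inr_sub, Unitization.norm_inr]
  · intro h y hy
    obtain ⟨b, rfl⟩ := mem_unitIdl.1 hy
    refine (h b).congr fun n => ?_
    show _ = ‖((u n : Unitization ℂ A) - 1) * (b : Unitization ℂ A)‖
    rw [sub_mul, one_mul, ← Unitization.inr_mul, ← Unitization.inr_sub, Unitization.norm_inr]

/-- Invariant relations give an invariant unital homomorphism on representatives. -/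
theorem invariantHomA_of_inv {G : Type v} [Group G] [TopologicalSpace.SeparableSpace A]
    {α : G → A ≃⋆ₐ[ℂ] A} (hα : ∀ g h x, α (g * h) x = α g (α h x))
    (hω : (ω : Filter ℕ) ≤ cofinite) (h : InvComparisonA ω α) :
    ∃ H : CentralHomA ω A, ∀ g, InDimDrop g → ∀ k, ∀ b : A,
      Tendsto (fun n => ‖(α k (H.val g n) - H.val g n) * b‖ + ‖b * (α k (H.val g n) - H.val g n)‖)
        (ω : Filter ℕ) (𝓝 0) := by
  classical
  let β : G → Unitization ℂ A ≃⋆ₐ[ℂ] Unitization ℂ A := fun g => liftAut (α g)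
  have hP : ∀ g, Pres (unitIdl A) (β g) := fun g => pres_liftAut (α g)
  have hβ : ∀ g h x, β (g * h) x = β g (β h x) := liftAut_mul α hα
  let act : G → FA ω A ≃⋆ₐ[ℂ] FA ω A := actI ω (unitIdl A) β hP hβ
  have : IsClosed (Finite.fixedAlg act : Set (FA ω A)) := Finite.isClosed_fixed act
  obtain ⟨ee, hee⟩ := exists_unit_seq (A := A)
  have hat := tendsto_atTop_omega hω
  have hu : ∀ b : A, Tendsto (fun n => ‖ee n * b - b‖) (ω : Filter ℕ) (𝓝 0) ∧
      Tendsto (fun n => ‖b * ee n - b‖) (ω : Filter ℕ) (𝓝 0) := fun b =>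
    ⟨(hee b).1.mono_left hat, (hee b).2.mono_left hat⟩
  obtain ⟨c, e, f, v, r, s, hc, h1, h2, h3, h4, h5, h6, h7, hi⟩ := h
  simp only [List.mem_cons, List.not_mem_nil, or_false, forall_eq_or_imp, forall_eq] at hc hi
  obtain ⟨cc, ce, cf, cv, cr, cs⟩ := hc
  obtain ⟨ic, ie, if', iv, ir, is'⟩ := hi
  have fix : ∀ (x : ℕ →ᵇ A) (hx : IsCentralA ω x),
      (∀ g, ∀ b : A, Tendsto (fun n => ‖(α g (x n) - x n) * b‖ + ‖b * (α g (x n) - x n)‖)
        (ω : Filter ℕ) (𝓝 0)) →
      cls ω x hx ∈ Finite.fixedAlg act := fun x hx hxi g => by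
    show actI ω (unitIdl A) β hP hβ g (cls ω x hx) = cls ω x hx
    rw [cls, actI_proj, projI_eq_iff]
    intro y hy
    obtain ⟨b, rfl⟩ := mem_unitIdl.1 hy
    refine squeeze_zero (fun n => norm_nonneg _) (fun n => ?_) (hxi g b)
    show ‖(liftAut (α g) (x n : Unitization ℂ A) - (x n : Unitization ℂ A)) *
      (b : Unitization ℂ A)‖ ≤ _
    rw [liftAut_inr, ← Unitization.inr_sub, ← Unitization.inr_mul, Unitization.norm_inr]
    exact le_add_of_nonneg_right (norm_nonneg _)
  have hcomp : Comparison (Finite.fixedAlg act) := by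
    refine ⟨⟨_, fix c cc ic⟩, ⟨_, fix e ce ie⟩, ⟨_, fix f cf if'⟩, ⟨_, fix v cv iv⟩,
      ⟨_, fix r cr ir⟩, ⟨_, fix s cs is'⟩, ?_⟩
    simp only [← Subtype.coe_inj, MulMemClass.coe_mul, StarMemClass.coe_star,
      AddSubgroupClass.coe_sub, OneMemClass.coe_one, ZeroMemClass.coe_zero]
    refine ⟨?_, ?_, ?_, ?_, ?_, ?_, ?_⟩
    · rw [← cls_star ω cr, ← cls_mul, cls_eq_iff]; exact h1
    · rw [← cls_star ω cs, ← cls_mul, cls_eq_iff]; exact h2
    · rw [← cls_mul ω cc cc, cls_eq_zero_iff]; exact h3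
    · rw [← cls_star ω cc, ← cls_mul, ← cls_mul, cls_eq_iff]; exact h4
    · rw [← cls_star ω cc, ← cls_mul, ← cls_mul, cls_eq_iff]; exact h5
    · rw [eq_sub_iff_add_eq, eq_sub_iff_add_eq, add_right_comm, ← cls_star ω cv, ← cls_mul,
        ← cls_add, ← cls_add, cls_eq_one_iff]
      intro b
      exact (h6 b).congr fun n => by simp
    · rw [← cls_mul, cls_eq_iff]; exact h7
  obtain ⟨ψ⟩ := exists_dimDropHom hcomp
  let p : DimDrop → FA ω A := fun g => (ψ g : FA ω A)
  choose ρ hρc hρ using fun z : FA ω A => exists_repA ω hu z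
  let val : MatFun → (ℕ →ᵇ A) := fun g => if h : InDimDrop g then ρ (p ⟨g, h⟩) else 0
  have hval : ∀ g : DimDrop, val g = ρ (p g) := fun g => dif_pos g.2
  have key : ∀ (x : ℕ →ᵇ A) (hx : IsCentralA ω x) (g : DimDrop), cls ω x hx = p g →
      IsAnnA ω (val g - x) := fun x hx g h => by
    rw [hval]
    exact (cls_eq_iff ω (hρc _) hx).1 ((hρ _).trans h.symm)
  refine ⟨⟨val, fun g hg => ?_, fun b => ?_, fun g g' hg hg' => ?_, fun g g' hg hg' => ?_,
    fun z g hg => ?_, fun g hg => ?_⟩, fun g hg k b => ?_⟩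
  · rw [hval ⟨g, hg⟩]
    exact hρc _
  · have e1 : cls ω (ρ (p 1)) (hρc _) = 1 := (hρ _).trans (by simp [p])
    have hr := (cls_eq_one_iff ω (hρc (p 1))).1 e1
    have hv1 : val 1 = ρ (p 1) := hval 1
    rw [hv1]
    refine squeeze_zero (g := fun n => ‖ρ (p 1) n * b - b‖ +
      (‖ρ (p 1) n * b - b‖ + ‖ρ (p 1) n * b - b * ρ (p 1) n‖)) (fun n => by positivity)
      (fun n => add_le_add le_rfl ?_) (by simpa using (hr b).add ((hr b).add (hρc (p 1) b)))
    calc ‖b * ρ (p 1) n - b‖
        = ‖(ρ (p 1) n * b - b) - (ρ (p 1) n * b - b * ρ (p 1) n)‖ := by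
          rw [sub_sub_sub_cancel_left]
      _ ≤ _ := norm_sub_le _ _
  · have := key _ (central_add ω (hρc (p ⟨g, hg⟩)) (hρc (p ⟨g', hg'⟩))) (⟨g, hg⟩ + ⟨g', hg'⟩)
      (by rw [cls_add ω (hρc _) (hρc _), hρ, hρ]; simp [p])
    simpa [← hval] using this
  · have := key _ (central_mul ω (hρc (p ⟨g, hg⟩)) (hρc (p ⟨g', hg'⟩))) (⟨g, hg⟩ * ⟨g', hg'⟩)
      (by rw [cls_mul ω (hρc _) (hρc _), hρ, hρ]; simp [p])
    simpa [← hval] using this
  · have := key _ (central_smul ω z (hρc (p ⟨g, hg⟩))) (z • ⟨g, hg⟩)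
      (by rw [cls_smul ω z (hρc _), hρ]; simp [p])
    simpa [← hval] using this
  · have := key _ (central_star ω (hρc (p ⟨g, hg⟩))) (star ⟨g, hg⟩)
      (by rw [cls_star ω (hρc _), hρ]; simp [p, map_star])
    simpa [← hval] using this
  · show Tendsto (fun n => ‖(α k (val g n) - val g n) * b‖ + ‖b * (α k (val g n) - val g n)‖) _ _
    rw [hval ⟨g, hg⟩]
    refine tendsto_of_fixed ω (α k) (hρc _) ?_ b
    rw [← actI_proj ω (unitIdl A) β hP hβ k]
    show act k (cls ω _ (hρc _)) = cls ω _ (hρc _)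
    rw [hρ]
    exact (ψ ⟨g, hg⟩).2 k

lemma charA_congr (χ : CentralCharA ω A) {a b : ℕ →ᵇ A} (ha : IsCentralA ω a)
    (hb : IsCentralA ω b) (h : IsAnnA ω (a - b)) : χ.val a = χ.val b := by
  have := χ.map_add b (a - b) hb (central_sub ω ha hb)
  rwa [χ.map_ann _ (central_sub ω ha hb) h, add_zero, add_sub_cancel] at this

lemma charA_unit (H : CentralHomA ω A) (χ : CentralCharA ω A) : χ.val (H.val 1) = 1 := by
  obtain ⟨a, ha, hne⟩ := χ.ne_zero
  have h1c : IsCentralA ω (H.val 1) := H.central 1 (1 : DimDrop).2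
  have hann : IsAnnA ω (H.val 1 * a - a) :=
    isAnnA_of_right ω (central_sub ω (central_mul ω h1c ha) ha) fun b => by
      refine squeeze_zero (g := fun n => (‖H.val 1‖ + 1) * ‖a n * b - b * a n‖ +
        ‖H.val 1 n * b - b‖ * ‖a‖) (fun n => norm_nonneg _) (fun n => ?_) ?_
      · have e : (H.val 1 * a - a) n * b = H.val 1 n * (a n * b - b * a n)
            - (a n * b - b * a n) + (H.val 1 n * b - b) * a n := by
          simp only [BoundedContinuousFunction.coe_sub, BoundedContinuousFunction.coe_mul,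
            Pi.sub_apply, Pi.mul_apply]
          noncomm_ring
        rw [e, add_mul, one_mul]
        refine (norm_add_le _ _).trans (add_le_add ((norm_sub_le _ _).trans (add_le_add
          ((norm_mul_le _ _).trans (mul_le_mul_of_nonneg_right
            ((H.val 1).norm_coe_le_norm n) (norm_nonneg _))) le_rfl))
          ((norm_mul_le _ _).trans (mul_le_mul_of_nonneg_left (a.norm_coe_le_norm n)
            (norm_nonneg _))))
      · have h0 : Tendsto (fun n => ‖H.val 1 n * b - b‖) (ω : Filter ℕ) (𝓝 0) :=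
          squeeze_zero (fun n => norm_nonneg _)
            (fun n => le_add_of_nonneg_right (norm_nonneg _)) (H.map_one b)
        simpa using ((ha b).const_mul (‖H.val 1‖ + 1)).add (h0.mul_const ‖a‖)
  have := charA_congr ω χ (central_mul ω h1c ha) ha hann
  rw [χ.map_mul _ _ h1c ha] at this
  exact mul_eq_right₀ hne |>.1 this

lemma charA_add (H : CentralHomA ω A) (χ : CentralCharA ω A) (g g' : DimDrop) :
    χ.val (H.val ((g + g' : DimDrop) : MatFun)) = χ.val (H.val g) + χ.val (H.val g') := by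
  rw [← χ.map_add _ _ (H.central _ g.2) (H.central _ g'.2)]
  exact charA_congr ω χ (H.central _ (g + g').2)
    (central_add ω (H.central _ g.2) (H.central _ g'.2)) (H.map_add g g' g.2 g'.2)

lemma charA_mul (H : CentralHomA ω A) (χ : CentralCharA ω A) (g g' : DimDrop) :
    χ.val (H.val ((g * g' : DimDrop) : MatFun)) = χ.val (H.val g) * χ.val (H.val g') := by
  rw [← χ.map_mul _ _ (H.central _ g.2) (H.central _ g'.2)]
  exact charA_congr ω χ (H.central _ (g * g').2)
    (central_mul ω (H.central _ g.2) (H.central _ g'.2)) (H.map_mul g g' g.2 g'.2)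

lemma charA_star (H : CentralHomA ω A) (χ : CentralCharA ω A) (g : DimDrop) :
    χ.val (H.val (star (g : MatFun))) = starRingEnd ℂ (χ.val (H.val g)) :=
  (charA_congr ω χ (H.central _ (InDimDrop.star g.2)) (central_star ω (H.central _ g.2))
    (H.map_star g g.2)).trans (χ.map_star _ (H.central _ g.2))

lemma charA_scalar (H : CentralHomA ω A) (χ : CentralCharA ω A) (z : ℂ) :
    χ.val (H.val (algebraMap ℂ MatFun z)) = z := by
  have h1 : InDimDrop (1 : MatFun) := (1 : DimDrop).2
  have hz : InDimDrop (algebraMap ℂ MatFun z) := inDimDrop_algebraMap z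
  rw [Algebra.algebraMap_eq_smul_one] at hz ⊢
  rw [charA_congr ω χ (H.central _ hz) (central_smul ω z (H.central _ h1)) (H.map_smul z _ h1),
    χ.map_smul z _ (H.central _ h1), charA_unit ω H χ, mul_one]

/-- A unital homomorphism from the dimension drop algebra excludes characters. -/
theorem isEmpty_of_homA (H : CentralHomA ω A) : IsEmpty (CentralCharA ω A) := by
  refine ⟨fun χ => ?_⟩
  have hadd := charA_add ω H χ
  let φ : DimDrop →⋆ₐ[ℂ] ℂ :=
    { toFun := fun g => χ.val (H.val g)
      map_one' := charA_unit ω H χ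
      map_mul' := charA_mul ω H χ
      map_zero' := by simpa using hadd 0 0
      map_add' := hadd
      commutes' := charA_scalar ω H χ
      map_star' := fun g => charA_star ω H χ g }
  exact dimDrop_no_character.false φ

end Vale.Agent.P095.General
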