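import Vale.Agent.P095.General.Basic

/-!
Module Ingredient: almost symmetries with flips from order zero matrix families of large even size.
-/

noncomputable section

open Filter Topology

namespace Vale.Agent.P095.General

open Vale.Agent.P101
open Vale.Agent.P101.CombineN (IsOrderZero supp)

universe u v

namespace QT

variable {D : Type u} [CStarAlgebra D] (Q : QT D)

lemma sq_nn (x : D) : 0 ≤ Q.sq x := Q.nonneg x

lemma sq_smul (r : ℝ) (x : D) : Q.sq (r • x) = r ^ 2 * Q.sq x := by
  have h : star (r • x) * (r • x) = r ^ 2 • (star x * x) := by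
    rw [star_smul, star_trivial, smul_mul_smul_comm, pow_two]
  rw [sq, h, Q.smul _ _ (pow_two_nonneg r)]
  rfl

lemma sq_zero : Q.sq 0 = 0 := by simpa using Q.sq_smul 0 (0 : D)

lemma sq_one : Q.sq 1 = 1 := by rw [sq, star_one, mul_one]; exact Q.one

lemma sq_adj (x : D) : Q.sq (star x) = Q.sq x := by
  rw [sq, sq, star_star]; exact (Q.swap x).symm

/-- Left multiplication by a bounded element. -/
lemma sq_mul_left_le {a : D} {r : ℝ} (ha : ‖a‖ ≤ r) (x : D) :
    Q.sq (a * x) ≤ r ^ 2 * Q.sq x := by
  let := CStarAlgebra.spectralOrder D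
  have := CStarAlgebra.spectralOrderedRing D
  have hle : star a * a ≤ algebraMap ℝ D (r ^ 2) :=
    (CStarAlgebra.star_mul_le_algebraMap_norm_sq (a := a)).trans
      (algebraMap_mono D (pow_le_pow_left₀ (norm_nonneg a) ha 2))
  have h0 : 0 ≤ algebraMap ℝ D (r ^ 2) - star a * a := sub_nonneg.2 hle
  obtain ⟨b, hb⟩ := CStarAlgebra.nonneg_iff_eq_star_mul_self.1 h0
  have h := Q.mono (a * x) (b * x)
  have he : star (a * x) * (a * x) + star (b * x) * (b * x) = r ^ 2 • (star x * x) := by
    rw [star_mul, star_mul, mul_assoc, mul_assoc, ← mul_add, ← mul_assoc (star a),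
      ← mul_assoc (star b), ← add_mul, ← hb, add_sub_cancel, Algebra.algebraMap_eq_smul_one,
      smul_mul_assoc, one_mul, mul_smul_comm]
  rw [he, Q.smul _ _ (pow_two_nonneg r)] at h
  exact h

lemma sq_le {x : D} {r : ℝ} (hx : ‖x‖ ≤ r) : Q.sq x ≤ r ^ 2 := by
  simpa [Q.sq_one] using Q.sq_mul_left_le hx 1

/-- Orthogonal ranges add. -/
lemma sq_orth {x y : D} (h : star x * y = 0) (h' : star x * x * (star y * y) = 0) :
    Q.sq (x + y) = Q.sq x + Q.sq y := by
  have h2 : star y * x = 0 := by simpa using congrArg star h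
  have e : star (x + y) * (x + y) = star x * x + star y * y := by
    rw [star_add, add_mul, mul_add, mul_add, h, h2, add_zero, zero_add]
  rw [sq, e]
  exact Q.orth x y h'

end QT

section Family

variable {D : Type u} [CStarAlgebra D] {n : ℕ} {E : Fin n → Fin n → D}

/-- The partner of an index. -/
def partner (i : Fin n) : Fin n :=
  ⟨if i.1 % 2 = 0 ∧ i.1 + 1 < n then i.1 + 1 else if i.1 % 2 = 1 then i.1 - 1 else i.1, by
    have := i.2
    split_ifs <;> omega⟩

/-- The sign of an index. -/
def sign (i : Fin n) : ℝ := if i.1 % 2 = 0 then 1 else -1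

lemma partner_partner (hn : Even n) (i : Fin n) : partner (partner i) = i := by
  obtain ⟨k, hk⟩ := hn
  have := i.2
  ext
  simp only [partner]
  split_ifs <;> omega

lemma sign_partner (hn : Even n) (i : Fin n) : sign (partner i) = -sign i := by
  obtain ⟨k, hk⟩ := hn
  have := i.2
  simp only [sign, partner]
  split_ifs <;> first | omega | norm_num

lemma sign_sq (i : Fin n) : sign i * sign i = 1 := by unfold sign; split_ifs <;> norm_num

variable (hE : IsOrderZero E) (hs : ∀ i j, star (E i j) = E j i)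

include hE

lemma mul_ne {i j k l : Fin n} (h : j ≠ k) : E i j * E k l = 0 := by
  rw [hE.mul_eq, if_neg h]

lemma mul_same (i j l : Fin n) : E i j * E j l = supp E * E i l := by
  rw [hE.mul_eq, if_pos rfl]

lemma commute_H (i j : Fin n) : Commute (supp E) (E i j) := hE.commute_supp i j

lemma sum_perm_mul (p p' : Fin n → Fin n) (a b : Fin n → ℝ) :
    (∑ i, a i • E i (p i)) * (∑ i, b i • E i (p' i)) =
      supp E * ∑ i, (a i * b (p i)) • E i (p' (p i)) := by
  rw [Finset.sum_mul, Finset.mul_sum]
  refine Finset.sum_congr rfl fun i _ => ?_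
  rw [Finset.mul_sum, Finset.sum_eq_single (p i)]
  · rw [smul_mul_smul_comm, mul_same hE, mul_smul_comm]
  · intro j _ hj
    rw [smul_mul_smul_comm, mul_ne hE (Ne.symm hj), smul_zero]
  · simp

include hs

lemma sq_diag (Q : QT D) (i j : Fin n) : Q.sq (E i i) = Q.sq (E j j) := by
  have e1 : star (E i j) * E i j = star (E j j) * E j j := by
    rw [hs, hs, mul_same hE, mul_same hE]
  have e2 : E i j * star (E i j) = star (E i i) * E i i := by
    rw [hs, hs, mul_same hE, mul_same hE]
  have h := Q.swap (E i j)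
  rw [e1, e2] at h
  exact h.symm

lemma sq_supp (Q : QT D) (z : Fin n) : Q.sq (supp E) = n * Q.sq (E z z) := by
  classical
  have key : ∀ s : Finset (Fin n), Q.sq (∑ i ∈ s, E i i) = s.card * Q.sq (E z z) := by
    intro s
    induction s using Finset.induction_on with
    | empty => simp [Q.sq_zero]
    | insert a s ha ih =>
      have h1 : star (E a a) * (∑ i ∈ s, E i i) = 0 := by
        rw [hs, Finset.mul_sum]
        exact Finset.sum_eq_zero fun i hi => mul_ne hE fun e => ha (e ▸ hi)
      have h2 : star (E a a) * E a a *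
          (star (∑ i ∈ s, E i i) * ∑ i ∈ s, E i i) = 0 := by
        have h0 : E a a * star (∑ i ∈ s, E i i) = 0 := by
          rw [star_sum, Finset.mul_sum]
          exact Finset.sum_eq_zero fun i hi => by
            rw [hs]
            exact mul_ne hE fun e => ha (e ▸ hi)
        rw [mul_assoc, ← mul_assoc (E a a) (star (∑ i ∈ s, E i i)), h0, zero_mul, mul_zero]
      rw [Finset.sum_insert ha, Q.sq_orth h1 h2, ih, Finset.card_insert_of_notMem ha,
        sq_diag hE hs Q a z]
      push_cast
      ring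
  have := key Finset.univ
  rwa [Finset.card_univ, Fintype.card_fin] at this

end Family

/-- The reciprocal used for rescaling. -/
def rec34 (t : ℝ) : ℝ := (max t (3 / 4))⁻¹

/-- The bump at one. -/
def bump (t : ℝ) : ℝ := max 0 (4 * t - 3)

/-- The difference quotient of the bump. -/
def bumpQ (t : ℝ) : ℝ := (max (1 / 4) (1 - t))⁻¹

lemma continuous_rec34 : Continuous rec34 :=
  (continuous_id.max continuous_const).inv₀ fun t => ne_of_gt
    (lt_of_lt_of_le (by norm_num) (le_max_right t (3 / 4)))

lemma continuous_bump : Continuous bump := by unfold bump; fun_prop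

lemma continuous_bumpQ : Continuous bumpQ :=
  (continuous_const.max (continuous_const.sub continuous_id)).inv₀ fun t => ne_of_gt
    (lt_of_lt_of_le (by norm_num) (le_max_left (1 / 4 : ℝ) (1 - t)))

lemma bump_sub_one (t : ℝ) : bump t - 1 = bumpQ t * (t - 1) := by
  unfold bump bumpQ
  rcases le_total t (3 / 4) with h | h
  · rw [max_eq_left (by linarith), max_eq_right (by linarith)]
    have : (1 - t) ≠ 0 := by intro e; linarith
    field_simp
    ring
  · rw [max_eq_right (by linarith), max_eq_left (by linarith)]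
    ring

lemma clamp_mul_bump {t : ℝ} : t * rec34 t * bump t = bump t := by
  unfold rec34 bump
  rcases le_total t (3 / 4) with h | h
  · rw [max_eq_left (show 4 * t - 3 ≤ 0 by linarith), mul_zero]
  · rw [max_eq_left h, mul_inv_cancel₀ (by intro e; linarith), one_mul]

lemma clamp_le_one {t : ℝ} (h0 : 0 ≤ t) : 0 ≤ t * rec34 t ∧ t * rec34 t ≤ 1 := by
  have hm : (0 : ℝ) < max t (3 / 4) := lt_of_lt_of_le (by norm_num) (le_max_right _ _)
  refine ⟨mul_nonneg h0 (inv_nonneg.2 hm.le), ?_⟩
  rw [rec34, ← div_eq_mul_inv, div_le_one hm]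
  exact le_max_left _ _

lemma self_le_clamp {t : ℝ} (h0 : 0 ≤ t) (h1 : t ≤ 1) : t ≤ t * rec34 t := by
  have hm : (0 : ℝ) < max t (3 / 4) := lt_of_lt_of_le (by norm_num) (le_max_right _ _)
  exact le_mul_of_one_le_right h0 ((one_le_inv₀ hm).2 (max_le h1 (by norm_num)))

/-- Module Ingredient. -/
theorem ingredient_ok : IngredientStatement.{u, v} := by
  intro G _ D _ sys ε hε
  classical
  obtain ⟨m, hm⟩ := exists_nat_gt (64 / ε)
  obtain ⟨n, i₀, E, v, hn, heven, hE, hs, hpos, hv, hfix, -⟩ :=
    sys.exists_comparisonN ∅ Set.countable_empty (m + 1)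
  let := CStarAlgebra.spectralOrder D
  have := CStarAlgebra.spectralOrderedRing D
  set H := supp E with hH
  have hHc : ∀ i j, Commute H (E i j) := fun i j => commute_H hE i j
  have hH0 : 0 ≤ H := Finset.sum_nonneg fun i _ => by
    obtain ⟨r, hr⟩ := hpos i
    exact hr ▸ star_mul_self_nonneg r
  have hHsa : IsSelfAdjoint H := IsSelfAdjoint.of_nonneg hH0
  have hH1 : H ≤ 1 := by rw [← sub_nonneg, ← hv]; exact star_mul_self_nonneg v
  have hspec : ∀ t ∈ spectrum ℝ H, 0 ≤ t ∧ t ≤ 1 := fun t ht => by
    refine ⟨spectrum_nonneg_of_nonneg hH0 ht, ?_⟩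
    have := (le_algebraMap_iff_spectrum_le (a := H) (r := (1 : ℝ))).1 (by simpa using hH1) t ht
    exact this
  set R := cfc rec34 H with hR
  set cc := cfc (fun t : ℝ => Real.sqrt (1 - (t * rec34 t) ^ 2)) H with hcc
  set ρ := cfc bump H with hρ
  have hRsa : IsSelfAdjoint R := cfc_predicate _ H
  have hcsa : IsSelfAdjoint cc := cfc_predicate _ H
  set Dd : D := ∑ i, sign i • E i i with hD
  set W : D := ∑ i, (1 : ℝ) • E i (partner i) with hW
  have comH : ∀ (f : ℝ → ℝ) (a : Fin n → ℝ) (p : Fin n → Fin n),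
      Commute (cfc f H) (∑ i, a i • E i (p i)) := fun f a p =>
    Commute.sum_right _ _ _ fun i _ => ((hHc i (p i)).cfc_real f).smul_right _
  have hfun : ∀ f g : ℝ → ℝ, Commute (cfc f H) (cfc g H) := fun f g => cfc_commute_cfc f g H
  have hRD : Commute R Dd := comH rec34 sign id
  have hRW : Commute R W := comH rec34 (fun _ => 1) partner
  have hcD : Commute cc Dd := comH _ sign id
  have hcW : Commute cc W := comH _ (fun _ => 1) partner
  have hcR : Commute cc R := hfun _ _
  have hDsa : IsSelfAdjoint Dd := by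
    rw [IsSelfAdjoint, hD, star_sum]
    exact Finset.sum_congr rfl fun i _ => by rw [star_smul, hs, star_trivial]
  have hWsa : IsSelfAdjoint W := by
    rw [IsSelfAdjoint, hW, star_sum]
    refine Finset.sum_nbij' partner partner (by simp) (by simp)
      (fun i _ => partner_partner heven i) (fun i _ => partner_partner heven i) fun i _ => ?_
    rw [star_smul, hs, star_trivial, partner_partner heven]
  have hDD : Dd * Dd = H * H := by
    rw [hD]
    refine (sum_perm_mul hE id id sign sign).trans ?_
    simp only [id, sign_sq, one_smul, hH, supp]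
  have hWW : W * W = H * H := by
    rw [hW, sum_perm_mul hE partner partner _ _]
    simp only [mul_one, one_smul, partner_partner heven, hH, supp]
  have hWD : W * Dd = -(Dd * W) := by
    rw [hD, hW]
    refine (sum_perm_mul hE partner id (fun _ => (1 : ℝ)) sign).trans
      (Eq.trans ?_ (congrArg Neg.neg (sum_perm_mul hE id partner sign fun _ => (1 : ℝ))).symm)
    rw [← mul_neg, ← Finset.sum_neg_distrib]
    refine congrArg (H * ·) (Finset.sum_congr rfl fun i _ => ?_)
    simp only [id, one_mul, mul_one, sign_partner heven, neg_smul]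
  set z := Dd * R with hz
  set w := W * R with hw
  have hzsa : IsSelfAdjoint z := (IsSelfAdjoint.commute_iff hDsa hRsa).1 hRD.symm
  have hwsa : IsSelfAdjoint w := (IsSelfAdjoint.commute_iff hWsa hRsa).1 hRW.symm
  have hc₁ : Continuous fun t : ℝ => Real.sqrt (1 - (t * rec34 t) ^ 2) := by
    have := continuous_rec34
    fun_prop
  have hsqR : H * H * (R * R) + cc * cc = 1 := by
    have c0 : Continuous fun t : ℝ => t := continuous_id
    have c1 := continuous_rec34
    have e : H * H * (R * R) = cfc (fun t : ℝ => t * t * (rec34 t * rec34 t)) H := by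
      rw [cfc_mul (fun t : ℝ => t * t) (fun t => rec34 t * rec34 t) H (c0.mul c0).continuousOn
        (c1.mul c1).continuousOn, cfc_mul (fun t : ℝ => t) (fun t => t) H,
        cfc_mul rec34 rec34 H c1.continuousOn c1.continuousOn, cfc_id' ℝ H]
    rw [e, hcc, ← cfc_mul _ _ H hc₁.continuousOn hc₁.continuousOn,
      ← cfc_add (a := H) (fun t : ℝ => t * t * (rec34 t * rec34 t))
        (fun t : ℝ => Real.sqrt (1 - (t * rec34 t) ^ 2) * Real.sqrt (1 - (t * rec34 t) ^ 2))
        ((c0.mul c0).mul (c1.mul c1)).continuousOn (hc₁.mul hc₁).continuousOn,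
      ← cfc_const_one ℝ H]
    refine cfc_congr fun t ht => ?_
    have h := clamp_le_one (hspec t ht).1
    rw [Real.mul_self_sqrt (by nlinarith [h.1, h.2])]
    ring
  have hzz : z * z = 1 - cc * cc := by
    rw [eq_sub_iff_add_eq, hz, hRD.mul_mul_mul_comm, hDD, hsqR]
  have hww : w * w = 1 - cc * cc := by
    rw [eq_sub_iff_add_eq, hw, hRW.mul_mul_mul_comm, hWW, hsqR]
  have hcw : Commute cc w := hcW.mul_right hcR
  have hcz : Commute cc z := hcD.mul_right hcR
  have hwz : w * z = -(z * w) := by
    rw [hw, hz, hRD.mul_mul_mul_comm, hWD, hRW.mul_mul_mul_comm, neg_mul]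
  have hc1 : ‖cc‖ ≤ 1 := norm_cfc_le zero_le_one fun t ht => by
    rw [Real.norm_eq_abs, abs_of_nonneg (Real.sqrt_nonneg _)]
    exact Real.sqrt_le_one.2 (by nlinarith [sq_nonneg (t * rec34 t)])
  have norm1 : ∀ x : D, IsSelfAdjoint x → x * x = 1 - cc * cc → ‖x‖ ≤ 1 := fun x hx hxx => by
    have h0 : 0 ≤ x * x := hx.mul_self_nonneg
    have h1 : x * x ≤ 1 := by
      rw [hxx]; exact sub_le_self _ hcsa.mul_self_nonneg
    have := (CStarAlgebra.norm_le_one_iff_of_nonneg _ h0).2 h1
    rw [hx.norm_mul_self] at this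
    nlinarith [norm_nonneg x]
  set y := w + Complex.I • cc with hy
  have hys : star y = w - Complex.I • cc := by
    rw [hy, star_add, star_smul, hwsa.star_eq, hcsa.star_eq, Complex.star_def, Complex.conj_I,
      neg_smul, ← sub_eq_add_neg]
  have hyy : star y * y = 1 ∧ y * star y = 1 := by
    constructor <;>
    · rw [hys, hy]
      simp only [add_mul, sub_mul, mul_add, mul_sub, smul_mul_assoc, mul_smul_comm, smul_add,
        smul_sub, smul_smul, Complex.I_mul_I, neg_smul, one_smul, hww, hcw.eq]
      abel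
  set P : Fin n → D := fun i => E i i * ρ with hP
  have hρc : ∀ i j, Commute ρ (E i j) := fun i j => (hHc i j).cfc_real bump
  have hclamp : H * (R * ρ) = ρ := by
    have e : H * (R * ρ) = cfc (fun t : ℝ => t * (rec34 t * bump t)) H := by
      rw [cfc_mul (fun t : ℝ => t) (fun t => rec34 t * bump t) H continuous_id.continuousOn
        (continuous_rec34.mul continuous_bump).continuousOn, cfc_mul rec34 bump H
        continuous_rec34.continuousOn continuous_bump.continuousOn, cfc_id' ℝ H]
    rw [e, hρ]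
    exact cfc_congr fun t _ => by rw [← mul_assoc, clamp_mul_bump]
  have hzP : ∀ i, z * P i = sign i • P i := fun i => by
    have hDE : Dd * E i i = sign i • (H * E i i) := by
      rw [hD, Finset.sum_mul, Finset.sum_eq_single i]
      · rw [smul_mul_assoc, mul_same hE]
      · intro j _ hj
        rw [smul_mul_assoc, mul_ne hE hj, smul_zero]
      · simp
    rw [hz, hP]
    dsimp only
    rw [mul_assoc Dd R, ← mul_assoc R (E i i),
      ((hHc i i).cfc_real rec34).eq, ← hR, mul_assoc (E i i) R, ← mul_assoc Dd (E i i), hDE,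
      smul_mul_assoc, (hHc i i).eq, mul_assoc, hclamp]
  have hfull : ∀ i, Full ({P i} : Set D) := fun i => by
    show (1 : D) ∈ TwoSidedIdeal.span {P i}
    set J := TwoSidedIdeal.span ({P i} : Set D) with hJ
    have hPi : P i ∈ J := TwoSidedIdeal.subset_span rfl
    have h1 : ∀ j, H * H * (E j j * ρ) ∈ J := fun j => by
      have h := J.mul_mem_right _ (E i j) (J.mul_mem_left (E j i) _ hPi)
      have e : E j i * P i * E i j = H * H * (E j j * ρ) := by
        rw [hP]; dsimp only
        rw [← mul_assoc (E j i), mul_assoc _ ρ, (hρc i j).eq, ← mul_assoc, mul_same hE,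
          mul_assoc (supp E) (E j i), mul_same hE, ← hH, ← mul_assoc H H, mul_assoc (H * H)]
      rwa [e] at h
    have h2 : H * H * H * ρ ∈ J := by
      have : H * H * H * ρ = ∑ j, H * H * (E j j * ρ) := by
        rw [← Finset.mul_sum, ← Finset.sum_mul, mul_assoc (H * H)]; rfl
      rw [this]
      exact sum_mem fun j _ => h1 j
    set T := cfc bumpQ H with hT
    have hTH : ρ - 1 = T * (H - 1) := by
      have e : T * (H - 1) = cfc (fun t : ℝ => bumpQ t * (t - 1)) H := by
        rw [cfc_mul bumpQ (fun t : ℝ => t - 1) H continuous_bumpQ.continuousOn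
          (continuous_id.sub continuous_const).continuousOn,
          cfc_sub (fun t : ℝ => t) (fun _ => (1 : ℝ)) H, cfc_id' ℝ H, cfc_const_one ℝ H]
      have e' : ρ - 1 = cfc (fun t : ℝ => bump t - 1) H := by
        rw [cfc_sub bump (fun _ => (1 : ℝ)) H continuous_bump.continuousOn, cfc_const_one ℝ H]
      rw [e, e']
      exact cfc_congr fun t _ => bump_sub_one t
    have hHv : H * v = v := by
      conv_lhs => rw [← hfix, ← mul_assoc, ← mul_same hE, mul_assoc, hfix, hfix]
    have hρv : ρ * v = v := by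
      have : (ρ - 1) * v = 0 := by
        rw [hTH, mul_assoc, sub_mul, hHv, one_mul, sub_self, mul_zero]
      rwa [sub_mul, one_mul, sub_eq_zero] at this
    have h3 : (1 : D) - H ∈ J := by
      have hvJ : v ∈ J := by
        have : v = H * H * H * ρ * v := by
          simp only [mul_assoc, hρv, hHv]
        rw [this]
        exact J.mul_mem_right _ v h2
      rw [← hv]
      exact J.mul_mem_left _ v hvJ
    have h4 : (1 : D) - ρ ∈ J := by
      have e : (1 : D) - ρ = T * (1 - H) := by
        rw [← neg_sub ρ 1, hTH, ← mul_neg, neg_sub]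
      rw [e]
      exact J.mul_mem_left T _ h3
    have key : (1 : D) = H * H * H * ρ + ((1 - H) + (1 - H) * H + (1 - H) * (H * H)) * ρ
        + (1 - ρ) := by
      noncomm_ring
    rw [key]
    exact J.add_mem (J.add_mem h2 (J.mul_mem_right _ ρ (J.add_mem (J.add_mem h3
      (J.mul_mem_right _ H h3)) (J.mul_mem_right _ _ h3)))) h4
  obtain ⟨i₁, i₂, hi₁, hi₂⟩ : ∃ i₁ i₂ : Fin n, sign i₁ = 1 ∧ sign i₂ = -1 := by
    obtain ⟨k, hk⟩ := heven
    exact ⟨⟨0, by omega⟩, ⟨1, by omega⟩, by simp [sign], by simp [sign]⟩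
  refine ⟨z, y, P i₁, P i₂, hzsa, norm1 z hzsa hzz, hyy.1, hyy.2, by rw [hzP, hi₁, one_smul],
    by rw [hzP, hi₂, neg_smul, one_smul], hfull i₁, hfull i₂, fun Q => ?_⟩
  have hsmall : Q.sq cc ≤ ε / 16 := by
    have hvn : ‖v‖ ≤ 1 := by
      have : ‖star v * v‖ ≤ 1 := (CStarAlgebra.norm_le_one_iff_of_nonneg _
        (star_mul_self_nonneg v)).2 (by rw [hv]; exact sub_le_self _ hH0)
      rw [CStarRing.norm_star_mul_self] at this
      nlinarith [norm_nonneg v]
    set y₀ := cfc (fun t : ℝ => Real.sqrt (2 * (1 - t) - (1 - (t * rec34 t) ^ 2))) H with hy₀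
    have hy₀sa : IsSelfAdjoint y₀ := cfc_predicate _ H
    have hcont : Continuous fun t : ℝ => Real.sqrt (2 * (1 - t) - (1 - (t * rec34 t) ^ 2)) := by
      have := continuous_rec34; fun_prop
    have hcont' : Continuous fun t : ℝ => Real.sqrt (1 - (t * rec34 t) ^ 2) := by
      have := continuous_rec34; fun_prop
    have hsum : star cc * cc + star y₀ * y₀ = (2 : ℝ) • (star v * v) := by
      have e : (2 : ℝ) • (star v * v) = cfc (fun t : ℝ => (2 : ℝ) * (1 - t)) H := by
        rw [cfc_const_mul (2 : ℝ) (fun t : ℝ => 1 - t) H,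
          cfc_sub (fun _ : ℝ => (1 : ℝ)) (fun t => t) H, cfc_const_one ℝ H, cfc_id' ℝ H, hv]
      rw [hcsa.star_eq, hy₀sa.star_eq, hcc, hy₀, e,
        ← cfc_mul _ _ H hcont'.continuousOn hcont'.continuousOn,
        ← cfc_mul _ _ H hcont.continuousOn hcont.continuousOn,
        ← cfc_add (a := H)
          (fun t : ℝ => Real.sqrt (1 - (t * rec34 t) ^ 2) * Real.sqrt (1 - (t * rec34 t) ^ 2))
          (fun t : ℝ => Real.sqrt (2 * (1 - t) - (1 - (t * rec34 t) ^ 2)) *
            Real.sqrt (2 * (1 - t) - (1 - (t * rec34 t) ^ 2)))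
          (hcont'.mul hcont').continuousOn (hcont.mul hcont).continuousOn]
      refine cfc_congr fun t ht => ?_
      obtain ⟨h0, h1⟩ := hspec t ht
      have g1 := clamp_le_one h0
      have g2 := self_le_clamp h0 h1
      rw [Real.mul_self_sqrt (by nlinarith), Real.mul_self_sqrt (by nlinarith)]
      ring
    have h1 : Q.sq cc ≤ 2 * Q.sq v := by
      have h := Q.mono cc y₀
      rw [hsum, Q.smul _ _ zero_le_two] at h
      exact h
    have h2 : Q.sq v ≤ Q.sq (E i₀ i₀) := by
      have h := Q.sq_mul_left_le (a := star v) ((norm_star v).le.trans hvn) (E i₀ i₀)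
      rw [show star v * E i₀ i₀ = star v by rw [← hs i₀ i₀, ← star_mul, hfix], Q.sq_adj,
        one_pow, one_mul] at h
      exact h
    have h3 : (n : ℝ) * Q.sq (E i₀ i₀) ≤ 1 := by
      rw [← sq_supp hE hs Q i₀]
      simpa using Q.sq_le ((CStarAlgebra.norm_le_one_iff_of_nonneg H hH0).2 hH1)
    have hn' : (m : ℝ) + 1 ≤ n := by exact_mod_cast hn
    have hne : (64 : ℝ) ≤ ε * n := by
      rw [div_lt_iff₀ hε] at hm
      nlinarith
    nlinarith [Q.sq_nn (E i₀ i₀), Q.sq_nn v, mul_le_mul_of_nonneg_left h3 hε.le]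
  constructor
  · have e : z * z - 1 = (-cc) * cc := by rw [hzz]; noncomm_ring
    rw [e]
    have := Q.sq_mul_left_le (a := -cc) ((norm_neg cc).le.trans hc1) cc
    nlinarith [Q.sq_nn cc]
  · set a := (2 : ℂ) • (z * cc) + (2 * Complex.I) • (z * w) with ha
    have e : y * z * star y + z = a * cc := by
      rw [hys, hy, ha]
      simp only [add_mul, mul_add, sub_mul, mul_sub, smul_mul_assoc, mul_smul_comm, smul_add,
        smul_sub, smul_smul, Complex.I_mul_I]
      have e1 : w * z * w = -(z * (1 - cc * cc)) := by rw [hwz, neg_mul, mul_assoc, hww]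
      have e2 : w * z * cc = -(z * w * cc) := by rw [hwz, neg_mul]
      have e3 : cc * z * w = z * w * cc := by
        rw [hcz.eq, mul_assoc z, hcw.eq, ← mul_assoc]
      have e4 : cc * z * cc = z * cc * cc := by rw [hcz.eq]
      rw [e1, e2, e3, e4, mul_sub, mul_one, ← mul_assoc]
      module
    have ha4 : ‖a‖ ≤ 4 := by
      have hzc : ‖z * cc‖ ≤ 1 :=
        (norm_mul_le _ _).trans (mul_le_one₀ (norm1 z hzsa hzz) (norm_nonneg _) hc1)
      have hzw : ‖z * w‖ ≤ 1 :=
        (norm_mul_le _ _).trans (mul_le_one₀ (norm1 z hzsa hzz) (norm_nonneg _) (norm1 w hwsa hww))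
      refine (norm_add_le _ _).trans ?_
      rw [norm_smul, norm_smul, norm_mul (2 : ℂ), Complex.norm_I, Complex.norm_two]
      linarith
    rw [e]
    have := Q.sq_mul_left_le ha4 cc
    linarith

end Vale.Agent.P095.General
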