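import Mathlib
import Vale.Agent.P095.General.Basic
import Vale.Agent.P095.General.Cu.GH

/-!
Module Length: fullness and a lower bound in every quasitracial state give a certificate of
bounded length.
-/

noncomputable section

open scoped CStarAlgebra
open Finset

namespace Vale.Agent.P095.General

open Vale.Agent.P101
open Vale.Agent.P101.CombineN (IsOrderZero supp)
open Cu

universe u v

namespace Length

variable {D : Type u} [CStarAlgebra D]

section Families

variable {ι κ : Type} [Fintype ι] [Fintype κ]

lemma sub_pi {x y : ι → D} (h : ∀ i, Le (x i) (y i)) : Sub x y := by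
  classical
  intro ε hε
  choose w hw using fun i => le_iff.1 (h i) ε hε
  refine ⟨fun p i => if p = i then w i else 0, fun i j => ⟨fun hij => ?_, fun hij => ?_⟩⟩
  · subst hij
    simpa using hw i
  · refine le_of_eq_of_le ?_ hε.le
    rw [sum_eq_zero, norm_zero]
    intro p _
    by_cases hp : p = i
    · subst hp; simp [hij]
    · simp [hp]

lemma sub_prod {x : ι → D} {y : κ → D} (h : Sub x y) (r : ℕ) :
    Sub (fun p : Fin r × ι => x p.2) (fun p : Fin r × κ => y p.2) := by
  classical
  intro ε hε
  obtain ⟨V, hV⟩ := h ε hε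
  refine ⟨fun p i => if p.1 = i.1 then V p.2 i.2 else 0, ?_⟩
  rintro ⟨a, i⟩ ⟨b, j⟩
  have e : ∑ p : Fin r × κ, star (if p.1 = a then V p.2 i else 0) * y p.2 *
      (if p.1 = b then V p.2 j else 0) = if a = b then ∑ q, star (V q i) * y q * V q j else 0 := by
    rw [Fintype.sum_prod_type, sum_eq_single a (fun c _ hc => sum_eq_zero fun q _ => by simp [hc])
      (by simp)]
    split_ifs <;> simp_all
  simp only [e]
  constructor <;> intro hij
  · obtain ⟨rfl, rfl⟩ := Prod.mk.injEq .. ▸ hij
    rw [if_pos rfl]
    exact (hV i i).1 rfl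
  · split_ifs with hab
    · exact (hV i j).2 fun h' => hij (Prod.ext hab h')
    · simpa using hε.le

end Families

variable [PartialOrder D] [StarOrderedRing D]

/-- A positive element below its cube. -/
lemma le_cube {a : D} (ha : 0 ≤ a) : Le a (a * a * a) := by
  refine le_iff.2 fun ε hε => ?_
  have hsa := IsSelfAdjoint.of_nonneg ha
  set f : ℝ → ℝ := fun x => (max x ε)⁻¹
  have hf : Continuous f := (continuous_id.max continuous_const).inv₀ fun x =>
    ne_of_gt (lt_of_lt_of_le hε (le_max_right _ _))
  refine ⟨cfc f a, ?_⟩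
  have e : star (cfc f a) * (a * a * a) * cfc f a - a
      = cfc (fun x : ℝ => f x * (x * x * x) * f x - x) a := by
    rw [cfc_sub (fun x : ℝ => f x * (x * x * x) * f x) (fun x : ℝ => x) a
        ((hf.mul (by fun_prop)).mul hf).continuousOn continuous_id.continuousOn,
      cfc_mul (fun x : ℝ => f x * (x * x * x)) f a (hf.mul (by fun_prop)).continuousOn hf.continuousOn,
      cfc_mul f (fun x : ℝ => x * x * x) a hf.continuousOn (Continuous.continuousOn (by fun_prop)),
      cfc_mul (fun x : ℝ => x * x) (fun x : ℝ => x) a (Continuous.continuousOn (by fun_prop))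
        continuous_id.continuousOn,
      cfc_mul (fun x : ℝ => x) (fun x : ℝ => x) a continuous_id.continuousOn
        continuous_id.continuousOn, cfc_id' ℝ a hsa, (cfc_predicate f a : IsSelfAdjoint _).star_eq]
  rw [e]
  refine norm_cfc_le hε.le fun x hx => ?_
  have hx0 := spectrum_nonneg_of_nonneg ha hx
  rcases le_total x ε with h | h
  · simp only [f, max_eq_right h]
    have h1 : ε⁻¹ * (x * x * x) * ε⁻¹ = (x / ε) ^ 2 * x := by field_simp
    have h2 : (x / ε) ^ 2 ≤ 1 := pow_le_one₀ (by positivity) ((div_le_one hε).2 h)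
    have h3 : 0 ≤ (x / ε) ^ 2 := by positivity
    rw [h1, Real.norm_eq_abs, abs_le]
    constructor <;> nlinarith
  · simp only [f, max_eq_left h]
    have h1 : x⁻¹ * (x * x * x) * x⁻¹ = x := by
      have : x ≠ 0 := by linarith
      field_simp
    rw [h1]; simpa using hε.le

lemma sum_star_sum_le {ι : Type} (s : Finset ι) (f : ι → D) :
    star (∑ i ∈ s, f i) * (∑ i ∈ s, f i) ≤ (s.card : ℝ) • ∑ i ∈ s, star (f i) * f i := by
  have key : ∑ i ∈ s, ∑ j ∈ s, star (f i - f j) * (f i - f j)
      = (2 : ℝ) • ((s.card : ℝ) • ∑ i ∈ s, star (f i) * f i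
        - star (∑ i ∈ s, f i) * ∑ i ∈ s, f i) := by
    simp only [star_sub, sub_mul, mul_sub, sum_sub_distrib, sum_const, ← mul_sum, ← sum_mul,
      ← star_sum, Nat.cast_smul_eq_nsmul, ← smul_sum, two_smul]
    abel
  have h0 : 0 ≤ ∑ i ∈ s, ∑ j ∈ s, star (f i - f j) * (f i - f j) :=
    sum_nonneg fun i _ => sum_nonneg fun j _ => star_mul_self_nonneg _
  rw [key] at h0
  have := smul_nonneg (show (0 : ℝ) ≤ 2⁻¹ by norm_num) h0
  rwa [smul_smul, inv_mul_cancel₀ two_ne_zero, one_smul, sub_nonneg] at this

/-- Finitely many copies of a full positive element lie above the unit. -/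
lemma exists_full_copies {h : D} (hh : 0 ≤ h) (hfull : Full {h}) :
    ∃ N : ℕ, Sub (fun _ : Fin 1 => (1 : D)) (fun _ : Fin N => h) := by
  obtain ⟨N, p, x, q, hx, hsum⟩ := full_exists_sum hfull
  have hx' : ∀ i, x i = h := fun i => hx i
  simp only [hx'] at hsum
  set s := CFC.sqrt h
  have hssa : IsSelfAdjoint s := IsSelfAdjoint.of_nonneg (CFC.sqrt_nonneg h)
  have hss : s * s = h := CFC.sqrt_mul_sqrt_self h hh
  set C := ∑ i, ‖p i * s‖ ^ 2 with hC
  set w : Fin N → D := fun i => p i * s * (s * q i)
  have hw : ∑ i, w i = 1 := by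
    rw [← hsum]
    refine sum_congr rfl fun i _ => ?_
    simp only [w, mul_assoc, ← hss]
  have hC0 : 0 ≤ C := sum_nonneg fun i _ => sq_nonneg _
  have h1 : (1 : D) ≤ ((N : ℝ) * C) • ∑ i, star (q i) * h * q i := by
    have hle := sum_star_sum_le univ w
    rw [hw, star_one, one_mul, card_univ, Fintype.card_fin] at hle
    refine hle.trans ?_
    rw [← smul_smul, smul_sum (r := C)]
    refine smul_le_smul_of_nonneg_left (sum_le_sum fun i _ => ?_) (Nat.cast_nonneg N)
    have e : star (w i) * w i = star (s * q i) * (star (p i * s) * (p i * s)) * (s * q i) := by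
      simp only [w, star_mul, mul_assoc]
    rw [e, show star (q i) * h * q i = star (s * q i) * (s * q i) by
      rw [← hss, star_mul, hssa.star_eq]; simp only [mul_assoc]]
    refine (CStarAlgebra.star_left_conjugate_le_norm_smul (hb := IsSelfAdjoint.star_mul_self _)).trans
      (smul_le_smul_of_nonneg_right ?_ (star_mul_self_nonneg _))
    rw [CStarRing.norm_star_mul_self, ← pow_two]
    exact single_le_sum (f := fun i => ‖p i * s‖ ^ 2) (fun i _ => sq_nonneg _) (mem_univ i)
  have hsum0 : 0 ≤ ((N : ℝ) * C) • ∑ i, star (q i) * h * q i :=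
    zero_le_one.trans h1
  refine ⟨N, ((sub_pi fun _ => le_of_le zero_le_one h1).trans
    (sub_of_exact (y := fun _ : Fin N => h) (fun i _ => Real.sqrt ((N : ℝ) * C) • q i) (fun _ => ?_)
      fun i j hij => absurd (Subsingleton.elim i j) hij))⟩
  rw [smul_sum]
  refine sum_congr rfl fun i _ => ?_
  rw [star_smul, star_trivial, smul_mul_assoc, smul_mul_assoc, mul_smul_comm, smul_smul,
    Real.mul_self_sqrt (by positivity)]

lemma full_cut {a : D} (ha : IsSelfAdjoint a) {t δ : ℝ} (ht : t < δ)
    (h : Full {Amenable.cut a δ}) : Full {Amenable.cut a t} := by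
  refine full_mono h ?_
  rintro _ rfl
  set k : ℝ → ℝ := fun x => max (x - δ) 0 / max (x - t) (δ - t)
  have hk : Continuous k := (Amenable.Small.cont_cut δ).div
    ((continuous_id.sub continuous_const).max continuous_const) fun x =>
      ne_of_gt (lt_of_lt_of_le (sub_pos.2 ht) (le_max_right _ _))
  have e : Amenable.cut a δ = Amenable.cut a t * cfc k a := by
    rw [Amenable.cut, Amenable.cut,
      ← cfc_mul (fun x : ℝ => max (x - t) 0) k a (Amenable.Small.cont_cut t).continuousOn
        hk.continuousOn]
    refine cfc_congr fun x _ => ?_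
    rcases le_or_gt x δ with hx | hx
    · simp [k, max_eq_right (sub_nonpos.2 hx)]
    · simp only [k]
      rw [max_eq_left (by linarith : (0 : ℝ) ≤ x - δ), max_eq_left (by linarith : (0 : ℝ) ≤ x - t),
        max_eq_left (by linarith : δ - t ≤ x - t), mul_div_cancel₀]
      linarith
  rw [e]
  exact TwoSidedIdeal.mul_mem_right _ _ _ (TwoSidedIdeal.subset_span (Set.mem_singleton _))

/-- Bounded length from many copies of the unit below few copies of h. -/
lemma one_sub_copies {G : Type v} [Group G] (sys : Sys G D) {h : D} (hh : 0 ≤ h) {k l L : ℕ}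
    (hk : 0 < k) (hl : l ≤ L * k)
    (hkl : Sub (fun _ : Fin k => (1 : D)) (fun _ : Fin l => h)) :
    Sub (fun _ : Unit => (1 : D)) (fun _ : Fin (3 * L) => h) := by
  classical
  choose V hV using fun j : ℕ => hkl (1 / ((j : ℝ) + 1)) (by positivity)
  set S : Set D := insert h (⋃ j, Set.range fun pi : Fin l × Fin k => V j pi.1 pi.2)
  have hS : S.Countable :=
    (Set.countable_iUnion fun j => (Set.finite_range _).countable).insert h
  obtain ⟨n, z, E, v, hn, -, hE, hEs, hEp, hv, hzv, hcomm⟩ := sys.exists_comparisonN S hS k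
  set e := E z z with he
  have hEnn : ∀ i, 0 ≤ E i i := fun i => by
    obtain ⟨r, hr⟩ := hEp i
    rw [← hr]; exact star_mul_self_nonneg r
  have hesa : IsSelfAdjoint e := IsSelfAdjoint.of_nonneg (hEnn z)
  have horth : ∀ i, supp E * E i i = E i i * E i i := by
    intro i
    have := hE.mul_eq i i i i
    rw [if_pos rfl] at this
    exact this.symm
  have hcube : ∀ i, star (E z i) * e * E z i = E i i * E i i * E i i := by
    intro i
    have a1 := hE.mul_eq z z z i
    have a2 := hE.mul_eq i z z i
    rw [if_pos rfl] at a1 a2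
    have a3 : star (E z i) * e * E z i = star (E z i) * (supp E * E z i) := by
      rw [mul_assoc, he, a1]
    have hcm : E i z * supp E = supp E * E i z := (hE.commute_supp i z).eq.symm
    rw [a3, hEs, ← mul_assoc, hcm, mul_assoc, a2, ← mul_assoc]
    calc supp E * supp E * E i i = supp E * (E i i * E i i) := by rw [mul_assoc, horth]
      _ = _ := by rw [← mul_assoc, horth]
  have ha : Sub (fun _ : Unit => (1 : D)) (fun _ : Fin n ⊕ Unit => e) := by
    have h1 : Sub (fun _ : Unit => (1 : D))
        (Sum.elim (fun i => E i i) fun _ : Unit => star v * v) :=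
      sub_of_exact (fun _ _ => 1) (fun _ => by
        simp [Fintype.sum_sum_type, hv, supp]) fun i j hij => absurd (Subsingleton.elim i j) hij
    refine h1.trans (sub_pi ?_)
    rintro (i | i)
    · refine (le_cube (hEnn i)).trans ?_
      simp only [Sum.elim_inl, ← hcube]
      exact le_conj _ _
    · simp only [Sum.elim_inr]
      have := le_conj v e
      rwa [mul_assoc, hzv] at this
  have hb : Sub (fun _ : Fin k => e) (fun _ : Fin l => e * h) := by
    intro ε hε
    obtain ⟨j, hj⟩ := exists_nat_gt ((‖e‖ + 1) / ε)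
    refine ⟨V j, fun i i' => ?_⟩
    have hce : ∀ p m, Commute e (star (V j p m)) ∧ Commute e (V j p m) := fun p m => by
      have h0 : Commute e (V j p m) :=
        (hcomm (V j p m) (Or.inr (Set.mem_iUnion.2 ⟨j, (p, m), rfl⟩))).1 z z
      refine ⟨?_, h0⟩
      have h1 := h0.star_star
      rwa [hesa.star_eq] at h1
    have e1 : ∑ p, star (V j p i) * (e * h) * V j p i'
        = e * ∑ p, star (V j p i) * h * V j p i' := by
      rw [mul_sum]
      refine sum_congr rfl fun p _ => ?_
      rw [← mul_assoc, ← (hce p i).1.eq]; simp only [mul_assoc]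
    have hsmall : ‖e‖ * (1 / ((j : ℝ) + 1)) ≤ ε := by
      rw [div_lt_iff₀ hε] at hj
      rw [mul_one_div, div_le_iff₀ (by positivity)]
      nlinarith
    constructor <;> intro hii
    · subst hii
      rw [e1, show ∀ w : D, e * w - e = e * (w - 1) from fun w => by rw [mul_sub, mul_one]]
      exact (norm_mul_le _ _).trans ((mul_le_mul_of_nonneg_left ((hV j i i).1 rfl)
        (norm_nonneg e)).trans hsmall)
    · rw [e1]
      exact (norm_mul_le _ _).trans ((mul_le_mul_of_nonneg_left ((hV j i i').2 hii)
        (norm_nonneg e)).trans hsmall)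
  have hc : Sub (fun _ : Fin n => e * h) (fun _ : Unit => h) := by
    intro ε hε
    set γ := ε / (‖h‖ + 1)
    have hγ : 0 < γ := by positivity
    set f : ℝ → ℝ := fun x => Real.sqrt (max x 0) / max x γ
    have hf : Continuous f := ((continuous_id.max continuous_const).sqrt).div
      (continuous_id.max continuous_const) fun x => ne_of_gt (lt_of_lt_of_le hγ (le_max_right _ _))
    set F := cfc f e
    have hFsa : IsSelfAdjoint F := cfc_predicate f e
    have heh : Commute e h := (hcomm h (Or.inl rfl)).1 z z
    refine ⟨fun _ i => E i z * F, fun i i' => ?_⟩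
    have hEh : ∀ p q, Commute (E p q) h := fun p q => (hcomm h (Or.inl rfl)).1 p q
    have e1 : star (E i z * F) * h * (E i' z * F)
        = F * (E z i * E i' z) * F * h := by
      rw [star_mul, hEs, hFsa.star_eq]
      have hFh : Commute F h := heh.cfc_real f
      calc F * E z i * h * (E i' z * F) = F * E z i * (h * E i' z) * F := by simp only [mul_assoc]
        _ = F * E z i * (E i' z * h) * F := by rw [(hEh i' z).eq]
        _ = F * E z i * E i' z * (h * F) := by simp only [mul_assoc]
        _ = _ := by rw [← hFh.eq]; simp only [mul_assoc]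
    simp only [univ_unique, sum_singleton, e1]
    constructor <;> intro hii
    · subst hii
      have a1 := hE.mul_eq z i i z
      rw [if_pos rfl] at a1
      rw [a1, horth, ← sub_mul]
      refine (norm_mul_le _ _).trans ?_
      have hq : ‖F * (e * e) * F - e‖ ≤ γ := by
        have e2 : F * (e * e) * F - e = cfc (fun x : ℝ => f x * (x * x) * f x - x) e := by
          rw [cfc_sub (fun x : ℝ => f x * (x * x) * f x) (fun x : ℝ => x) e
              ((hf.mul (by fun_prop)).mul hf).continuousOn continuous_id.continuousOn,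
            cfc_mul (fun x : ℝ => f x * (x * x)) f e (hf.mul (by fun_prop)).continuousOn
              hf.continuousOn,
            cfc_mul f (fun x : ℝ => x * x) e hf.continuousOn (Continuous.continuousOn (by fun_prop)),
            cfc_mul (fun x : ℝ => x) (fun x : ℝ => x) e continuous_id.continuousOn
              continuous_id.continuousOn, cfc_id' ℝ e hesa]
        rw [e2]
        refine norm_cfc_le hγ.le fun x hx => ?_
        have hx0 := spectrum_nonneg_of_nonneg (hEnn z) hx
        have hff : f x * (x * x) * f x = x * (x / max x γ) ^ 2 := by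
          simp only [f, max_eq_left hx0]
          have hm : 0 < max x γ := lt_of_lt_of_le hγ (le_max_right _ _)
          field_simp
          rw [Real.sq_sqrt hx0]
          ring
        rw [hff, Real.norm_eq_abs, abs_le]
        rcases le_total x γ with hxg | hxg
        · rw [max_eq_right hxg]
          have h2 : (x / γ) ^ 2 ≤ 1 := pow_le_one₀ (by positivity) ((div_le_one hγ).2 hxg)
          have h3 : 0 ≤ (x / γ) ^ 2 := by positivity
          constructor <;> nlinarith
        · rw [max_eq_left hxg, div_self (by linarith : x ≠ 0)]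
          constructor <;> linarith
      refine (mul_le_mul_of_nonneg_right hq (norm_nonneg h)).trans ?_
      have : γ * (‖h‖ + 1) = ε := by simp only [γ]; field_simp
      nlinarith
    · have a1 := hE.mul_eq z i i' z
      rw [if_neg hii] at a1
      rw [a1]; simpa using hε.le
  set q := n / k
  have hq1 : n + 1 ≤ (q + 2) * k := by
    have h1 := Nat.div_add_mod n k
    have h2 := Nat.mod_lt n hk
    have h3 : (q + 2) * k = k * (n / k) + 2 * k := by simp only [q]; ring
    omega
  have hq2 : (q + 2) * l ≤ 3 * L * n := by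
    have h1 : q * k ≤ n := Nat.div_mul_le_self n k
    have h2 : (q + 2) * l ≤ (q + 2) * (L * k) := Nat.mul_le_mul_left _ hl
    have h3 : (q + 2) * (L * k) = L * (q * k + 2 * k) := by ring
    have h4 : L * (q * k + 2 * k) ≤ L * (3 * n) := Nat.mul_le_mul_left _ (by omega)
    have h5 : L * (3 * n) = 3 * L * n := by ring
    omega
  have s1 : Sub (fun _ : Fin n ⊕ Unit => e) (fun _ : Fin (q + 2) × Fin k => e) :=
    sub_const _ (by simpa using hq1)
  have s2 : Sub (fun _ : Fin (q + 2) × Fin l => e * h) (fun _ : Fin (3 * L) × Fin n => e * h) :=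
    sub_const _ (by simpa using hq2)
  have s3 : Sub (fun _ : Fin (3 * L) × Unit => h) (fun _ : Fin (3 * L) => h) :=
    sub_const _ (by simp)
  exact ((((ha.trans s1).trans (sub_prod hb (q + 2))).trans s2).trans (sub_prod hc (3 * L))).trans s3

/-- An exact bounded certificate from an approximate one. -/
lemma exists_certificate {y : D} {t : ℝ} (ht : 0 < t) {N : ℕ}
    (h : Sub (fun _ : Unit => (1 : D)) (fun _ : Fin N => Amenable.cut (star y * y) t)) :
    ∃ r : Fin N → D, (∀ i, ‖r i‖ ≤ (Real.sqrt t)⁻¹) ∧
      ∑ i, star (y * r i) * (y * r i) = 1 := by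
  set a := star y * y with ha
  have hasa : IsSelfAdjoint a := IsSelfAdjoint.star_mul_self y
  obtain ⟨V, hV⟩ := h (1 / 2) (by norm_num)
  have hV0 := (hV () ()).1 rfl
  set g : ℝ → ℝ := fun x => Real.sqrt (max (x - t) 0)
  have hg : Continuous g := (Amenable.Small.cont_cut t).sqrt
  set s := cfc g a
  have hssa : IsSelfAdjoint s := cfc_predicate g a
  have hss : s * s = Amenable.cut a t := by
    rw [Amenable.cut, ← cfc_mul g g a hg.continuousOn hg.continuousOn]
    exact cfc_congr fun x _ => Real.mul_self_sqrt (le_max_right _ _)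
  set z := ∑ p, star (V p ()) * Amenable.cut a t * V p ()
  have hz : z = ∑ p, star (s * V p ()) * (s * V p ()) := sum_congr rfl fun p _ => by
    rw [star_mul, hssa.star_eq, ← hss]; simp only [mul_assoc]
  have hz0 : 0 ≤ z := hz ▸ sum_nonneg fun p _ => star_mul_self_nonneg _
  have hzsa := IsSelfAdjoint.of_nonneg hz0
  have hpos : ∀ x ∈ spectrum ℝ z, (1 : ℝ) / 2 ≤ x := by
    refine (algebraMap_le_iff_le_spectrum hzsa).1 ?_
    have h1 := (hzsa.sub (IsSelfAdjoint.one D)).neg_algebraMap_norm_le_self
    have h2 : algebraMap ℝ D (1 / 2) ≤ 1 + -algebraMap ℝ D ‖z - 1‖ := by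
      rw [show (1 : D) + -algebraMap ℝ D ‖z - 1‖ = algebraMap ℝ D (1 + -‖z - 1‖) by
        rw [map_add, map_neg, map_one]]
      refine algebraMap_mono D ?_
      have hn : ‖z - 1‖ ≤ 1 / 2 := hV0
      linarith
    refine h2.trans ?_
    have := add_le_add (le_refl (1 : D)) h1
    rwa [add_sub_cancel] at this
  set f : ℝ → ℝ := fun x => (Real.sqrt x)⁻¹
  have hfc : ContinuousOn f (spectrum ℝ z) :=
    Real.continuous_sqrt.continuousOn.inv₀ fun x hx =>
      Real.sqrt_ne_zero'.2 (by linarith [hpos x hx])
  set R := cfc f z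
  have hRsa : IsSelfAdjoint R := cfc_predicate f z
  have hRzR : R * z * R = 1 := by
    conv_lhs => arg 1; arg 2; rw [← cfc_id' ℝ z hzsa]
    rw [← cfc_mul f (fun x : ℝ => x) z hfc continuous_id.continuousOn,
      ← cfc_mul (fun x : ℝ => f x * x) f z (hfc.mul continuous_id.continuousOn) hfc,
      cfc_congr (g := fun _ => (1 : ℝ)) fun x hx => ?_, cfc_const_one ℝ z hzsa]
    have hx := hpos x hx
    simp only [f]
    have : Real.sqrt x ≠ 0 := Real.sqrt_ne_zero'.2 (by linarith)
    field_simp
    rw [Real.sq_sqrt (by linarith)]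
  set k : ℝ → ℝ := fun x => (Real.sqrt (max x t))⁻¹
  have hk : Continuous k := ((continuous_id.max continuous_const).sqrt).inv₀ fun x =>
    Real.sqrt_ne_zero'.2 (lt_of_lt_of_le ht (le_max_right _ _))
  set K := cfc k a
  have hKsa : IsSelfAdjoint K := cfc_predicate k a
  have hKs : s * (K * a * K) * s = s * s := by
    conv_lhs => arg 1; arg 2; arg 1; arg 2; rw [← cfc_id' ℝ a hasa]
    rw [← cfc_mul k (fun x : ℝ => x) a hk.continuousOn continuous_id.continuousOn,
      ← cfc_mul (fun x : ℝ => k x * x) k a (hk.mul continuous_id).continuousOn hk.continuousOn,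
      ← cfc_mul g (fun x : ℝ => k x * x * k x) a hg.continuousOn
        ((hk.mul continuous_id).mul hk).continuousOn,
      ← cfc_mul (fun x : ℝ => g x * (k x * x * k x)) g a
        (hg.mul ((hk.mul continuous_id).mul hk)).continuousOn hg.continuousOn,
      ← cfc_mul g g a hg.continuousOn hg.continuousOn]
    refine cfc_congr fun x _ => ?_
    rcases le_total x t with hx | hx
    · simp [g, max_eq_right (sub_nonpos.2 hx)]
    · have hx0 : 0 < x := lt_of_lt_of_le ht hx
      have : k x * x * k x = 1 := by
        simp only [k, max_eq_left hx]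
        have h0 : Real.sqrt x ≠ 0 := Real.sqrt_ne_zero'.2 hx0
        field_simp
        rw [Real.sq_sqrt hx0.le]
      rw [this, mul_one]
  set w : Fin N → D := fun p => s * V p () * R
  have hw : ∑ p, star (w p) * w p = 1 := by
    rw [← hRzR, hz, mul_sum, sum_mul]
    refine sum_congr rfl fun p _ => ?_
    simp only [w, star_mul, hRsa.star_eq, mul_assoc]
  refine ⟨fun p => K * w p, fun p => ?_, ?_⟩
  · refine (norm_mul_le _ _).trans ?_
    have hw1 : ‖w p‖ ≤ 1 := by
      have h1 : star (w p) * w p ≤ 1 := by
        rw [← hw]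
        exact single_le_sum (f := fun p => star (w p) * w p)
          (fun i _ => star_mul_self_nonneg _) (mem_univ p)
      have h2 := (CStarAlgebra.norm_le_one_iff_of_nonneg _ (star_mul_self_nonneg (w p))).2 h1
      rw [CStarRing.norm_star_mul_self] at h2
      nlinarith [norm_nonneg (w p)]
    have hK1 : ‖K‖ ≤ (Real.sqrt t)⁻¹ := norm_cfc_le (by positivity) fun x _ => by
      rw [Real.norm_of_nonneg (by positivity)]
      exact inv_anti₀ (Real.sqrt_pos.2 ht) (Real.sqrt_le_sqrt (le_max_right _ _))
    exact (mul_le_mul hK1 hw1 (norm_nonneg _) (by positivity)).trans_eq (mul_one _)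
  · refine (sum_congr rfl fun p _ => ?_).trans hw
    have e : star (y * (K * w p)) * (y * (K * w p))
        = star (V p () * R) * (s * (K * a * K) * s) * (V p () * R) := by
      simp only [w, star_mul, hKsa.star_eq, hssa.star_eq, hRsa.star_eq, ha, mul_assoc]
    rw [e, hKs]
    simp only [w, star_mul, hssa.star_eq, mul_assoc]

end Length

open Length in
/-- Module Length. -/
theorem length_ok : LengthStatement.{u, v} := by
  intro δ hδ
  set t := δ / 2
  set L : ℕ := ⌊1 / t⌋₊ + 1
  refine ⟨3 * L, (Real.sqrt t)⁻¹, fun G _ D _ sys y hy hfull hQ => ?_⟩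
  let := CStarAlgebra.spectralOrder D
  have := CStarAlgebra.spectralOrderedRing D
  have ht : 0 < t := half_pos hδ
  set a := star y * y with ha
  have hfull' : Full {Amenable.cut a δ} := hfull
  have hh : 0 ≤ Amenable.cut a t := Amenable.Small.cut_nonneg a t
  obtain ⟨N₀, hN₀⟩ := exists_full_copies hh
    (full_cut (IsSelfAdjoint.star_mul_self y) (half_lt_self hδ) hfull')
  have hd : ∀ d : CuState D, 1 / (L : ℝ) < d.val (Amenable.cut a t) := by
    intro d
    have h1 : δ ≤ d.qv a := hQ d.toQT
    have hL : 1 / t < (L : ℝ) := by simp only [L]; push_cast; exact Nat.lt_floor_add_one _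
    have hL' : 1 / (L : ℝ) < t := by
      rw [div_lt_iff₀ (by positivity)]
      rw [div_lt_iff₀ ht] at hL
      linarith
    have ha1 : ‖a‖ ≤ 1 := by
      rw [ha, CStarRing.norm_star_mul_self]
      exact mul_le_one₀ hy (norm_nonneg _) hy
    have ht1 : t ≤ 1 := by
      have h3 := d.qv_le (star_mul_self_nonneg y) ha1 zero_le_one le_rfl
      have h4 := d.val_le_one (Amenable.Small.cut_nonneg (star y * y) 1)
      simp only [t]
      linarith
    have h2 := d.qv_le (star_mul_self_nonneg y) ha1 ht.le ht1
    have h3 : δ = t + t := (add_halves δ).symm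
    linarith
  obtain ⟨k, l, hk, hl, hkl⟩ := exists_ratio (g := (⟨Amenable.cut a t, hh⟩ : Gen D))
    (Nat.succ_pos _) hN₀ hd
  exact exists_certificate ht (one_sub_copies sys hh hk hl hkl)

end Vale.Agent.P095.General
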