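import Mathlib
import Vale.Agent.P095.General.Linear.Quot
import Vale.Agent.P095.General.Linear.Comm

/-!
Module Linear: additivity on elements commuting up to null elements, limits, and states on
subalgebras which are commutative up to null elements.
-/

noncomputable section

open scoped CStarAlgebra BoundedContinuousFunction
open Filter Topology

namespace Vale.Agent.P095.General

universe u

namespace QT

variable {D : Type u} [CStarAlgebra D] [PartialOrder D] [StarOrderedRing D] (Q : QT D)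

section Descend

variable [PartialOrder (Quot Q)] [StarOrderedRing (Quot Q)]

/-- A representative. -/
def lift (z : Quot Q) : D := Classical.choose (proj_surjective Q z)

lemma proj_lift (z : Quot Q) : proj Q (lift Q z) = z :=
  Classical.choose_spec (proj_surjective Q z)

/-- The values of the induced state. -/
def qbar (z : Quot Q) : ℝ := Q.sq (lift Q (CFC.sqrt z))

lemma qbar_proj {a : D} (ha : 0 ≤ a) : qbar Q (proj Q a) = Q.q a := by
  have h0 : 0 ≤ proj Q (CFC.sqrt a) := map_nonneg (proj Q) (CFC.sqrt_nonneg a)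
  have h : CFC.sqrt (proj Q a) = proj Q (CFC.sqrt a) :=
    CFC.sqrt_unique (by rw [← map_mul, CFC.sqrt_mul_sqrt_self a ha]) h0
  rw [qbar, h, Q.sq_congr ((proj_eq_iff Q).1 (proj_lift Q _)), sq_eq, star_sqrt_mul ha]

lemma qbar_sq (x : D) : qbar Q (star (proj Q x) * proj Q x) = Q.q (star x * x) := by
  rw [← map_star, ← map_mul, qbar_proj Q (star_mul_self_nonneg x)]

/-- The induced state on the quotient. -/
def bar : QT (Quot Q) where
  q := qbar Q
  nonneg z := by
    obtain ⟨x, rfl⟩ := proj_surjective Q z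
    rw [qbar_sq]; exact Q.nonneg x
  one := by rw [← map_one (proj Q), qbar_proj Q zero_le_one, Q.one]
  smul r z hr := by
    obtain ⟨x, rfl⟩ := proj_surjective Q z
    rw [qbar_sq, ← map_star, ← map_mul, ← Complex.coe_smul, ← map_smul, Complex.coe_smul,
      qbar_proj Q (smul_nonneg hr (star_mul_self_nonneg x)), Q.smul r x hr]
  swap z := by
    obtain ⟨x, rfl⟩ := proj_surjective Q z
    rw [qbar_sq, ← map_star, ← map_mul, qbar_proj Q (mul_star_self_nonneg x), Q.swap]
  mono z w := by
    obtain ⟨x, rfl⟩ := proj_surjective Q z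
    obtain ⟨y, rfl⟩ := proj_surjective Q w
    rw [qbar_sq, ← map_star, ← map_star, ← map_mul, ← map_mul, ← map_add,
      qbar_proj Q (add_nonneg (star_mul_self_nonneg x) (star_mul_self_nonneg y))]
    exact Q.mono x y
  orth z w h := by
    obtain ⟨x, rfl⟩ := proj_surjective Q z
    obtain ⟨y, rfl⟩ := proj_surjective Q w
    simp only [← map_star, ← map_mul] at h ⊢
    set A := star x * x
    set B := star y * y
    have hA : 0 ≤ proj Q A := map_nonneg (proj Q) (star_mul_self_nonneg x)
    have hB : 0 ≤ proj Q B := map_nonneg (proj Q) (star_mul_self_nonneg y)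
    rw [map_mul] at h
    obtain ⟨hp, hm⟩ : proj Q (A - B)⁺ = proj Q A ∧ proj Q (A - B)⁻ = proj Q B := by
      have hp : 0 ≤ proj Q (A - B)⁺ := map_nonneg (proj Q) (CFC.posPart_nonneg _)
      have hm : 0 ≤ proj Q (A - B)⁻ := map_nonneg (proj Q) (CFC.negPart_nonneg _)
      obtain ⟨u1, u2⟩ := CFC.posPart_negPart_unique (a := proj Q (A - B))
        (b := proj Q (A - B)⁺) (c := proj Q (A - B)⁻)
        (by rw [← map_sub, CFC.posPart_sub_negPart (A - B)
          ((IsSelfAdjoint.star_mul_self x).sub (IsSelfAdjoint.star_mul_self y))])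
        (by rw [← map_mul, CFC.posPart_mul_negPart, map_zero]) hp hm
      obtain ⟨v1, v2⟩ := CFC.posPart_negPart_unique (a := proj Q (A - B))
        (b := proj Q A) (c := proj Q B) (map_sub _ _ _) h hA hB
      exact ⟨u1.symm.trans v1, u2.symm.trans v2⟩
    rw [← hp, ← hm, ← map_add, qbar_proj Q (CFC.posPart_nonneg _),
      qbar_proj Q (CFC.negPart_nonneg _),
      qbar_proj Q (add_nonneg (CFC.posPart_nonneg _) (CFC.negPart_nonneg _))]
    exact Q.q_orth (CFC.posPart_nonneg _) (CFC.negPart_nonneg _) (CFC.posPart_mul_negPart _)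
  tri z w t ht := by
    obtain ⟨x, rfl⟩ := proj_surjective Q z
    obtain ⟨y, rfl⟩ := proj_surjective Q w
    rw [qbar_sq, qbar_sq, ← map_star, ← map_star, ← map_mul, ← map_mul, ← map_add,
      qbar_proj Q (add_nonneg (star_mul_self_nonneg x) (star_mul_self_nonneg y))]
    exact Q.tri x y t ht

lemma qs_proj {a : D} (ha : IsSelfAdjoint a) : (bar Q).qs (proj Q a) = Q.qs a := by
  obtain ⟨u1, u2⟩ := CFC.posPart_negPart_unique (a := proj Q a)
    (b := proj Q a⁺) (c := proj Q a⁻) (by rw [← map_sub, CFC.posPart_sub_negPart a ha])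
    (by rw [← map_mul, CFC.posPart_mul_negPart, map_zero])
    (map_nonneg (proj Q) (CFC.posPart_nonneg _)) (map_nonneg (proj Q) (CFC.negPart_nonneg _))
  simp only [qs]
  rw [u1, u2]
  exact congrArg₂ (· - ·) (qbar_proj Q (CFC.posPart_nonneg _))
    (qbar_proj Q (CFC.negPart_nonneg _))

end Descend

/-- Additivity on self-adjoint elements commuting up to a null element. -/
lemma qs_add_of_null {a b : D} (ha : IsSelfAdjoint a) (hb : IsSelfAdjoint b)
    (hab : Q.Null (a * b - b * a)) : Q.qs (a + b) = Q.qs a + Q.qs b := by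
  let := CStarAlgebra.spectralOrder (Quot Q)
  have := CStarAlgebra.spectralOrderedRing (Quot Q)
  have hc : Commute (proj Q a) (proj Q b) := by
    rw [Commute, SemiconjBy, ← map_mul, ← map_mul, proj_eq_iff]; exact hab
  rw [← qs_proj Q (ha.add hb), ← qs_proj Q ha, ← qs_proj Q hb, map_add]
  exact (bar Q).qs_add_comm (ha.map (proj Q)) (hb.map (proj Q)) hc

lemma qs_of_nonneg {a : D} (ha : 0 ≤ a) : Q.qs a = Q.q a := by
  rw [qs, (CFC.posPart_eq_self a).2 ha,
    (CFC.negPart_eq_zero_iff a (IsSelfAdjoint.of_nonneg ha)).2 ha, Q.q_zero, sub_zero]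

lemma qs_neg (a : D) : Q.qs (-a) = -Q.qs a := by
  rw [qs, qs, CFC.posPart_neg, CFC.negPart_neg, neg_sub]

lemma qs_smul (a : D) (r : ℝ) : Q.qs (r • a) = r * Q.qs a := by
  have key : ∀ r : ℝ, 0 ≤ r → Q.qs (r • a) = r * Q.qs a := fun r hr => by
    rw [qs, qs, CFC.posPart_smul_of_nonneg hr, CFC.negPart_smul_of_nonneg hr,
      Q.q_smul (CFC.posPart_nonneg a) hr, Q.q_smul (CFC.negPart_nonneg a) hr, mul_sub]
  rcases le_total 0 r with hr | hr
  · exact key r hr
  · rw [← neg_neg r, neg_smul, qs_neg, key (-r) (neg_nonneg.2 hr), neg_neg]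
    ring

/-- The state on a subalgebra which is commutative up to null elements. -/
lemma exists_state (M : StarSubalgebra ℂ D) (hM : ∀ x ∈ M, ∀ y ∈ M, Q.Null (x * y - y * x)) :
    ∃ Φ : ↥M →ₗ[ℂ] ℂ, Φ 1 = 1 ∧ (∀ x : ↥M, Φ (star x * x) = ((Q.sq (x : D) : ℝ) : ℂ)) ∧
      ∀ x : ↥M, IsSelfAdjoint (x : D) → Φ x = ((Q.qs (x : D) : ℝ) : ℂ) := by
  set re : D → D := fun x => (2 : ℂ)⁻¹ • (x + star x) with hre
  set im : D → D := fun x => (-Complex.I * (2 : ℂ)⁻¹) • (x - star x) with him
  have hsa : ∀ x, IsSelfAdjoint (re x) ∧ IsSelfAdjoint (im x) := fun x => by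
    constructor
    · simp [hre, isSelfAdjoint_iff, star_smul, add_comm]
    · simp only [him, isSelfAdjoint_iff, star_smul, star_sub, star_star, Complex.star_def,
        map_mul, map_neg, Complex.conj_I, neg_neg, map_inv₀, map_ofNat, neg_mul]
      rw [← neg_sub x (star x), smul_neg, neg_smul]
  have hmem : ∀ x ∈ M, re x ∈ M ∧ im x ∈ M := fun x hx =>
    ⟨M.smul_mem (add_mem hx (star_mem hx)) _, M.smul_mem (sub_mem hx (star_mem hx)) _⟩
  have hre_smul : ∀ (z : ℂ) x, re (z • x) = z.re • re x + (-z.im) • im x ∧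
      im (z • x) = z.re • im x + z.im • re x := fun z x => by
    simp only [hre, him, star_smul, Complex.star_def, ← Complex.coe_smul]
    constructor <;> match_scalars <;> apply Complex.ext <;> simp <;> ring
  have half : ∀ x : D, (2 : ℂ)⁻¹ • x + (2 : ℂ)⁻¹ • x = x := fun x => by
    rw [← add_smul]; norm_num
  let F : ↥M → ℂ := fun x => (Q.qs (re x) : ℂ) + (Q.qs (im x) : ℂ) * Complex.I
  have hadd : ∀ x ∈ M, ∀ y ∈ M, IsSelfAdjoint x → IsSelfAdjoint y →
      Q.qs (x + y) = Q.qs x + Q.qs y := fun x hx y hy h1 h2 =>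
    Q.qs_add_of_null h1 h2 (hM x hx y hy)
  have hsmem : ∀ (r : ℝ), ∀ x ∈ M, r • x ∈ M := fun r x hx => by
    rw [← Complex.coe_smul]; exact M.smul_mem hx _
  refine ⟨{ toFun := F, map_add' := fun x y => ?_, map_smul' := fun z x => ?_ }, ?_,
    fun x => ?_, fun x hx => ?_⟩
  · have e1 : re ((x : D) + y) = re x + re y := by
      simp only [hre, star_add, ← smul_add]; congr 1; abel
    have e2 : im ((x : D) + y) = im x + im y := by
      simp only [him, star_add, ← smul_add]; congr 1; abel
    simp only [F, StarMemClass.coe_star, AddMemClass.coe_add]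
    rw [e1, e2, hadd _ (hmem x x.2).1 _ (hmem y y.2).1 (hsa x).1 (hsa y).1,
      hadd _ (hmem x x.2).2 _ (hmem y y.2).2 (hsa x).2 (hsa y).2]
    push_cast; ring
  · obtain ⟨e1, e2⟩ := hre_smul z x
    obtain ⟨m1, m2⟩ := hmem x x.2
    obtain ⟨s1, s2⟩ := hsa x
    simp only [F, SetLike.val_smul, RingHom.id_apply]
    rw [e1, e2, hadd _ (hsmem _ _ m1) _ (hsmem _ _ m2) ((IsSelfAdjoint.all _).smul s1)
        ((IsSelfAdjoint.all _).smul s2),
      hadd _ (hsmem _ _ m2) _ (hsmem _ _ m1) ((IsSelfAdjoint.all _).smul s2)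
        ((IsSelfAdjoint.all _).smul s1)]
    simp only [qs_smul]
    apply Complex.ext <;> simp <;> ring
  all_goals
    simp only [LinearMap.coe_mk, AddHom.coe_mk, F]
  · have e1 : re (1 : D) = 1 := by simp [hre, half]
    have e2 : im (1 : D) = 0 := by simp [him]
    rw [OneMemClass.coe_one, e1, e2, Q.qs_of_nonneg zero_le_one, Q.one,
      Q.qs_of_nonneg le_rfl, Q.q_zero]
    simp
  · have h := IsSelfAdjoint.star_mul_self (x : D)
    have e1 : re (star (x : D) * x) = star (x : D) * x := by
      simp [hre, h.star_eq, half]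
    have e2 : im (star (x : D) * x) = 0 := by simp [him, h.star_eq]
    rw [MulMemClass.coe_mul, StarMemClass.coe_star, e1, e2,
      Q.qs_of_nonneg (star_mul_self_nonneg _), Q.qs_of_nonneg le_rfl, Q.q_zero, sq_eq]
    simp
  · have e1 : re (x : D) = x := by
      simp [hre, hx.star_eq, half]
    have e2 : im (x : D) = 0 := by simp [him, hx.star_eq]
    rw [e1, e2, Q.qs_of_nonneg le_rfl, Q.q_zero]
    simp

/-- Limits of quasitracial states along an ultrafilter. -/
lemma exists_limit (U : Ultrafilter ℕ) (Q : ℕ → QT D) :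
    ∃ R : QT (ℕ →ᵇ D), ∀ a : ℕ →ᵇ D,
      Tendsto (fun n => (Q n).sq (a n)) (U : Filter ℕ) (𝓝 (R.sq a)) := by
  set L : (ℕ →ᵇ D) → ℝ := fun a => limUnder (U : Filter ℕ) fun n => (Q n).q (a n)
  have hconv : ∀ a : ℕ →ᵇ D, (∀ n, 0 ≤ a n) →
      Tendsto (fun n => (Q n).q (a n)) (U : Filter ℕ) (𝓝 (L a)) := by
    intro a ha
    obtain ⟨x, -, hx⟩ := (isCompact_Icc (a := (0 : ℝ)) (b := ‖a‖)).ultrafilter_le_nhds
      (U.map fun n => (Q n).q (a n)) (by
        rw [le_principal_iff, Ultrafilter.coe_map, mem_map]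
        exact Filter.univ_mem' fun n =>
          ⟨(Q n).q_nonneg (ha n), ((Q n).q_le_norm (ha n)).trans (a.norm_coe_le_norm n)⟩)
    have h : Tendsto (fun n => (Q n).q (a n)) (U : Filter ℕ) (𝓝 x) := hx
    simp only [L]
    rwa [h.limUnder_eq]
  have hs : ∀ (x : ℕ →ᵇ D) n, 0 ≤ (star x * x) n := fun x n => star_mul_self_nonneg (x n)
  have hs' : ∀ (x y : ℕ →ᵇ D) n, 0 ≤ (star x * x + star y * y) n := fun x y n =>
    add_nonneg (star_mul_self_nonneg (x n)) (star_mul_self_nonneg (y n))
  refine ⟨{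
    q := L
    nonneg := fun x => ge_of_tendsto' (hconv _ (hs x)) fun n => (Q n).q_nonneg (hs x n)
    one := tendsto_nhds_unique (hconv 1 fun _ => zero_le_one)
      (tendsto_const_nhds.congr fun n => ((Q n).one).symm)
    smul := fun r x hr => tendsto_nhds_unique
      (hconv _ fun n => smul_nonneg hr (star_mul_self_nonneg (x n)))
      (((hconv _ (hs x)).const_mul r).congr fun n => ((Q n).smul r (x n) hr).symm)
    swap := fun x => tendsto_nhds_unique (hconv _ (hs x))
      ((hconv _ fun n => mul_star_self_nonneg (x n)).congr fun n => ((Q n).swap (x n)).symm)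
    mono := fun x y => le_of_tendsto_of_tendsto' (hconv _ (hs x)) (hconv _ (hs' x y))
      fun n => (Q n).mono (x n) (y n)
    orth := fun x y h => tendsto_nhds_unique (hconv _ (hs' x y))
      (((hconv _ (hs x)).add (hconv _ (hs y))).congr fun n =>
        ((Q n).orth (x n) (y n) (DFunLike.congr_fun h n)).symm)
    tri := fun x y t ht => le_of_tendsto_of_tendsto' (hconv _ (hs' x y))
      (((hconv _ (hs x)).const_mul _).add ((hconv _ (hs y)).const_mul _))
      fun n => (Q n).tri (x n) (y n) t ht }, fun a => hconv _ (hs a)⟩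

end QT

/-- Module Linear. -/
theorem linear_ok : LinearStatement.{u} := by
  refine ⟨fun D _ Q a b ha hb hab => ?_, fun D _ U Q => ?_, fun D _ Q M _ hM => ?_⟩
  · let := CStarAlgebra.spectralOrder D
    have := CStarAlgebra.spectralOrderedRing D
    exact Q.qs_add_of_null ha hb hab
  · let := CStarAlgebra.spectralOrder D
    have := CStarAlgebra.spectralOrderedRing D
    exact QT.exists_limit U Q
  · let := CStarAlgebra.spectralOrder D
    have := CStarAlgebra.spectralOrderedRing D
    exact Q.exists_state M hM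

end Vale.Agent.P095.General
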