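import Vale.Agent.P095.General.Pair.Trace
import Vale.Agent.P095.General.Pair.McDuff
import Vale.Agent.P095.General.Pair.Nil

/-!
Module Pair: almost invariant elements of square zero, bounded below in all quasitracial states.
-/

noncomputable section

open Finset
open scoped CStarAlgebra

namespace Vale.Agent.P095.General

open Vale.Agent.P101

universe u v

lemma QT.sq_sum_le {D : Type u} [CStarAlgebra D] [PartialOrder D] [StarOrderedRing D] (Q : QT D)
    {ι : Type*} (s : Finset ι) (f : ι → D) {η : ℝ} (hη : 0 ≤ η) (h : ∀ i ∈ s, Q.sq (f i) ≤ η) :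
    Q.sq (∑ i ∈ s, f i) ≤ 8 ^ s.card * η := by
  classical
  induction s using Finset.induction_on with
  | empty => simp [QT.sq_eq, Q.q_zero, hη]
  | insert a t ha ih =>
    rw [sum_insert ha, card_insert_of_notMem ha, pow_succ]
    have h1 := h a (mem_insert_self a t)
    have h2 := ih fun i hi => h i (mem_insert_of_mem hi)
    have h3 : (1 : ℝ) ≤ 8 ^ t.card := one_le_pow₀ (by norm_num)
    have := Q.sq_add_four (f a) (∑ i ∈ t, f i)
    nlinarith

/-- Averaged elements over a Folner set are almost invariant in norm. -/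
lemma norm_act_mean_sub_le {G : Type v} [Group G] {D : Type u} [CStarAlgebra D]
    {act : G → D ≃⋆ₐ[ℂ] D} (hact : ∀ g h x, act (g * h) x = act g (act h x)) {x : D}
    (hx : ‖x‖ ≤ 1) (P : Finset G) {h : G} {r : ℝ}
    (hr : (Set.ncard (((h * ·) '' (P : Set G)) \ (P : Set G)) : ℝ) ≤ r * P.card) (hP : P.Nonempty) :
    ‖act h ((P.card : ℝ)⁻¹ • ∑ g ∈ P, act g x) - (P.card : ℝ)⁻¹ • ∑ g ∈ P, act g x‖ ≤ 2 * r := by
  classical
  set R := P.image (h * ·) with hR
  have hinj : Function.Injective (h * ·) := mul_right_injective h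
  have hcard : R.card = P.card := card_image_of_injective P hinj
  have hd : ((R \ P).card : ℝ) ≤ r * P.card := by
    rw [← Set.ncard_coe_finset, coe_sdiff, hR, coe_image]
    exact hr
  have hd' : (P \ R).card = (R \ P).card := by
    have := card_sdiff_add_card P R
    have := card_sdiff_add_card R P
    rw [union_comm] at this
    omega
  have e : act h (∑ g ∈ P, act g x) - ∑ g ∈ P, act g x =
      (∑ g ∈ R \ P, act g x) - ∑ g ∈ P \ R, act g x := by
    rw [map_sum, sum_congr rfl fun g _ => (hact h g x).symm,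
      ← sum_image (f := fun g => act g x) fun a _ b _ e => hinj e, ← hR]
    rw [sum_sdiff_sub_sum_sdiff]
  have hb : ∀ s : Finset G, ‖∑ g ∈ s, act g x‖ ≤ s.card := fun s =>
    (norm_sum_le _ _).trans ((sum_le_card_nsmul _ _ 1 fun g _ =>
      (norm_act _ x).trans_le hx).trans (le_of_eq (by simp)))
  have hP0 : (0 : ℝ) < P.card := by exact_mod_cast hP.card_pos
  have hs : act h ((P.card : ℝ)⁻¹ • ∑ g ∈ P, act g x) =
      (P.card : ℝ)⁻¹ • act h (∑ g ∈ P, act g x) := by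
    rw [← Complex.coe_smul, map_smul, Complex.coe_smul]
  rw [hs, ← smul_sub, norm_smul, norm_inv,
    Real.norm_of_nonneg hP0.le, inv_mul_le_iff₀ hP0, e]
  refine (norm_sub_le _ _).trans ((add_le_add (hb _) (hb _)).trans ?_)
  rw [hd']
  linarith

/-- Module Pair. -/
theorem pair_ok : LinearStatement.{u} → FairStatement.{u, v} → PairStatement.{u, v} := by
  intro _ hfair
  refine ⟨1 / 256, by norm_num, fun G _ _ hG D _ sys E ε hε => ?_⟩
  classical
  let := CStarAlgebra.spectralOrder D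
  have := CStarAlgebra.spectralOrderedRing D
  obtain ⟨e₁, he₁, hmod₁⟩ := exists_cfc_modulus.{u} Nil.posf (by unfold Nil.posf; fun_prop)
    (show (0 : ℝ) < ε / 3 by positivity)
  obtain ⟨e₂, he₂, hmod₂⟩ := exists_cfc_modulus.{u} Nil.negf (by unfold Nil.negf; fun_prop)
    (show (0 : ℝ) < ε / 3 by positivity)
  set e₀ := min (min e₁ e₂) (ε / 3) with he₀
  have he0 : 0 < e₀ := lt_min (lt_min he₁ he₂) (by positivity)
  obtain ⟨P, hP, hF⟩ := hG E (e₀ / 2) (by positivity)
  set ζ : ℝ := 1 / 2000000 with hζ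
  set η₀ : ℝ := ζ / 8 ^ P.card with hη₀
  have hη0 : 0 < η₀ := by positivity
  have hη1 : η₀ ≤ ζ := div_le_self (by positivity) (one_le_pow₀ (by norm_num))
  obtain ⟨x₀, z₀, hx₀, hz₀, hx₀n, hz₀n, hw⟩ := sys.exists_trace_pair hG P
    (show 0 < η₀ / 256 by positivity)
  let L : List D := [x₀ * x₀ - 1, z₀ * z₀ - 1, x₀ * z₀ + z₀ * x₀] ++
    (P.toList.map fun h => sys.act h x₀ - x₀) ++ (P.toList.map fun h => sys.act h z₀ - z₀)
  have hS : ∀ w : {w // w ∈ L}, ∃ S : Set D, S.Countable ∧ ∀ S' : Set D, S'.Countable → S ⊆ S' →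
      ∀ σ : ↥(gen sys.act S') →ₗ[ℂ] ℂ, IsTr σ → ∀ a' : ↥(gen sys.act S'),
        (a' : D) = star w.1 * w.1 → (σ a').re ≤ η₀ / 128 := fun w =>
    exists_countable_trace_le sys.act _ (by linarith) fun τ hτ => hw τ hτ w.1 w.2
  choose S₁ hS₁c hS₁ using hS
  set S : Set D := {x₀, z₀} ∪ ⋃ w, S₁ w with hSdef
  have : Countable {w // w ∈ L} := L.finite_toSet.countable.to_subtype
  have hSc : S.Countable := ((Set.countable_singleton z₀).insert x₀).union (Set.countable_iUnion hS₁c)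
  obtain ⟨c, hequiv, -, -⟩ := sys.exists_copies S hSc
  let xB : ↥(gen sys.act S) := ⟨x₀, subset_gen (Or.inl (Or.inl rfl))⟩
  let zB : ↥(gen sys.act S) := ⟨z₀, subset_gen (Or.inl (Or.inr rfl))⟩
  let κ := Fin 3 ⊕ (↥P ⊕ ↥P)
  let wB : κ → ↥(gen sys.act S) := Sum.elim ![xB * xB - 1, zB * zB - 1, xB * zB + zB * xB]
    (Sum.elim (fun h => genAct sys.act_mul S h xB - xB) fun h => genAct sys.act_mul S h zB - zB)
  have hwL : ∀ i, (wB i : D) ∈ L := by
    intro i
    simp only [L, List.mem_append, List.mem_cons, List.not_mem_nil, or_false, List.mem_map,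
      Finset.mem_toList]
    rcases i with i | h | h
    · left; left
      fin_cases i
      · exact Or.inl rfl
      · exact Or.inr (Or.inl rfl)
      · exact Or.inr (Or.inr rfl)
    · exact Or.inl (Or.inr ⟨h, h.2, rfl⟩)
    · exact Or.inr ⟨h, h.2, rfl⟩
  have hN : ∀ i, ∃ N : ℕ, ∀ n, N ≤ n → ∀ Q : QT D,
      ((n : ℝ) + 1)⁻¹ * ∑ j ∈ range (n + 1), Q.sq (c.hom j (wB i)) ≤ η₀ / 128 + η₀ / 128 :=
    fun i => exists_copies_avg c (wB i) (by positivity) fun σ hσ =>
      hS₁ ⟨_, hwL i⟩ S hSc (Set.subset_union_of_subset_right (Set.subset_iUnion S₁ _) _) σ hσ _ rfl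
  choose N hN using hN
  set l := univ.sup N with hl
  let f : ↥(gen sys.act S) →ₗ[ℂ] (ℕ → D) :=
    LinearMap.pi fun j => (c.hom j).toAlgHom.toLinearMap
  have hf : ∀ a j, f a j = c.hom j a := fun a j => rfl
  let F : Finset (ℕ → D) := {f xB, f zB} ∪ univ.image fun i => f (wB i)
  have hwn : ∀ i, ‖wB i‖ ≤ 2 := by
    intro i
    have h1 : ‖(1 : D)‖ ≤ 1 := by
      rcases subsingleton_or_nontrivial D with h | h
      · simp [Subsingleton.elim (1 : D) 0]
      · exact CStarRing.norm_one.le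
    have hm : ∀ a b : D, ‖a‖ ≤ 1 → ‖b‖ ≤ 1 → ‖a * b‖ ≤ 1 := fun a b ha hb =>
      (norm_mul_le a b).trans (mul_le_one₀ ha (norm_nonneg b) hb)
    have hs : ∀ a b : D, ‖a‖ ≤ 1 → ‖b‖ ≤ 1 → ‖a - b‖ ≤ 2 := fun a b ha hb => by
      linarith [norm_sub_le a b]
    have := hm x₀ x₀ hx₀n hx₀n
    rcases i with i | h | h
    · fin_cases i
      · exact hs _ _ (hm _ _ hx₀n hx₀n) h1
      · exact hs _ _ (hm _ _ hz₀n hz₀n) h1
      · refine (norm_add_le _ _).trans ?_
        have := hm x₀ z₀ hx₀n hz₀n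
        have := hm z₀ x₀ hz₀n hx₀n
        show ‖x₀ * z₀‖ + ‖z₀ * x₀‖ ≤ 2
        linarith
    · exact hs _ _ ((norm_act _ x₀).trans_le hx₀n) hx₀n
    · exact hs _ _ ((norm_act _ z₀).trans_le hz₀n) hz₀n
  have hcn : ∀ j a, ‖c.hom j a‖ ≤ ‖a‖ := fun j a => NonUnitalStarAlgHom.norm_apply_le (c.hom j) a
  have hFK : ∀ g ∈ F, ∀ j, ‖g j‖ ≤ (2 : ℝ) := by
    intro g hg j
    simp only [F, mem_union, mem_insert, mem_singleton, mem_image, mem_univ, true_and] at hg
    rcases hg with (rfl | rfl) | ⟨i, rfl⟩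
    · exact (hcn j xB).trans (le_trans hx₀n one_le_two)
    · exact (hcn j zB).trans (le_trans hz₀n one_le_two)
    · exact (hcn j _).trans (hwn i)
  obtain ⟨M⟩ := exists_mixMap hfair hG sys one_le_two l F hFK P (η₀ / 256) (by positivity)
  have hxF : f xB ∈ F := by simp [F]
  have hzF : f zB ∈ F := by simp [F]
  have hwF : ∀ i, f (wB i) ∈ F := fun i => by simp [F]
  set x := M.map (f xB) with hxdef
  set z := M.map (f zB) with hzdef
  have hxs : IsSelfAdjoint x := M.sa _ hxF fun j =>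
    (show IsSelfAdjoint xB from Subtype.ext hx₀).map (c.hom j)
  have hzs : IsSelfAdjoint z := M.sa _ hzF fun j =>
    (show IsSelfAdjoint zB from Subtype.ext hz₀).map (c.hom j)
  have hxn : ‖x‖ ≤ 1 := M.norm_le _ hxF 1 zero_le_one one_le_two fun j => (hcn j xB).trans hx₀n
  have hzn : ‖z‖ ≤ 1 := M.norm_le _ hzF 1 zero_le_one one_le_two fun j => (hcn j zB).trans hz₀n
  have havg : ∀ i, ∀ Q : QT D, Q.sq (M.map (f (wB i))) ≤ η₀ / 32 := by
    intro i Q
    refine (M.avg _ (hwF i) Q).trans ?_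
    have h1 : 1 ≤ 2 ^ l := Nat.one_le_two_pow
    have h2 : N i ≤ 2 ^ l - 1 := by
      have := le_sup (f := N) (mem_univ i)
      have := Nat.lt_two_pow_self (n := l)
      omega
    have h3 := hN i _ h2 Q
    rw [Nat.sub_add_cancel h1, Nat.cast_sub h1, Nat.cast_one, sub_add_cancel] at h3
    simp only [hf]
    linarith
  have hfmul : ∀ a b, f a * f b = f (a * b) := fun a b => by
    ext j; simp [hf]
  have hf1 : f 1 = 1 := by ext j; simp [hf]
  have hmul : ∀ a b, f a ∈ F → f b ∈ F → ∀ Q : QT D,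
      Q.sq (M.map (f a) * M.map (f b) - M.map (f (a * b))) ≤ η₀ / 256 := fun a b ha hb Q => by
    rw [← hfmul]
    exact M.mul _ ha _ hb Q
  have hsq : ∀ (a : ↥(gen sys.act S)) (i : κ), f a ∈ F → wB i = a * a - 1 → ∀ Q : QT D,
      Q.sq (M.map (f a) * M.map (f a) - 1) ≤ η₀ := by
    intro a i ha hi Q
    have e : M.map (f a) * M.map (f a) - 1 =
        ((M.map (f a) * M.map (f a) - M.map (f (a * a))) + M.map (f (wB i))) + (M.map 1 - 1) := by
      rw [hi, map_sub f, map_sub M.map, hf1]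
      abel
    rw [e]
    have := Q.sq_add_four ((M.map (f a) * M.map (f a) - M.map (f (a * a))) + M.map (f (wB i)))
      (M.map 1 - 1)
    have := Q.sq_add_four (M.map (f a) * M.map (f a) - M.map (f (a * a))) (M.map (f (wB i)))
    linarith [hmul a a ha ha Q, havg i Q, M.one Q]
  have hxz : ∀ Q : QT D, Q.sq (x * z + z * x) ≤ η₀ := by
    intro Q
    have e : x * z + z * x = ((x * z - M.map (f (xB * zB))) + (z * x - M.map (f (zB * xB)))) +
        M.map (f (wB (Sum.inl 2))) := by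
      rw [show wB (Sum.inl 2) = xB * zB + zB * xB from rfl, map_add f, map_add M.map]
      abel
    rw [e]
    have := Q.sq_add_four ((x * z - M.map (f (xB * zB))) + (z * x - M.map (f (zB * xB))))
      (M.map (f (wB (Sum.inl 2))))
    have := Q.sq_add_four (x * z - M.map (f (xB * zB))) (z * x - M.map (f (zB * xB)))
    linarith [hmul xB zB hxF hzF Q, hmul zB xB hzF hxF Q, havg (Sum.inl 2) Q]
  have hinv : ∀ (a : ↥(gen sys.act S)) (h : ↥P) (i : κ), f a ∈ F →
      wB i = genAct sys.act_mul S h a - a → ∀ Q : QT D,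
        Q.sq (sys.act h (M.map (f a)) - M.map (f a)) ≤ η₀ := by
    intro a h i ha hi Q
    have hh : (fun j => sys.act h (f a j)) = f (genAct sys.act_mul S h a) :=
      funext fun j => (hequiv j h a).symm
    have h1 := M.inv h h.2 _ ha Q
    rw [hh] at h1
    have e : sys.act h (M.map (f a)) - M.map (f a) =
        (sys.act h (M.map (f a)) - M.map (f (genAct sys.act_mul S h a))) + M.map (f (wB i)) := by
      rw [hi, map_sub f, map_sub M.map]
      abel
    rw [e]
    have := Q.sq_add_four (sys.act h (M.map (f a)) - M.map (f (genAct sys.act_mul S h a)))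
      (M.map (f (wB i)))
    linarith [havg i Q]
  set X : D := (P.card : ℝ)⁻¹ • ∑ g ∈ P, sys.act g x with hX
  set Z : D := (P.card : ℝ)⁻¹ • ∑ g ∈ P, sys.act g z with hZ
  have hP0 : (0 : ℝ) < P.card := by exact_mod_cast hP.card_pos
  have hmean : ∀ y : D, IsSelfAdjoint y → ‖y‖ ≤ 1 →
      IsSelfAdjoint ((P.card : ℝ)⁻¹ • ∑ g ∈ P, sys.act g y) ∧
      ‖(P.card : ℝ)⁻¹ • ∑ g ∈ P, sys.act g y‖ ≤ 1 := fun y hy hyn => by
    refine ⟨(IsSelfAdjoint.all _).smul (isSelfAdjoint_sum _ fun g _ => hy.map (sys.act g)), ?_⟩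
    rw [norm_smul, norm_inv, Real.norm_of_nonneg hP0.le, inv_mul_le_one₀ hP0]
    exact (norm_sum_le _ _).trans ((sum_le_card_nsmul _ _ 1 fun g _ =>
      (norm_act _ y).trans_le hyn).trans (le_of_eq (by simp)))
  obtain ⟨hXs, hXn⟩ := hmean x hxs hxn
  obtain ⟨hZs, hZn⟩ := hmean z hzs hzn
  have hclose : ∀ y : D, (∀ g : ↥P, ∀ Q : QT D, Q.sq (sys.act g y - y) ≤ η₀) → ∀ Q : QT D,
      Q.sq ((P.card : ℝ)⁻¹ • (∑ g ∈ P, sys.act g y) - y) ≤ ζ := by
    intro y hy Q
    have e : (P.card : ℝ)⁻¹ • (∑ g ∈ P, sys.act g y) - y =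
        (P.card : ℝ)⁻¹ • ∑ g ∈ P, (sys.act g y - y) := by
      rw [sum_sub_distrib, smul_sub, sum_const, ← Nat.cast_smul_eq_nsmul ℝ, smul_smul,
        inv_mul_cancel₀ hP0.ne', one_smul]
    rw [e, Q.sq_real_smul]
    refine (mul_le_of_le_one_left (Q.sq_nonneg _) (pow_le_one₀ (by positivity)
      (inv_le_one_of_one_le₀ (by exact_mod_cast hP.card_pos)))).trans ?_
    refine (Q.sq_sum_le P _ hη0.le fun g hg => hy ⟨g, hg⟩ Q).trans (le_of_eq ?_)
    rw [hη₀, mul_div_cancel₀ _ (by positivity)]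
  have hXx : ∀ Q : QT D, Q.sq (X - x) ≤ ζ :=
    hclose x fun g => hinv xB g (Sum.inr (Sum.inl g)) hxF rfl
  have hZz : ∀ Q : QT D, Q.sq (Z - z) ≤ ζ :=
    hclose z fun g => hinv zB g (Sum.inr (Sum.inr g)) hzF rfl
  refine ⟨Nil.nil X Z, Nil.norm_nil_le hXn hZn, Nil.nil_sq X Z, fun g hg => ?_, fun Q => ?_⟩
  · have hXi : ‖sys.act g X - X‖ ≤ e₀ :=
      (norm_act_mean_sub_le sys.act_mul hxn P (hF g hg) hP).trans (le_of_eq (by ring))
    have hZi : ‖sys.act g Z - Z‖ ≤ e₀ :=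
      (norm_act_mean_sub_le sys.act_mul hzn P (hF g hg) hP).trans (le_of_eq (by ring))
    have hgXs : IsSelfAdjoint (sys.act g X) := hXs.map (sys.act g)
    have hgXn : ‖sys.act g X‖ ≤ 1 := (norm_act _ X).trans_le hXn
    have hgZn : ‖sys.act g Z‖ ≤ 1 := (norm_act _ Z).trans_le hZn
    have hc1 : Continuous Nil.posf := by unfold Nil.posf; fun_prop
    have hc2 : Continuous Nil.negf := by unfold Nil.negf; fun_prop
    have e : sys.act g (Nil.nil X Z) = Nil.nil (sys.act g X) (sys.act g Z) := by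
      simp only [Nil.nil, map_mul]
      rw [StarAlgHomClass.map_cfc (R := ℝ) (S := ℂ) (sys.act g) Nil.posf X hc1.continuousOn
          (continuous_act _) hXs hgXs,
        StarAlgHomClass.map_cfc (R := ℝ) (S := ℂ) (sys.act g) Nil.negf X hc2.continuousOn
          (continuous_act _) hXs hgXs]
    have m1 := hmod₁ D _ _ hgXs hXs hgXn hXn
      (hXi.trans ((min_le_left _ _).trans (min_le_left _ _)))
    have m2 := hmod₂ D _ _ hgXs hXs hgXn hXn
      (hXi.trans ((min_le_left _ _).trans (min_le_right _ _)))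
    obtain ⟨p1, q1⟩ := Nil.norm_part_le hgXn
    obtain ⟨p2, q2⟩ := Nil.norm_part_le hXn
    rw [e, Nil.nil, Nil.nil]
    set a := cfc Nil.posf (sys.act g X)
    set a' := cfc Nil.posf X
    set b := cfc Nil.negf (sys.act g X)
    set b' := cfc Nil.negf X
    set w := sys.act g Z
    have e2 : a * w * b - a' * Z * b' =
        (a - a') * w * b + a' * (w - Z) * b + a' * Z * (b - b') := by noncomm_ring
    rw [e2]
    refine norm_add₃_le.trans ?_
    have h1 : ∀ u v t : D, ‖u * v * t‖ ≤ ‖u‖ * ‖v‖ * ‖t‖ := fun u v t => norm_mul₃_le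
    have t1 := h1 (a - a') w b
    have t2 := h1 a' (w - Z) b
    have t3 := h1 a' Z (b - b')
    have hZ3 : ‖w - Z‖ ≤ ε / 3 := hZi.trans (min_le_right _ _)
    have u1 : ‖a - a'‖ * ‖w‖ * ‖b‖ ≤ ε / 3 :=
      ((mul_le_of_le_one_right (by positivity) q1).trans
        (mul_le_of_le_one_right (norm_nonneg _) hgZn)).trans m1
    have u2 : ‖a'‖ * ‖w - Z‖ * ‖b‖ ≤ ε / 3 :=
      ((mul_le_of_le_one_right (by positivity) q1).trans
        (mul_le_of_le_one_left (norm_nonneg _) p2)).trans hZ3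
    have u3 : ‖a'‖ * ‖Z‖ * ‖b - b'‖ ≤ ε / 3 :=
      (mul_le_of_le_one_left (norm_nonneg _) (mul_le_one₀ p2 (norm_nonneg _) hZn)).trans m2
    linarith
  have hsqX : ∀ (y Y : D), ‖y‖ ≤ 1 → ‖Y‖ ≤ 1 → Q.sq (Y - y) ≤ ζ → Q.sq (y * y - 1) ≤ η₀ →
      Q.sq (Y * Y - 1) ≤ 100 * ζ := by
    intro y Y hy hY hd hs
    have e : Y * Y - 1 = (Y * (Y - y) + (Y - y) * y) + (y * y - 1) := by noncomm_ring
    rw [e]
    have := Q.sq_add_four (Y * (Y - y) + (Y - y) * y) (y * y - 1)
    have := Q.sq_add_four (Y * (Y - y)) ((Y - y) * y)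
    have h1 := Q.sq_left_le hY (Y - y)
    have h2 := Q.sq_right_le hy (Y - y)
    simp only [one_pow, one_mul] at h1 h2
    linarith [show (0 : ℝ) ≤ ζ from le_trans hη0.le hη1]
  refine Nil.sq_nil_ge Q hXs hZs hXn hZn (ζ := 500 * ζ) (by rw [hζ]; norm_num) ?_ ?_ ?_
  · exact (hsqX x X hxn hXn (hXx Q) (hsq xB (Sum.inl 0) hxF rfl Q)).trans (by rw [hζ]; norm_num)
  · exact (hsqX z Z hzn hZn (hZz Q) (hsq zB (Sum.inl 1) hzF rfl Q)).trans (by rw [hζ]; norm_num)
  have e : X * Z + Z * X = (x * z + z * x) +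
      (((X - x) * Z + x * (Z - z)) + ((Z - z) * X + z * (X - x))) := by noncomm_ring
  rw [e]
  have a1 := Q.sq_right_le hZn (X - x)
  have a2 := Q.sq_left_le hxn (Z - z)
  have a3 := Q.sq_right_le hXn (Z - z)
  have a4 := Q.sq_left_le hzn (X - x)
  simp only [one_pow, one_mul] at a1 a2 a3 a4
  have := Q.sq_add_four (x * z + z * x)
    (((X - x) * Z + x * (Z - z)) + ((Z - z) * X + z * (X - x)))
  have := Q.sq_add_four ((X - x) * Z + x * (Z - z)) ((Z - z) * X + z * (X - x))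
  have := Q.sq_add_four ((X - x) * Z) (x * (Z - z))
  have := Q.sq_add_four ((Z - z) * X) (z * (X - x))
  linarith [hxz Q, hXx Q, hZz Q]

end Vale.Agent.P095.General
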