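import Mathlib
import Vale.Agent.P095.General.Defs
import Vale.Agent.P095.General.Sector.Limit
import Vale.Agent.P095.WeightsMain

/-!
Module Sector of P095 General: averaging over sectors turns a partial isometry between exactly
invariant frames into an almost invariant one.
-/

noncomputable section

open Finset
open scoped ComplexConjugate

namespace Vale.Agent.P095.General

open Sector

universe u v

/-- The scalar estimates for the weights along injective maps of indices. -/
lemma Sector.exists_coeff (P : Type v) [Fintype P] [DecidableEq P] [Nonempty P] (σ : ℝ)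
    (hσ : 0 < σ) :
    ∃ (n : ℕ) (p : P → Poly P), 2 ≤ n ∧ err n ≤ 1 ∧
      ∀ (ι : Type v) [Fintype ι] [DecidableEq ι] (j₁ j₂ : P → ι),
        Function.Injective j₁ → Function.Injective j₂ →
        ∀ κ : ι → ι → ℂ, IsKer κ →
          ‖form n κ (coeff n j₁ p) - 1‖ ≤ 3 * σ ∧
          ‖form n κ (coeff n j₁ p - coeff n j₂ p)‖ ≤
            2 * ((Set.ncard (symmDiff (Set.range j₁) (Set.range j₂)) : ℝ) / Fintype.card P + σ) := by
  obtain ⟨p, hp1, hp2⟩ := weights_ok P σ hσ
  choose C hC hCb using fun a => exists_evR_bound (p a)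
  set B : ℝ := ∑ a, C a with hB
  refine ⟨⌈(1 + B ^ 2) / σ⌉₊ + 2, p, by omega, ?_, ?_⟩
  · rw [err]
    exact inv_le_one_of_one_le₀ (by push_cast; linarith [Nat.cast_nonneg (α := ℝ) ⌈(1 + B ^ 2) / σ⌉₊])
  intro ι _ _ j₁ j₂ hj₁ hj₂ κ hκ
  set n := ⌈(1 + B ^ 2) / σ⌉₊ + 2 with hn
  have hn2 : 2 ≤ n := by omega
  have he := err_nonneg hn2
  have he1 : err n ≤ 1 := by
    rw [err, hn]
    exact inv_le_one_of_one_le₀ (by push_cast; linarith [Nat.cast_nonneg (α := ℝ) ⌈(1 + B ^ 2) / σ⌉₊])
  have heB : err n * (1 + B ^ 2) ≤ σ := by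
    have h1 : (1 + B ^ 2) / σ ≤ (n : ℝ) - 1 := by
      have := Nat.le_ceil ((1 + B ^ 2) / σ)
      rw [hn]; push_cast; linarith
    have hpos : (0 : ℝ) < (n : ℝ) - 1 := lt_of_lt_of_le (by positivity) h1
    rw [div_le_iff₀ hσ] at h1
    rw [err, inv_mul_le_iff₀ hpos]
    linarith
  have hD := kpp_mem_Dom hn2 hκ
  let u : (P → ι) → P → ℝ := fun j a => evR (fun s t => kpp n κ (j s) (j t)) (p a)
  have hu : ∀ j a, |u j a| ≤ C a := fun j a => hCb a _ fun s t => by
    rw [abs_of_nonneg (hD.2.1 _ _)]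
    exact le_one_of_mem_Dom hD _ _
  have hsum : ∀ j, |∑ k, push j (u j) k| ≤ B := fun j => by
    have e : ∑ k, push j (u j) k = ∑ a, u j a := by
      simpa using sum_push_mul j (u j) fun _ => (1 : ℝ)
    rw [e]
    exact (abs_sum_le_sum_abs _ _).trans (sum_le_sum fun a _ => hu j a)
  have hform : ∀ c : ι → FreeAlgebra ℂ (ι × ι), ∀ t : ι → ℝ, (∀ k, evC κ (c k) = (t k : ℂ)) →
      form n κ c = (fquad n κ t : ℂ) := fun c t ht => by
    simp only [form, ht]
    exact sum_conj_fej_eq hκ n t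
  constructor
  · rw [hform _ (push j₁ (u j₁)) fun k => evC_coeff hκ n j₁ p k, ← Complex.ofReal_one,
      ← Complex.ofReal_sub, Complex.norm_real, Real.norm_eq_abs]
    have h1 := hp1 _ (pull_mem_Dom hD j₁)
    rw [← quad_push] at h1
    have h1 : |quad (kpp n κ) (push j₁ (u j₁)) - 1| ≤ σ := h1
    have hq := quad_kpp hn2 κ (push j₁ (u j₁))
    have hs : (∑ k, push j₁ (u j₁) k) ^ 2 ≤ B ^ 2 :=
      sq_le_sq' (abs_le.1 (hsum j₁)).1 (abs_le.1 (hsum j₁)).2
    have h2 : |(1 + err n) * (quad (kpp n κ) (push j₁ (u j₁)) - 1)| ≤ 2 * σ := by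
      rw [abs_mul, abs_of_nonneg (by linarith : 0 ≤ 1 + err n)]
      exact mul_le_mul (by linarith) h1 (abs_nonneg _) zero_le_two
    rw [abs_le] at h2 ⊢
    have := mul_nonneg he (sq_nonneg (∑ k, push j₁ (u j₁) k))
    constructor <;> nlinarith [mul_le_mul_of_nonneg_left hs he]
  · rw [hform _ (push j₁ (u j₁) - push j₂ (u j₂)) fun k => by
      simp only [Pi.sub_apply, map_sub, Complex.ofReal_sub, evC_coeff hκ n, u]]
    rw [Complex.norm_real, Real.norm_of_nonneg (fquad_nonneg hκ n _)]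
    have h2 := hp2 ι j₁ j₂ hj₁ hj₂ _ hD
    have hq := quad_kpp hn2 κ (push j₁ (u j₁) - push j₂ (u j₂))
    have h3 : quad (kpp n κ) (push j₁ (u j₁) - push j₂ (u j₂)) ≤
        (Set.ncard (symmDiff (Set.range j₁) (Set.range j₂)) : ℝ) / Fintype.card P + σ := h2
    have h4 : 0 ≤ quad (kpp n κ) (push j₁ (u j₁) - push j₂ (u j₂)) := hD.2.2.2 _
    have := mul_nonneg he (sq_nonneg (∑ k, (push j₁ (u j₁) - push j₂ (u j₂)) k))
    nlinarith

lemma Sector.Data.sv_coeff {D : Type u} [CStarAlgebra D] {M : ℕ} {ι P : Type v} [Fintype ι]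
    [DecidableEq ι] [Fintype P] (d : Sector.Data D M ι) (n : ℕ) (j : P → ι) (p : P → Poly P) :
    d.sv n (coeff n j p) = ∑ a, d.vec n (j a) * d.evK (subst n j (p a)) * d.C := by
  simp only [Sector.Data.sv, coeff, map_sum, mul_sum, sum_mul]
  rw [sum_comm]
  refine sum_congr rfl fun a _ => ?_
  rw [sum_eq_single (j a)]
  · rw [if_pos rfl]
  · intro k _ hk
    rw [if_neg hk.symm, map_zero, mul_zero, zero_mul]
  · simp

/-- Module Sector. -/
theorem sector_ok : SectorStatement.{u, v} := by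
  classical
  intro G _ _ hG E ε hε
  set ε' : ℝ := min ε 1 with hε'
  have hε0 : 0 < ε' := lt_min hε zero_lt_one
  set σ : ℝ := ε' ^ 2 / 8 with hσ
  have hσ0 : 0 < σ := by positivity
  obtain ⟨P, hP, hF⟩ := hG E (σ / 2) (half_pos hσ0)
  have : Nonempty ↥P := hP.coe_sort
  obtain ⟨n, p, hn, -, hb⟩ := Sector.exists_coeff ↥P σ hσ0
  let Q : Finset G := P ∪ E.biUnion fun h => P.image (h * ·)
  let j₀ : ↥P → ↥Q := fun a => ⟨a, mem_union_left _ a.2⟩
  let jt : ↥E → ↥P → ↥Q := fun h a => ⟨h * a, mem_union_right _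
    (mem_biUnion.2 ⟨h, h.2, mem_image_of_mem _ a.2⟩)⟩
  have hj₀ : Function.Injective j₀ := fun a b h => Subtype.ext (by have e := congrArg Subtype.val h; exact e)
  have hjt : ∀ h, Function.Injective (jt h) := fun h a b e =>
    Subtype.ext (mul_left_cancel (congrArg Subtype.val e))
  obtain ⟨M₁, hM₁⟩ := sector_large.{u, v} n hn (coeff n j₀ p) 1
    (by positivity : (0 : ℝ) ≤ 3 * σ) hσ0
    fun κ hκ => (hb ↥Q j₀ j₀ hj₀ hj₀ κ hκ).1
  have hsd : ∀ h : ↥E, (Set.ncard (symmDiff (Set.range (jt h)) (Set.range j₀)) : ℝ) /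
      Fintype.card ↥P ≤ σ := by
    intro h
    have hc1 : (Set.range (jt h)).ncard = P.card := by
      rw [Set.ncard_range_of_injective (hjt h), Nat.card_eq_fintype_card, Fintype.card_coe]
    have hc0 : (Set.range j₀).ncard = P.card := by
      rw [Set.ncard_range_of_injective hj₀, Nat.card_eq_fintype_card, Fintype.card_coe]
    have he : (Set.range j₀ \ Set.range (jt h)).ncard = (Set.range (jt h) \ Set.range j₀).ncard :=
      (Set.ncard_eq_ncard_iff_ncard_sdiff_eq_ncard_sdiff (Set.toFinite _) (Set.toFinite _)).1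
        (hc0.trans hc1.symm)
    have hi : Subtype.val '' (Set.range (jt h) \ Set.range j₀) =
        ((((h : G) * ·) '' (P : Set G)) \ (P : Set G)) := by
      rw [Set.image_sdiff Subtype.val_injective, ← Set.range_comp, ← Set.range_comp]
      congr 1
      · ext x
        exact ⟨fun ⟨a, ha⟩ => ⟨a, a.2, ha⟩, fun ⟨a, ha, e⟩ => ⟨⟨a, ha⟩, e⟩⟩
      · ext x; simp [j₀]
    have h1 : ((Set.range (jt h) \ Set.range j₀).ncard : ℝ) ≤ σ / 2 * P.card := by
      rw [← Set.ncard_image_of_injective _ Subtype.val_injective, hi]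
      exact hF h h.2
    rw [Set.symmDiff_def, Fintype.card_coe, div_le_iff₀ (by exact_mod_cast hP.card_pos)]
    refine le_trans (Nat.cast_le.2 (Set.ncard_union_le _ _)) ?_
    push_cast
    rw [he]
    linarith
  choose M₂ hM₂ using fun h : ↥E => sector_large.{u, v} n hn (coeff n (jt h) p - coeff n j₀ p) 0
    (by positivity : (0 : ℝ) ≤ 4 * σ) hσ0 fun κ hκ => by
      rw [sub_zero]
      refine ((hb ↥Q (jt h) j₀ (hjt h) hj₀ κ hκ).2).trans ?_
      linarith [hsd h]
  set M := max (M₁ + 1) (univ.sup M₂) with hM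
  refine ⟨M, lt_of_lt_of_le M₁.succ_pos (le_max_left _ _), ?_⟩
  intro D _ act hact b o q v C hfix hCsa hC hsa hrel hcomm
  have hCq : ∀ k, C * q k = 0 := fun k => by
    have := congrArg star (hrel k).2.2.2.2.2.2.2
    rwa [star_mul, (hsa k).2.2.1.star_eq, hCsa.star_eq, star_zero] at this
  let d : Sector.Data D M ↥Q :=
    { B := fun i k => act k (v i)
      b := b
      o := o
      C := C
      b_sa := fun i => (hsa i).1
      o_sa := fun i => (hsa i).2.1
      C_sa := hCsa
      C_norm := hC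
      b_norm := fun i => (hsa i).2.2.2.1
      BB := fun i k => by
        rw [← map_star, ← map_mul, (hrel i).1, map_mul, (hfix k i).1]
      oB := fun i k => by
        rw [← (hfix k i).2.1, ← map_mul, ← (hrel i).2.1, ← mul_assoc, (hrel i).2.2.2.2.1,
          zero_mul, map_zero]
      Bo := fun i k => by
        conv_lhs => rw [← (hfix k i).2.1]
        rw [← map_mul, (hrel i).2.2.1]
      ob := fun i => (hrel i).2.2.2.1
      CB := fun i k => by
        conv_lhs => rw [← (hfix k i).2.2.2]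
        rw [← map_mul, ← (hrel i).2.1, ← mul_assoc, hCq, zero_mul, map_zero]
      Co := fun i => by
        have := congrArg star (hrel i).2.2.2.2.2.2.1
        rwa [star_mul, (hsa i).2.1.star_eq, hCsa.star_eq] at this
      bC := fun i => (hrel i).2.2.2.2.2.1
      comm := fun i j hij k l => by
        have hc := fun g h => hcomm i j hij g h
        refine ⟨hc k l _ (by simp) _ (by simp), ?_, ?_, ?_, ?_, ?_, ?_⟩
        · rw [← map_star]; exact hc k l _ (by simp) _ (by simp)
        · rw [← (hfix k j).1]; exact hc k k _ (by simp) _ (by simp)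
        · rw [← (hfix k j).2.1]; exact hc k k _ (by simp) _ (by simp)
        · rw [← (hfix k i).1, ← (hfix k j).1]; exact hc k k _ (by simp) _ (by simp)
        · rw [← (hfix k i).1, ← (hfix k j).2.1]; exact hc k k _ (by simp) _ (by simp)
        · rw [← (hfix k i).2.1, ← (hfix k j).2.1]; exact hc k k _ (by simp) _ (by simp) }
  have h1 := hM₁ M (le_of_lt (Nat.lt_of_succ_le (le_max_left _ _))) D d
  rw [one_smul] at h1
  have hsig : 5 * σ ≤ ε := by
    have : ε' ^ 2 ≤ ε' := by
      have := min_le_right ε (1 : ℝ)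
      nlinarith
    linarith [min_le_left ε (1 : ℝ)]
  set s := d.sv n (coeff n j₀ p) with hs
  refine ⟨s, ?_, ?_, d.C_mul_sv n _, d.sv_mul_sv n _, h1.trans (by linarith)⟩
  · have h2 : ‖s‖ * ‖s‖ ≤ 2 := by
      rw [← CStarRing.norm_star_mul_self]
      have h3 : ‖star s * s‖ ≤ ‖star s * s - C * C‖ + ‖C * C‖ := norm_le_norm_sub_add _ _
      have h4 : ‖C * C‖ ≤ 1 := (norm_mul_le _ _).trans (mul_le_one₀ hC (norm_nonneg _) hC)
      have h5 : 4 * σ ≤ 1 := by
        have := min_le_right ε (1 : ℝ)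
        nlinarith
      linarith [show ‖star s * s - C * C‖ ≤ 3 * σ + σ from h1]
    nlinarith [norm_nonneg s]
  intro h hh
  have hmap : act h s = d.sv n (coeff n (jt ⟨h, hh⟩) p) := by
    rw [hs, Sector.Data.sv_coeff, Sector.Data.sv_coeff, map_sum]
    refine sum_congr rfl fun a _ => ?_
    have hB : ∀ t, act h (d.B t (j₀ a)) = d.B t (jt ⟨h, hh⟩ a) := fun t => (hact h a (v t)).symm
    have hvec : act h (d.vec n (j₀ a)) = d.vec n (jt ⟨h, hh⟩ a) := by
      simp only [Sector.Data.vec, map_sum, ← Complex.coe_smul, map_smul, map_sect]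
      refine sum_congr rfl fun i _ => ?_
      congr 2
      · exact funext hB
      · exact funext fun t => (hfix h t).2.1
    have hkb : ∀ x y, act h (d.kbar (j₀ x) (j₀ y)) = d.kbar (jt ⟨h, hh⟩ x) (jt ⟨h, hh⟩ y) := by
      intro x y
      simp only [Sector.Data.kbar, Sector.Data.gram, ← Complex.coe_smul, map_smul, map_sum,
        map_mul, map_star]
      congr 1
      refine sum_congr rfl fun t _ => ?_
      show star (act h (act (x : G) (v t))) * act h (act (y : G) (v t)) = _
      rw [← hact, ← hact]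
    have hkp : ∀ x y, act h (d.kp (j₀ x) (j₀ y)) = d.kp (jt ⟨h, hh⟩ x) (jt ⟨h, hh⟩ y) := by
      intro x y
      unfold Sector.Data.kp
      rcases eq_or_ne x y with rfl | hxy
      · simp
      · rw [if_neg (hj₀.ne hxy), if_neg ((hjt _).ne hxy)]
        exact hkb x y
    have hev : act h (d.evK (subst n j₀ (p a))) = d.evK (subst n (jt ⟨h, hh⟩) (p a)) := by
      have e : ((((act h : D →⋆ₐ[ℂ] D).toAlgHom).comp d.evK).restrictScalars ℝ).comp (subst n j₀) =
          (d.evK.restrictScalars ℝ).comp (subst n (jt ⟨h, hh⟩)) := by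
        refine FreeAlgebra.hom_ext (funext fun xy => ?_)
        obtain ⟨x, y⟩ := xy
        show act h (d.evK (subst n j₀ (FreeAlgebra.ι ℝ (x, y)))) =
          d.evK (subst n (jt ⟨h, hh⟩) (FreeAlgebra.ι ℝ (x, y)))
        simp only [subst, FreeAlgebra.lift_ι_apply, entry, AlgHom.map_smul_of_tower, map_add,
          map_one, map_fej]
        simp only [Sector.Data.evK, FreeAlgebra.lift_ι_apply]
        simp only [← Complex.coe_smul, map_smul, map_add, map_one, map_fej, hkp]
      exact AlgHom.congr_fun e (p a)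
    have hCh : act h d.C = d.C :=
      (hfix h ⟨0, lt_of_lt_of_le M₁.succ_pos (le_max_left _ _)⟩).2.2.2
    simp only [map_mul, hvec, hev, hCh]
  have hsub : d.sv n (coeff n (jt ⟨h, hh⟩) p - coeff n j₀ p) =
      d.sv n (coeff n (jt ⟨h, hh⟩) p) - d.sv n (coeff n j₀ p) := by
    simp only [Sector.Data.sv, Pi.sub_apply, map_sub, mul_sub, sub_mul, sum_sub_distrib]
  have h2 := hM₂ ⟨h, hh⟩ M ((Finset.le_sup (mem_univ _)).trans (le_max_right _ _)) D d
  rw [zero_smul, sub_zero, hsub, ← hmap, CStarRing.norm_star_mul_self] at h2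
  have hfin : ‖act h s - s‖ ≤ ε' := by
    by_contra hlt
    have := mul_self_lt_mul_self hε0.le (not_le.1 hlt)
    rw [hs] at this
    nlinarith
  exact hfin.trans (min_le_left _ _)

end Vale.Agent.P095.General
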