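import Vale.Agent.P095.General.Chain
import Vale.Agent.P095.General.Hom
import Vale.Agent.P095.General.Length
import Vale.Agent.P095.General.Linear
import Vale.Agent.P095.General.Pair
import Vale.Agent.P095.General.Sector

/-!
Assembly: actions of countable amenable groups on separable C*-algebras, unital or not.
-/

noncomputable section

open Filter Topology
open scoped BoundedContinuousFunction

namespace Vale.Agent.P095.General

open Vale.Agent.P101

universe u v

/-- The main statement, given Spread and Fair. -/
theorem final_of_spread_fair (hSp : SpreadStatement.{u, v}) (hF : FairStatement.{u, v}) :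
    Final.{u, v} :=
  final_of centralA_ok (fixed_of hSp (pair_ok linear_ok hF) length_ok sector_ok)

/-- No characters on the central sequence algebra exactly when the dimension drop algebra maps
unitally into its invariant part, given Spread and Fair. -/
theorem noChar_iff_of (hSp : SpreadStatement.{u, v}) (hF : FairStatement.{u, v}) (G : Type v)
    [Group G] [Countable G] (hG : Folner G) (A : Type u) [NonUnitalCStarAlgebra A]
    [TopologicalSpace.SeparableSpace A] (α : G → A ≃⋆ₐ[ℂ] A)
    (hα : ∀ g h x, α (g * h) x = α g (α h x)) (ω : Ultrafilter ℕ)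
    (hω : (ω : Filter ℕ) ≤ cofinite) :
    IsEmpty (CentralCharA ω A) ↔ ∃ H : CentralHomA ω A, ∀ g, InDimDrop g → ∀ k, ∀ b : A,
      Tendsto (fun n => ‖(α k (H.val g n) - H.val g n) * b‖ + ‖b * (α k (H.val g n) - H.val g n)‖)
        (ω : Filter ℕ) (𝓝 0) :=
  ⟨fun he => invariantHomA_of_inv ω hα hω (final_of_spread_fair hSp hF G hG A α hα ω hω he),
    fun ⟨H, _⟩ => isEmpty_of_homA ω H⟩

end Vale.Agent.P095.General
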