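import Vale.Agent.P095.General.Spread.Data
import Vale.Agent.P095.General.Spread.Limit
import Vale.Agent.P095.General.Spread.Variance

/-!
Module Spread: almost invariant elements with spread spectrum in every quotient. Otherwise states
killing the offending ideals are product states on blocks of samples, which give Gaussian data, and
there the average of the translates of the bounded chaos polynomial has variance bounded below.
-/

noncomputable section

open scoped ComplexOrder ComplexConjugate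
open Filter Topology

namespace Vale.Agent.P095.General

open Vale.Agent.P101

universe u v

namespace Spread

/-- Data with a smaller error are data with a larger one. -/
def gaussMono {M : Type u} [CStarAlgebra M] {ι : Type v} [Fintype ι] {I : Type} {τ τ' C : ℝ}
    (d : Gauss M ι I τ C) (h : τ ≤ τ') : Gauss M ι I τ' C :=
  { d with K_near := fun a g g' => (d.K_near a g g').trans h }

namespace Blocks

variable {G : Type v} [Group G] [DecidableEq G] {D : Type u} [CStarAlgebra D] {sys : Sys G D}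
  {ι : Finset G} {I : Type} {R : ℕ} {ρ : ℝ} (bl : Blocks sys ι I R ρ) {θ : ℝ}

lemma Kh_mem (a : I) (g h : G) : bl.Kh θ a g h ∈ bl.out (grp a) := by
  unfold Blocks.Kh
  split_ifs
  · exact one_mem _
  · exact bl.rsmul_mem _ (bl.kern_mem a g h)

lemma norm_Kh (h0 : 0 ≤ θ) (h1 : θ ≤ 1) (a : I) (g h : G) : ‖bl.Kh θ a g h‖ ≤ 4 := by
  unfold Blocks.Kh
  split_ifs
  · rcases subsingleton_or_nontrivial D with _ | _
    · simp [Subsingleton.elim (1 : D) 0]
    · rw [norm_one]; norm_num
  · rw [norm_smul, Real.norm_eq_abs, abs_of_nonneg (by linarith)]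
    refine (mul_le_of_le_one_left (norm_nonneg _) (by linarith)).trans ?_
    rw [kern, norm_smul, Real.norm_eq_abs, abs_of_nonneg (inv_nonneg.2 (Nat.cast_nonneg R))]
    refine (mul_le_mul_of_nonneg_left ((norm_sum_le _ _).trans (Finset.sum_le_sum
      fun r _ => bl.norm_xx a r g h)) (inv_nonneg.2 (Nat.cast_nonneg R))).trans ?_
    rw [Finset.sum_const, Finset.card_univ, Fintype.card_fin, nsmul_eq_mul, ← mul_assoc]
    exact mul_le_of_le_one_left (by norm_num) inv_mul_le_one

lemma comm_Kh_fh (h0 : 0 < θ) (h1 : θ ≤ 1) (a b : I) (g h g' : G) :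
    ‖bl.Kh θ a g h * bl.fh θ b g' - bl.fh θ b g' * bl.Kh θ a g h‖ ≤ 16 * rt R := by
  have hn : 0 ≤ 16 * rt R := mul_nonneg (by norm_num) (rt_nonneg R)
  by_cases hab : a = b
  · subst hab
    unfold Blocks.Kh
    split_ifs
    · simpa using hn
    · rw [smul_mul_assoc, mul_smul_comm, ← smul_sub, norm_smul, Real.norm_eq_abs,
        abs_of_nonneg (by linarith), norm_sub_rev]
      exact (mul_le_of_le_one_left (norm_nonneg _) (by linarith)).trans
        (bl.comm_fh_kern h0 a g' g h)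
  · rw [(bl.out_comm (disjoint_grp hab) _ (Kh_mem bl a g h) _ (bl.fh_mem θ b g')).eq, sub_self,
      norm_zero]
    exact hn

lemma comm_Kh_Kh (h0 : 0 ≤ θ) (h1 : θ ≤ 1) (a b : I) (g h g' h' : G) :
    ‖bl.Kh θ a g h * bl.Kh θ b g' h' - bl.Kh θ b g' h' * bl.Kh θ a g h‖ ≤ 32 / R := by
  have hn : (0 : ℝ) ≤ 32 / R := div_nonneg (by norm_num) (Nat.cast_nonneg R)
  by_cases hab : a = b
  · subst hab
    unfold Blocks.Kh
    split_ifs
    · simpa using hn
    · simpa using hn
    · simpa using hn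
    · rw [smul_mul_smul_comm, smul_mul_smul_comm, ← smul_sub, norm_smul, Real.norm_eq_abs,
        abs_of_nonneg (mul_self_nonneg _)]
      exact (mul_le_of_le_one_left (norm_nonneg _) (by nlinarith)).trans
        (bl.comm_kern a g h g' h')
  · rw [(bl.out_comm (disjoint_grp hab) _ (Kh_mem bl a g h) _ (Kh_mem bl b g' h')).eq, sub_self,
      norm_zero]
    exact hn

end Blocks

lemma ncard_symmDiff_translates {G : Type v} [Group G] (P : Finset G) {c : ℝ} {h h' : G}
    (hh : (Set.ncard (((h * ·) '' (P : Set G)) \ (P : Set G)) : ℝ) ≤ c)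
    (hh' : (Set.ncard (((h' * ·) '' (P : Set G)) \ (P : Set G)) : ℝ) ≤ c) :
    (Set.ncard (symmDiff ((h * ·) '' (P : Set G)) ((h' * ·) '' (P : Set G))) : ℝ) ≤ 4 * c := by
  have hP : (P : Set G).Finite := P.finite_toSet
  have key : ∀ k : G, ((P : Set G) \ ((k * ·) '' (P : Set G))).ncard =
      (((k * ·) '' (P : Set G)) \ (P : Set G)).ncard := fun k => by
    have a := Set.ncard_inter_add_ncard_sdiff_eq_ncard ((k * ·) '' (P : Set G)) (P : Set G)
      (hP.image _)
    have b := Set.ncard_inter_add_ncard_sdiff_eq_ncard (P : Set G) ((k * ·) '' (P : Set G)) hP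
    rw [Set.inter_comm] at b
    have e : ((k * ·) '' (P : Set G)).ncard = (P : Set G).ncard :=
      Set.ncard_image_of_injective _ (mul_right_injective k)
    omega
  set A := (h * ·) '' (P : Set G)
  set B := (h' * ·) '' (P : Set G)
  have hA : A.Finite := hP.image _
  have hB : B.Finite := hP.image _
  have hsub : symmDiff A B ⊆ (A \ P ∪ P \ A) ∪ (B \ P ∪ P \ B) := by
    intro x hx
    rw [Set.mem_symmDiff] at hx
    by_cases hxP : x ∈ (P : Set G)
    · rcases hx with ⟨-, hb⟩ | ⟨-, ha⟩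
      · exact Or.inr (Or.inr ⟨hxP, hb⟩)
      · exact Or.inl (Or.inr ⟨hxP, ha⟩)
    · rcases hx with ⟨ha, -⟩ | ⟨hb, -⟩
      · exact Or.inl (Or.inl ⟨ha, hxP⟩)
      · exact Or.inr (Or.inl ⟨hb, hxP⟩)
  have h1 := (Set.ncard_le_ncard hsub ((hA.sdiff.union hP.sdiff).union
    (hB.sdiff.union hP.sdiff))).trans
    ((Set.ncard_union_le _ _).trans (add_le_add (Set.ncard_union_le _ _) (Set.ncard_union_le _ _)))
  rw [key h, key h'] at h1
  have h2 : ((symmDiff A B).ncard : ℝ) ≤
      ((A \ (P : Set G)).ncard : ℝ) + (A \ (P : Set G)).ncard +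
        (((B \ (P : Set G)).ncard : ℝ) + (B \ (P : Set G)).ncard) := by
    exact_mod_cast h1
  linarith

lemma re_le_of_kills {D : Type u} [CStarAlgebra D] {F : D → ℂ} {c : ℝ} {x : D}
    (hx : IsSelfAdjoint x) (hF : F ∈ Kills (cut c x)) : (F x).re ≤ c := by
  let _ : PartialOrder D := CStarAlgebra.spectralOrder D
  have _ : StarOrderedRing D := CStarAlgebra.spectralOrderedRing D
  have h : x ≤ algebraMap ℝ D c + cut c x := by
    rw [cut, ← cfc_const c x, ← cfc_add x (fun _ : ℝ => c) (fun s => max (s - c) 0)]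
    conv_lhs => rw [← cfc_id' ℝ x]
    refine cfc_mono fun s _ => ?_
    linarith [le_max_left (s - c) 0]
  have h0 := hF.2 1 1
  rw [one_mul, mul_one] at h0
  have := (Complex.le_def.1 (St.mono hF.1 h)).1
  rw [St.add hF.1, h0, add_zero, Algebra.algebraMap_eq_smul_one, St.rsmul hF.1, St.one hF.1,
    mul_one, Complex.ofReal_re] at this
  exact this

end Spread

open Spread

/-- Module Spread. -/
theorem spread_ok : IngredientStatement.{u, v} → CoreStatement.{u, v} → SpreadStatement.{u, v} := by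
  intro hIng hCore
  refine ⟨1 / 4000, by norm_num, ?_⟩
  intro G _ _ hG D _ sys E ε hε
  classical
  obtain ⟨Fs, hFne, hFE⟩ := hG E (ε / 2) (by positivity)
  obtain ⟨P, hPne, hPF⟩ := hG Fs (1 / 100) (by norm_num)
  set ι : Finset G := P ∪ Finset.image₂ (· * ·) Fs P with hιdef
  have hmem : ∀ (h : ↥Fs) (q : ↥P), (h : G) * q ∈ ι := fun h q =>
    Finset.mem_union_right _ (Finset.mem_image₂_of_mem h.2 q.2)
  let j : ↥Fs → ↥P → ↥ι := fun h q => ⟨h * q, hmem h q⟩
  have hj : ∀ h, Function.Injective (j h) := fun h q q' e =>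
    Subtype.ext (mul_left_cancel (congrArg Subtype.val e))
  have : Nonempty ↥P := hPne.to_subtype
  obtain ⟨τ, hτ, hCore⟩ := hCore ↥P (1 / 100) 1 (by norm_num) le_rfl
  set θ := min (τ / 100) (1 / 100) with hθdef
  have hθ : 0 < θ := lt_min (by positivity) (by norm_num)
  have hθ1 : θ ≤ 1 / 100 := min_le_right _ _
  have hθτ : 100 * θ ≤ τ := by linarith [min_le_left (τ / 100) (1 / 100)]
  obtain ⟨L, m, p, hp⟩ := hCore (2 / θ)
  obtain ⟨ρ, hρ0, hρ1, hbl⟩ := exists_blocks hIng sys (hPne.mono Finset.subset_union_left : ι.Nonempty)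
  let bl : ∀ R, Spread.Blocks sys ι (Fin L × Fin m) R ρ := fun R => (hbl _ R).some
  let gv : ℕ → G → Var L m ↥P → D := fun R h =>
    Sum.elim (fun x => (bl R).fh θ x.1 (h * x.2))
      (fun x => (bl R).Kh θ x.1 (h * x.2.1) (h * x.2.2))
  let lf : ℕ → G → D := fun R h => FreeAlgebra.lift ℂ (gv R h) p
  let Xh : ℕ → G → D := fun R h => (2 : ℂ)⁻¹ • (lf R h + star (lf R h))
  let term : ℕ → G → D := fun R h => (1 / 20 : ℝ) • bsin (1 / 20) (Xh R h)
  let T : ℕ → D := fun R => (Fs.card : ℝ)⁻¹ • ∑ h ∈ Fs, term R h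
  have hXsa : ∀ R h, IsSelfAdjoint (Xh R h) := fun R h => by
    refine IsSelfAdjoint.smul ?_ (IsSelfAdjoint.add_star_self _)
    simp [IsSelfAdjoint]
  have hTsa : ∀ R, IsSelfAdjoint (T R) := fun R =>
    (IsSelfAdjoint.all _).smul (isSelfAdjoint_sum _ fun h _ =>
      (IsSelfAdjoint.all _).smul (bsin_sa _ _))
  have hterm1 : ∀ R h, ‖term R h‖ ≤ 1 := fun R h => by
    have := norm_bsin (η := (1 / 20 : ℝ)) (by norm_num) (Xh R h)
    rw [norm_smul, Real.norm_eq_abs, abs_of_pos (by norm_num : (0 : ℝ) < 1 / 20)]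
    norm_num at this ⊢
    linarith
  have hcardF : (0 : ℝ) < Fs.card := Nat.cast_pos.2 hFne.card_pos
  have hT1 : ∀ R, ‖T R‖ ≤ 1 := fun R => by
    rw [norm_smul, Real.norm_eq_abs, abs_of_pos (inv_pos.2 hcardF), inv_mul_le_iff₀ hcardF]
    exact (norm_sum_le _ _).trans ((Finset.sum_le_sum fun h _ => hterm1 R h).trans_eq
      (by rw [Finset.sum_const, nsmul_eq_mul]))
  have hact : ∀ R g h, sys.act g (term R h) = term R (g * h) := fun R g h => by
    have hlf : sys.act g (lf R h) = lf R (g * h) := by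
      have e : ((sys.act g : D →⋆ₐ[ℂ] D).toAlgHom).comp (FreeAlgebra.lift ℂ (gv R h)) =
          FreeAlgebra.lift ℂ (gv R (g * h)) := by
        refine FreeAlgebra.hom_ext (funext fun x => ?_)
        rcases x with x | x
        · simp [gv, Blocks.act_fh, mul_assoc]
        · simp [gv, Blocks.act_Kh, mul_assoc]
      exact DFunLike.congr_fun e p
    have hX : sys.act g (Xh R h) = Xh R (g * h) := by
      simp only [Xh, map_smul, map_add, map_star, hlf]
    have hb : sys.act g (bsin (1 / 20) (Xh R h)) = bsin (1 / 20) (Xh R (g * h)) := by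
      simp only [bsin]
      rw [StarAlgHomClass.map_cfc (R := ℝ) (S := ℂ) (sys.act g)
        (fun s : ℝ => Real.sin (1 / 20 * s) / (1 / 20)) (Xh R h) (by fun_prop) (continuous_act _)
        (hXsa R h) (hX ▸ hXsa R (g * h)), hX]
    simp only [term]
    rw [← Complex.coe_smul, map_smul, hb, Complex.coe_smul]
  have hinv : ∀ R, ∀ g ∈ E, ‖sys.act g (T R) - T R‖ ≤ ε := fun R g hg => by
    have hg' := hFE g hg
    simp only [T]
    rw [show sys.act g ((Fs.card : ℝ)⁻¹ • ∑ h ∈ Fs, term R h) =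
        (Fs.card : ℝ)⁻¹ • ∑ h ∈ Fs, term R (g * h) by
      rw [← Complex.coe_smul, map_smul, map_sum, Complex.coe_smul]
      simp only [hact]]
    rw [← smul_sub, norm_smul, Real.norm_eq_abs, abs_of_pos (inv_pos.2 hcardF),
      inv_mul_le_iff₀ hcardF]
    set gF := Fs.image (g * ·) with hgF
    have e : ∑ h ∈ Fs, term R (g * h) = ∑ h ∈ gF, term R h :=
      (Finset.sum_image fun x _ y _ e => mul_left_cancel e).symm
    rw [e, ← Finset.sum_sdiff_sub_sum_sdiff]
    have hc : gF.card = Fs.card := Finset.card_image_of_injective _ (mul_right_injective g)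
    have hc2 : (gF \ Fs).card = (Fs \ gF).card := Finset.card_sdiff_comm hc
    have hn : ((((g * ·) '' (Fs : Set G)) \ (Fs : Set G)).ncard) = (gF \ Fs).card := by
      rw [← Finset.coe_image, ← Finset.coe_sdiff, Set.ncard_coe_finset, hgF]
    rw [hn] at hg'
    have hb : ∀ S : Finset G, ‖∑ h ∈ S, term R h‖ ≤ S.card := fun S =>
      (norm_sum_le _ _).trans ((Finset.sum_le_sum fun h _ => hterm1 R h).trans_eq (by simp))
    refine (norm_sub_le _ _).trans ?_
    have a1 := hb (gF \ Fs)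
    have a2 := hb (Fs \ gF)
    rw [← hc2] at a2
    linarith
  suffices h : ∃ R, ∀ t : ℝ, Full {cut (1 / 4000) ((T R - algebraMap ℝ D t) * (T R - algebraMap ℝ D t))} by
    obtain ⟨R, hR⟩ := h
    exact ⟨T R, hTsa R, hT1 R, hinv R, hR⟩
  by_contra hcon
  push Not at hcon
  choose t ht using hcon
  choose Φ hΦK hΦmul hΦb using fun R => (bl R).state _ (ht R)
  have hΦ : ∀ R, Φ R ∈ St D := fun R => (hΦK R).1
  have hrt0 : Tendsto rt atTop (𝓝 0) :=
    tendsto_inv_atTop_zero.comp (Real.tendsto_sqrt_atTop.comp tendsto_natCast_atTop_atTop)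
  have hpow0 : Tendsto (fun R : ℕ => 16 * ((R : ℝ) ^ 4 * ρ ^ R)) atTop (𝓝 0) := by
    simpa using (tendsto_pow_const_mul_const_pow_of_lt_one 4 hρ0 hρ1).const_mul 16
  obtain ⟨R₀, hR₀⟩ := Filter.eventually_atTop.1 ((eventually_ge_atTop 1).and
    ((hrt0.eventually_le_const hθ).and (hpow0.eventually_le_const hθ)))
  let Rn : ℕ → ℕ := fun n => n + R₀
  have hRn : Tendsto Rn atTop atTop := tendsto_add_atTop_nat R₀
  have hR1 : ∀ n, 1 ≤ Rn n := fun n => (hR₀ _ (Nat.le_add_left R₀ n)).1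
  have hsm : ∀ n, ((Rn n : ℝ) + 1) ^ 4 * ρ ^ Rn n ≤ θ := fun n => by
    have h1 : (1 : ℝ) ≤ Rn n := Nat.one_le_cast.2 (hR1 n)
    refine le_trans ?_ (hR₀ _ (Nat.le_add_left R₀ n)).2.2
    rw [← mul_assoc]
    refine mul_le_mul_of_nonneg_right ?_ (pow_nonneg hρ0 _)
    calc ((Rn n : ℝ) + 1) ^ 4 ≤ (2 * (Rn n : ℝ)) ^ 4 :=
          pow_le_pow_left₀ (by positivity) (by linarith) 4
      _ = 16 * (Rn n : ℝ) ^ 4 := by ring
  choose d hdΦ hdf hdK using fun n => (bl (Rn n)).exists_gauss (hΦ (Rn n)) (hΦmul (Rn n))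
    (hΦb (Rn n)) hρ0 hθ hθ1 (hR1 n) (hsm n) (hR₀ _ (Nat.le_add_left R₀ n)).2.1
  let d' : ∀ n, Gauss D ↥ι (Fin L × Fin m) τ (2 / θ) := fun n => gaussMono (d n) hθτ
  have hlim : Tendsto (fun n => rt (Rn n)) atTop (𝓝 0) := hrt0.comp hRn
  have hlim' : Tendsto (fun n => 32 / (Rn n : ℝ)) atTop (𝓝 0) :=
    (tendsto_const_div_atTop_nhds_zero_nat 32).comp hRn
  have hlimμ : Tendsto (fun n => 2 * (Rn n : ℝ) * ρ ^ Rn n + 2 * rt (Rn n)) atTop (𝓝 0) := by
    have h1 := (tendsto_pow_const_mul_const_pow_of_lt_one 1 hρ0 hρ1).comp hRn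
    simpa [Function.comp_def, mul_assoc] using (h1.const_mul 2).add (hlim.const_mul 2)
  let Ks : Set (ℕ → D) :=
    {k | ∃ (a : Fin L × Fin m) (g h : ↥ι), k = fun n => (bl (Rn n)).Kh θ a g h}
  have hθle : θ ≤ 1 := hθ1.trans (by norm_num)
  have hKs : ∀ k ∈ Ks, Bd k ∧ star k ∈ Ks := by
    rintro k ⟨a, g, h, rfl⟩
    exact ⟨⟨4, fun n => Blocks.norm_Kh (bl (Rn n)) hθ.le hθle a g h⟩,
      a, h, g, funext fun n => (bl (Rn n)).star_Kh θ a g h⟩
  let FΦ : ℕ → D → ℂ := fun n => Φ (Rn n)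
  have hFΦ : ∀ n, FΦ n ∈ St D := fun n => hΦ (Rn n)
  have agf : ∀ a (g : ↥ι), Agree FΦ hFΦ Ks (fun n => (bl (Rn n)).fh θ a g)
      (fun n => (d' n).f a g) := by
    intro a g
    choose μ hμ hμe using fun n => hdf n a g
    have hμ0 : Tendsto (fun n => ‖μ n‖) atTop (𝓝 0) :=
      squeeze_zero (fun n => norm_nonneg _) hμ hlimμ
    have hdiff : ∀ n, (bl (Rn n)).fh θ a g - (d' n).f a g = μ n • 1 := fun n => by
      show (bl (Rn n)).fh θ a g - (d n).f a g = μ n • 1
      rw [hμe, sub_sub_cancel]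
    have hcl : Close FΦ hFΦ Ks (fun n => (bl (Rn n)).fh θ a g) (fun n => (d' n).f a g) :=
      Close.of_scalar μ hμ0 hdiff
    have hs1 : star (fun n => (bl (Rn n)).fh θ a g) = fun n => (bl (Rn n)).fh θ a g :=
      funext fun n => (bsin_sa θ _ : IsSelfAdjoint _).star_eq
    have hs2 : star (fun n => (d' n).f a g) = fun n => (d' n).f a g :=
      funext fun n => ((d' n).f_sa a g).star_eq
    refine ⟨⟨θ⁻¹, fun n => norm_bsin hθ _⟩, ⟨⟨2 / θ, fun n => (d' n).f_norm a g⟩, ?_⟩, hcl,
      by rw [hs1, hs2]; exact hcl⟩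
    rintro k ⟨b, g', h', rfl⟩
    refine squeeze_zero (fun n => norm_nonneg _) (fun n => ?_)
      (by simpa using hlim.const_mul 16)
    show ‖(bl (Rn n)).Kh θ b g' h' * (d n).f a g - (d n).f a g * (bl (Rn n)).Kh θ b g' h'‖ ≤ _
    rw [hμe, mul_sub, sub_mul, smul_mul_assoc, mul_smul_comm, one_mul, mul_one,
      sub_sub_sub_cancel_right]
    exact Blocks.comm_Kh_fh (bl (Rn n)) hθ hθle b a g' h' g
  have agK : ∀ a (g h : ↥ι), Agree FΦ hFΦ Ks (fun n => (bl (Rn n)).Kh θ a g h)
      (fun n => (d' n).K a g h) := by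
    have hcl : ∀ a (g h : ↥ι), Close FΦ hFΦ Ks (fun n => (bl (Rn n)).Kh θ a g h)
        (fun n => (d' n).K a g h) := by
      intro a g h
      choose k hk hke hkn using fun n => hdK n a g h
      refine Close.of_member ⟨a, g, h, rfl⟩ (fun n x => ?_)
        (squeeze_zero (fun n => St.nrm_nonneg (hFΦ n) _) hkn (by simpa using hlim.const_mul 8))
      show Commute ((d n).K a g h) x
      rw [hke]; exact (Commute.one_left x).smul_left _
    intro a g h
    choose k hk hke hkn using fun n => hdK n a g h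
    have e : (fun n => (d' n).K a g h) = fun n => k n • (1 : D) := funext hke
    refine ⟨⟨4, fun n => Blocks.norm_Kh (bl (Rn n)) hθ.le hθle a g h⟩, e ▸ AC.scalar k hk, hcl a g h, ?_⟩
    have hs1 : star (fun n => (bl (Rn n)).Kh θ a g h) = fun n => (bl (Rn n)).Kh θ a h g :=
      funext fun n => (bl (Rn n)).star_Kh θ a g h
    have hs2 : star (fun n => (d' n).K a g h) = fun n => (d' n).K a h g :=
      funext fun n => (d' n).K_star a g h
    rw [hs1, hs2]
    exact hcl a h g
  have aglift : ∀ (hh : ↥Fs) (q : FreeAlgebra ℂ (Var L m ↥P)), Agree FΦ hFΦ Ks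
      (fun n => FreeAlgebra.lift ℂ (gv (Rn n) hh) q)
      (fun n => FreeAlgebra.lift ℂ (Sum.elim (fun x => (d' n).f x.1 (j hh x.2))
        fun x => (d' n).K x.1 (j hh x.2.1) (j hh x.2.2)) q) := by
    intro hh q
    induction q using FreeAlgebra.induction with
    | grade0 r =>
      simp only [AlgHom.commutes]
      simp only [Algebra.algebraMap_eq_smul_one]
      exact Agree.scalar (fun _ => r) (C := ‖r‖) fun _ => le_rfl
    | grade1 x =>
      simp only [FreeAlgebra.lift_ι_apply]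
      rcases x with ⟨a, q⟩ | ⟨a, q, q'⟩
      · exact agf a (j hh q)
      · exact agK a (j hh q) (j hh q')
    | mul a b ha hb => simp only [map_mul]; exact ha.mul hKs hb
    | add a b ha hb => simp only [map_add]; exact ha.add hb
  have agX : ∀ hh : ↥Fs, Agree FΦ hFΦ Ks (fun n => Xh (Rn n) hh) (fun n => (d' n).X (j hh) p) :=
    fun hh => ((aglift hh p).add ((aglift hh p).star' hKs)).smul' (2 : ℂ)⁻¹
  have hev : ∀ᶠ n in atTop, ∀ hh : ↥Fs,
      St.nrm (hFΦ n) (Xh (Rn n) hh - (d' n).X (j hh) p) ≤ 1 / 1000 ∧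
      St.nrm (hFΦ n) (Xh (Rn n) hh * Xh (Rn n) hh - (d' n).X (j hh) p * (d' n).X (j hh) p) ≤
        1 / 1000 := by
    refine eventually_all.2 fun hh => ?_
    exact ((agX hh).tendsto.eventually_le_const (by norm_num)).and
      (((agX hh).mul hKs (agX hh)).tendsto.eventually_le_const (by norm_num))
  obtain ⟨n, hn⟩ := hev.exists
  let R := Rn n
  have hcore := fun (h h' : ↥Fs) => hp D ↥ι (d' n) (j h) (j h') (hj h) (hj h')
  have hΦe : ∀ x, (d' n).Φ x = Φ R x := hdΦ n
  simp only [hΦe] at hcore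
  have hZsa : ∀ h : ↥Fs, IsSelfAdjoint ((d' n).X (j h) p) := fun h => by
    refine IsSelfAdjoint.smul ?_ (IsSelfAdjoint.add_star_self _)
    simp [IsSelfAdjoint]
  have hlow := spread_lower (hΦ R) (Finset.univ : Finset ↥Fs)
    (Finset.univ_nonempty_iff.2 hFne.to_subtype) (fun h => Xh R h) (fun h => (d' n).X (j h) p)
    (fun h _ => hXsa R h) (fun h _ => hZsa h) (e := 1 / 1000) le_rfl (fun h _ => hn h)
    (fun h _ => by
      have h1 := ((hcore h h).2.2.2.1 1 (one_mem _)).1
      rw [one_mul] at h1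
      refine h1.trans (mul_le_of_le_one_right (by norm_num) ?_)
      rcases subsingleton_or_nontrivial D with _ | _
      · simp [Subsingleton.elim (1 : D) 0]
      · exact norm_one.le)
    (fun h _ => by linarith [(abs_le.1 (hcore h h).1).1])
    (fun h _ => (hcore h h).2.1)
    (fun h _ h' _ => by
      refine (hcore h h').2.2.1.trans ?_
      rw [Fintype.card_coe]
      have hs : (symmDiff (Set.range (j h)) (Set.range (j h'))).ncard =
          (symmDiff (((h : G) * ·) '' (P : Set G)) (((h' : G) * ·) '' (P : Set G))).ncard := by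
        have hr : ∀ k : ↥Fs, Subtype.val '' Set.range (j k) = ((k : G) * ·) '' (P : Set G) := by
          intro k
          rw [← Set.range_comp]
          ext x
          simp only [j, Function.comp_def, Set.mem_range, Set.mem_image, Finset.mem_coe]
          exact ⟨fun ⟨q, e⟩ => ⟨q, q.2, e⟩, fun ⟨q, hq, e⟩ => ⟨⟨q, hq⟩, e⟩⟩
        rw [← Set.ncard_image_of_injective _ (Subtype.val_injective (p := fun x => x ∈ ι)),
          Set.image_symmDiff Subtype.val_injective, hr, hr]
      have hb := ncard_symmDiff_translates P (hPF h h.2) (hPF h' h'.2)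
      have hPc : (0 : ℝ) < P.card := Nat.cast_pos.2 hPne.card_pos
      rw [hs, ← le_sub_iff_add_le, div_le_iff₀ hPc]
      linarith) (t R)
  have hsa : IsSelfAdjoint (T R - algebraMap ℝ D (t R)) :=
    (hTsa R).sub ((IsSelfAdjoint.all (t R)).algebraMap D)
  have hup := re_le_of_kills (c := 1 / 4000) (by rw [IsSelfAdjoint, star_mul, hsa.star_eq]) (hΦK R)
  have hTeq : T R = ((Finset.univ : Finset ↥Fs).card : ℝ)⁻¹ •
      ∑ h : ↥Fs, (1 / 20 : ℝ) • bsin (1 / 20) (Xh R h) := by
    rw [Finset.card_univ, Fintype.card_coe, Finset.sum_coe_sort Fs (fun h => term R h)]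
  rw [hTeq] at hup
  linarith

end Vale.Agent.P095.General
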